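import Claimed.Agent.R323.Ix.CalcB

/-!
# Row 323, block F, leaf L-IX-CALC-C: the geometric identities on the link.      Architect: helper154.
* `ixLap_X`: `f = <a,x>/|x|`: `Δf = -(k-1)<a,x>|x|⁻³`, `D²f(N,N) = -<a,x>|x|⁻³` when `<x,N> = 0`.
* `ixLap_N`: `f = ∂_a u`: `Δf = ∂_a(Δu) = <a,∇H>`, `H = Δu`; on `C`: `∇H = -|h|² N` (tangential part `0` because `H∘π = 0` near `x`, normal part = (H1) `gmtSim_H1`); `D²f(N,N) = D³u(a,N,N) = -<ha,hN> = 0` ((E2) `gmtSim_E2`, (E1)).
* `ixTg_X_X`: `∇(<a,x>/|x|) = a - <a,x>x` at `|x| = 1`.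
Keep the statements; add helper lemmas freely (prefix `ix`).      PROVED (helper99).
-/

set_option autoImplicit false
open scoped ContDiff ENNReal RealInnerProductSpace Topology
open MeasureTheory Metric Set Filter

namespace Claimed.Agent.R323

open Claimed.Agent.Gmt

variable {k : ℕ} {U : Set (E k)} {u f g f' g' : E k → ℝ} {σ : Measure (E k)}

/-! ## C. the geometric identities on the link -/

/-- Euler's identity. -/
theorem ixc_euler (hT : IxTube U u) {x : E k} (hx : x ∈ U) : ⟪x, gradient u x⟫ = u x := by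
  have hd : DifferentiableAt ℝ u x :=
    (hT.smooth.contDiffAt (hT.opn.mem_nhds hx)).differentiableAt (by simp)
  have h1 : HasDerivAt (fun t : ℝ => t • x) x 1 := by
    simpa using (hasDerivAt_id (1 : ℝ)).smul_const x
  have hd' : HasFDerivAt u (fderiv ℝ u x) ((1 : ℝ) • x) := by rw [one_smul]; exact hd.hasFDerivAt
  have h2 : HasDerivAt (fun t : ℝ => u (t • x)) (fderiv ℝ u x x) 1 :=
    hd'.comp_hasDerivAt (1 : ℝ) h1
  have h3 : (fun t : ℝ => u (t • x)) =ᶠ[𝓝 (1 : ℝ)] fun t => t * u x := by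
    filter_upwards [lt_mem_nhds (zero_lt_one' ℝ)] with t ht using hT.hom t ht x
  have h4 : HasDerivAt (fun t : ℝ => t * u x) (u x) 1 := by
    simpa using (hasDerivAt_id (1 : ℝ)).mul_const (u x)
  have h5 := (h2.congr_of_eventuallyEq h3.symm).unique h4
  rw [real_inner_comm, gmtSim_inner_gradient]
  exact h5

/-- a function vanishing on the cone has no tangential derivative there. -/
theorem ixc_tang (hT : IxTube U u) {f : E k → ℝ} (hf : ContDiffOn ℝ ∞ f U) (hf0 : ∀ x ∈ U, u x = 0 → f x = 0)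
    {p : E k} (hp : p ∈ U) (hp0 : u p = 0) (j : Fin k) :
    gmtSimPd j f p = gmtSimPd j u p * ∑ l, gmtSimPd l u p * gmtSimPd l f p := by
  have hU := hT.opn
  have hu := hT.smooth
  have hdu : DifferentiableAt ℝ u p := gmtSimId_diff hU hu hp
  have hd : ∀ i, DifferentiableAt ℝ (gmtSimPd i u) p := fun i =>
    gmtSimId_diff hU (gmtSim_contDiffOn_pd hU hu i) hp
  have hdP : DifferentiableAt ℝ (gmtSimPi u) p :=
    ((gmtSimId_Pi_smooth hU hu).contDiffAt (hU.mem_nhds hp)).differentiableAt (by simp)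
  have hPp : gmtSimPi u p = p := by unfold gmtSimPi; rw [hp0]; simp
  have hdf : DifferentiableAt ℝ f (gmtSimPi u p) := by rw [hPp]; exact gmtSimId_diff hU hf hp
  have hdPi : ∀ l, gmtSimPd j (fun y => gmtSimPi u y l) p =
      (if l = j then 1 else 0) - gmtSimPd j u p * gmtSimPd l u p := by
    intro l
    have e : (fun y => gmtSimPi u y l) = fun y => y l - u y * gmtSimPd l u y :=
      funext fun y => gmtSimId_Pi_apply u y l
    rw [e, gmtSimId_pd_sub (gmtSimId_diff_coord p l) (hdu.fun_mul (hd l)),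
      gmtSimId_pd_coord, gmtSimId_pd_mul hdu (hd l), hp0]
    ring
  have hF0 : ∀ x ∈ U, (fun y => f (gmtSimPi u y)) x = (fun _ => (0 : ℝ)) x := fun x hx =>
    hf0 _ (hT.proj x hx).1 (hT.proj x hx).2
  have h1 : gmtSimPd j (fun y => f (gmtSimPi u y)) p = 0 := by
    rw [gmtSim_pd_congr hU hF0 hp j, gmtSimId_pd_const]
  rw [gmtSimId_chain hdf hdP, hPp] at h1
  simp only [hdPi, mul_sub, Finset.sum_sub_distrib, mul_ite, mul_one, mul_zero, Finset.sum_ite_eq',
    Finset.mem_univ, if_true] at h1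
  rw [Finset.mul_sum]
  have e2 : ∑ l, gmtSimPd l f p * (gmtSimPd j u p * gmtSimPd l u p)
      = ∑ l, gmtSimPd j u p * (gmtSimPd l u p * gmtSimPd l f p) :=
    Finset.sum_congr rfl fun l _ => by ring
  rw [e2] at h1
  linarith


theorem ixc_N_eq (u : E k → ℝ) (a : E k) : ixN u a = fun y => ∑ j, a j * gmtSimPd j u y := by
  funext y
  unfold ixN
  rw [gmtSim_inner_eq_sum]
  exact Finset.sum_congr rfl fun j _ => by rw [gmtSim_gradient_apply]

/-- `Δ_Σ <a,N> = - |A|² <a,N>`. -/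
theorem ixLap_N (hT : IxTube U u) (a : E k) {x : E k} (hx : x ∈ ixLink U u) :
    ixLap u (ixN u a) x = - ixP u x * ixN u a x := by
  have hU := hT.opn
  have hu := hT.smooth
  have hxU : x ∈ U := hx.1
  have hx0 : u x = 0 := hx.2.1
  have hd1 : ∀ {y}, y ∈ U → ∀ j, DifferentiableAt ℝ (gmtSimPd j u) y := fun hy j =>
    gmtSimId_diff hU (gmtSim_contDiffOn_pd hU hu j) hy
  have hd2 : ∀ {y}, y ∈ U → ∀ i j, DifferentiableAt ℝ (gmtSimU2 u i j) y := fun hy i j =>
    gmtSimId_diff hU (gmtSimId_U2_smooth hU hu i j) hy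
  have hfs : ContDiffOn ℝ ∞ (ixN u a) U := by
    rw [ixc_N_eq]
    exact ContDiffOn.sum fun j _ => contDiffOn_const.mul (gmtSim_contDiffOn_pd hU hu j)
  -- first and second derivatives of `f`
  have h1 : ∀ m, ∀ y ∈ U, gmtSimPd m (ixN u a) y = ∑ j, a j * gmtSimU2 u m j y := by
    intro m y hy
    rw [ixc_N_eq, gmtSimId_pd_sum _ (fun j _ => (differentiableAt_const (a j)).fun_mul (hd1 hy j))]
    refine Finset.sum_congr rfl fun j _ => ?_
    rw [gmtSimId_pd_mul (differentiableAt_const (a j)) (hd1 hy j), gmtSimId_pd_const]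
    unfold gmtSimU2
    ring
  have h2 : ∀ l m, gmtSimPd l (gmtSimPd m (ixN u a)) x = ∑ j, a j * gmtSimU3 u l m j x := by
    intro l m
    rw [gmtSim_pd_congr hU (h1 m) hxU l,
      gmtSimId_pd_sum _ (fun j _ => (differentiableAt_const (a j)).fun_mul (hd2 hxU m j))]
    refine Finset.sum_congr rfl fun j _ => ?_
    rw [gmtSimId_pd_mul (differentiableAt_const (a j)) (hd2 hxU m j), gmtSimId_pd_const]
    unfold gmtSimU3
    ring
  have hsym := fun i j l => gmtSim_U3_symm hU hu hxU i j l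
  -- the Laplacian
  have hL0 : ∀ y ∈ U, u y = 0 → gmtSimLapl u y = 0 := by
    intro y hy hy0
    have := hT.harm y hy hy0
    rw [gmtSim_div_gradient hU hu hy] at this
    exact this
  have e1 : gmtDiv (gradient (ixN u a)) x = ∑ j, a j * gmtSimPd j (gmtSimLapl u) x := by
    rw [gmtSim_div_gradient hU hfs hxU]
    simp only [h2]
    rw [Finset.sum_comm]
    refine Finset.sum_congr rfl fun j _ => ?_
    rw [gmtSimId_Lapl_pd hU hu hxU, Finset.mul_sum]
    refine Finset.sum_congr rfl fun i _ => ?_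
    rw [(hsym i i j).2, (hsym i j i).1]
  have e2 : ⟪gmtSimH (ixN u a) x (gradient u x), gradient u x⟫ = 0 := by
    rw [gmtSimId_H_bilin hU hfs hxU]
    simp only [h2, gmtSim_gradient_apply]
    have e3 : ∀ m j, ∑ l, gmtSimPd l u x * gmtSimU3 u l m j x
        = - ∑ q, gmtSimU2 u m q x * gmtSimU2 u q j x := fun m j => gmtSim_E2 hU hu hT.eik hxU m j
    have e4 : ∀ q, ∑ m, gmtSimPd m u x * gmtSimU2 u m q x = 0 := fun q => gmtSim_E1 hU hu hT.eik hxU q
    calc ∑ l, ∑ m, gmtSimPd l u x * gmtSimPd m u x * ∑ j, a j * gmtSimU3 u l m j x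
        = ∑ m, ∑ j, gmtSimPd m u x * a j * ∑ l, gmtSimPd l u x * gmtSimU3 u l m j x := by
          rw [Finset.sum_comm]
          refine Finset.sum_congr rfl fun m _ => ?_
          simp only [Finset.mul_sum]
          rw [Finset.sum_comm]
          refine Finset.sum_congr rfl fun j _ => Finset.sum_congr rfl fun l _ => by ring
      _ = - ∑ j, ∑ q, a j * gmtSimU2 u q j x * ∑ m, gmtSimPd m u x * gmtSimU2 u m q x := by
          simp only [e3, Finset.mul_sum, mul_neg, Finset.sum_neg_distrib]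
          congr 1
          rw [Finset.sum_comm]
          refine Finset.sum_congr rfl fun j _ => ?_
          rw [Finset.sum_comm]
          refine Finset.sum_congr rfl fun q _ => Finset.sum_congr rfl fun m _ => by ring
      _ = 0 := by simp [e4]
  have e5 : ∀ j, gmtSimPd j (gmtSimLapl u) x = gmtSimPd j u x * (- gmtSimA u x) := by
    intro j
    rw [ixc_tang hT (gmtSimId_Lapl_smooth hU hu) hL0 hxU hx0 j, gmtSim_H1 hU hu hT.eik hxU,
      gmtSim_A_eq hU hu hxU]
    rfl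
  unfold ixLap ixP gmtSimL
  rw [e1, e2]
  simp only [e5]
  rw [ixc_N_eq]
  simp only [Finset.mul_sum]
  rw [sub_zero, Finset.mul_sum]
  refine Finset.sum_congr rfl fun j _ => by ring

/-- powers of the radius. -/
noncomputable def ixcR (p : ℝ) (y : E k) : ℝ := (‖y‖ ^ 2) ^ p

theorem ixcR_hasFDerivAt (p : ℝ) {y : E k} (hy : y ≠ 0) :
    HasFDerivAt (ixcR p) ((2 * p * ixcR (p - 1) y) • innerSL ℝ y) y := by
  have h1 : HasFDerivAt (fun z : E k => ‖z‖ ^ 2) (2 • innerSL ℝ y) y :=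
    (hasStrictFDerivAt_norm_sq y).hasFDerivAt
  have h2 := h1.rpow_const (p := p) (Or.inl (by positivity : ‖y‖ ^ 2 ≠ 0))
  unfold ixcR
  have e : ((2 * p * (‖y‖ ^ 2) ^ (p - 1)) • innerSL ℝ y : E k →L[ℝ] ℝ)
      = (p * (‖y‖ ^ 2) ^ (p - 1)) • (2 • innerSL ℝ y : E k →L[ℝ] ℝ) := by
    ext v
    simp only [_root_.smul_apply, smul_eq_mul, nsmul_eq_mul]
    push_cast
    ring
  rw [e]
  exact h2

theorem ixcR_gradient (p : ℝ) {y : E k} (hy : y ≠ 0) : gradient (ixcR p) y = (2 * p * ixcR (p - 1) y) • y := by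
  refine ext_inner_right ℝ fun v => ?_
  rw [gmtSim_inner_gradient, (ixcR_hasFDerivAt p hy).fderiv, inner_smul_left]
  simp

theorem ixcR_one (p : ℝ) {y : E k} (hy : ‖y‖ = 1) : ixcR p y = 1 := by
  unfold ixcR
  rw [hy]
  simp

theorem ixcR_inv (y : E k) : ixcR (-(1 / 2)) y = ‖y‖⁻¹ := by
  unfold ixcR
  rw [Real.rpow_neg (by positivity), ← Real.sqrt_eq_rpow, Real.sqrt_sq (norm_nonneg y)]

theorem ixcX_eq (a : E k) : ixX a = fun y => ⟪a, y⟫ * ixcR (-(1 / 2)) y := by
  funext y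
  unfold ixX
  rw [ixcR_inv, div_eq_mul_inv]

theorem ixc_lin_hasFDerivAt (a y : E k) : HasFDerivAt (fun z : E k => ⟪a, z⟫) (innerSL ℝ a) y :=
  (innerSL ℝ a).hasFDerivAt

theorem ixc_lin_gradient (a y : E k) : gradient (fun z : E k => ⟪a, z⟫) y = a := by
  refine ext_inner_right ℝ fun v => ?_
  rw [gmtSim_inner_gradient, (ixc_lin_hasFDerivAt a y).fderiv]
  simp

/-- the gradient of `<a,x>/|x|`. -/
theorem ixcX_gradient (a : E k) {y : E k} (hy : y ≠ 0) :
    gradient (ixX a) y = ixcR (-(1 / 2)) y • a - (⟪a, y⟫ * ixcR (-(3 / 2)) y) • y := by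
  rw [ixcX_eq, ixb_grad_mul (ixc_lin_hasFDerivAt a y).differentiableAt (ixcR_hasFDerivAt _ hy).differentiableAt,
    ixc_lin_gradient, ixcR_gradient _ hy, smul_smul]
  have e : (-(1 / 2) - 1 : ℝ) = -(3 / 2) := by norm_num
  rw [e, add_comm, sub_eq_add_neg, ← neg_smul]
  congr 2
  ring

/-- `∇<a,x>·∇<b,x> = <a,b> - <a,x><b,x> - <a,N><b,N>`. -/
theorem ixTg_X_X (hT : IxTube U u) (a b : E k) {x : E k} (hx : x ∈ ixLink U u) :
    ixTg u (ixX a) (ixX b) x = ⟪a, b⟫ - ixX a x * ixX b x - ixN u a x * ixN u b x := by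
  have hn : ‖x‖ = 1 := hx.2.2
  have hx0 : x ≠ 0 := fun h => by rw [h, norm_zero] at hn; exact zero_ne_one hn
  have hxN : ⟪x, gradient u x⟫ = 0 := by rw [ixc_euler hT hx.1, hx.2.1]
  have hxx : ⟪x, x⟫ = 1 := by rw [real_inner_self_eq_norm_sq, hn]; norm_num
  unfold ixTg gmtSimTg ixN
  rw [ixcX_gradient a hx0, ixcX_gradient b hx0, ixcR_one _ hn, ixcR_one _ hn, hn]
  unfold ixX
  rw [hn]
  simp only [one_smul, mul_one, inner_sub_left, inner_sub_right, inner_smul_left, inner_smul_right, hxN, hxx,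
    div_one, RCLike.conj_to_real]
  rw [real_inner_comm x a, real_inner_comm b x]
  ring

theorem ixc_div_id (x : E k) : gmtDiv (fun y : E k => y) x = k := by
  unfold gmtDiv
  have : fderiv ℝ (fun y : E k => y) x = ContinuousLinearMap.id ℝ (E k) := fderiv_fun_id
  rw [this]
  simp [eb]

theorem ixc_div_const (a x : E k) : gmtDiv (fun _ : E k => a) x = 0 := by
  unfold gmtDiv
  simp

/-- `Δ_Σ <a,x> = - m <a,x>`. -/
theorem ixLap_X {m : ℕ} {U : Set (E (m + 2))} {u : E (m + 2) → ℝ} (hT : IxTube U u) (a : E (m + 2))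
    {x : E (m + 2)} (hx : x ∈ ixLink U u) : ixLap u (ixX a) x = -(m : ℝ) * ixX a x := by
  have hn : ‖x‖ = 1 := hx.2.2
  have hx0 : x ≠ 0 := fun h => by rw [h, norm_zero] at hn; exact zero_ne_one hn
  have hxN : ⟪x, gradient u x⟫ = 0 := by rw [ixc_euler hT hx.1, hx.2.1]
  have hxx : ⟪x, x⟫ = 1 := by rw [real_inner_self_eq_norm_sq, hn]; norm_num
  have hNN : ⟪gradient u x, gradient u x⟫ = 1 := by
    rw [real_inner_self_eq_norm_sq, hT.eik x hx.1]; norm_num
  set N := gradient u x with hN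
  have hfield : gradient (ixX a) =ᶠ[𝓝 x] fun y =>
      (ixcR (-(1 / 2)) y • (fun _ : E (m + 2) => a) y) + ((fun z => -(⟪a, z⟫ * ixcR (-(3 / 2)) z)) y • (fun z : E (m + 2) => z) y) := by
    filter_upwards [isOpen_ne.mem_nhds hx0] with y hy
    rw [ixcX_gradient a hy, neg_smul, sub_eq_add_neg]
  have d1 : DifferentiableAt ℝ (ixcR (-(1 / 2)) : E (m + 2) → ℝ) x := (ixcR_hasFDerivAt _ hx0).differentiableAt
  have d3 : DifferentiableAt ℝ (ixcR (-(3 / 2)) : E (m + 2) → ℝ) x := (ixcR_hasFDerivAt _ hx0).differentiableAt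
  have dl : DifferentiableAt ℝ (fun z : E (m + 2) => ⟪a, z⟫) x := (ixc_lin_hasFDerivAt a x).differentiableAt
  have d2 : DifferentiableAt ℝ (fun z : E (m + 2) => -(⟪a, z⟫ * ixcR (-(3 / 2)) z)) x := (dl.fun_mul d3).fun_neg
  have g2 : gradient (fun z : E (m + 2) => -(⟪a, z⟫ * ixcR (-(3 / 2)) z)) x = -(a - (3 * ⟪a, x⟫) • x) := by
    have e : (fun z : E (m + 2) => -(⟪a, z⟫ * ixcR (-(3 / 2)) z)) = fun z => (-1 : ℝ) * (⟪a, z⟫ * ixcR (-(3 / 2)) z) := by
      funext z; ring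
    rw [e, ixb_grad_smul (-1) (dl.fun_mul d3), ixb_grad_mul dl d3, ixc_lin_gradient, ixcR_gradient _ hx0,
      ixcR_one _ hn, ixcR_one _ hn, smul_smul, one_smul, neg_one_smul]
    congr 1
    have e2 : (⟪a, x⟫ * (2 * -(3 / 2) * 1) : ℝ) = -(3 * ⟪a, x⟫) := by ring
    rw [e2, neg_smul]
    abel
  unfold ixLap
  rw [ixb_L_of_field hfield, ← hN,
    ixb_field_add N (d1.fun_smul (differentiableAt_const a)) (d2.fun_smul differentiableAt_fun_id),
    ixb_field_smul N d1 (differentiableAt_const a), ixb_field_smul N d2 differentiableAt_fun_id,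
    ixc_div_const, ixc_div_id, g2, ixcR_gradient _ hx0, ixcR_one _ hn, ixcR_one _ hn, ixcR_one _ hn, hn]
  have f1 : fderiv ℝ (fun _ : E (m + 2) => a) x = 0 := by simp
  have f2 : fderiv ℝ (fun z : E (m + 2) => z) x = ContinuousLinearMap.id ℝ _ := fderiv_fun_id
  rw [f1, f2]
  unfold ixX
  rw [hn]
  simp only [inner_neg_left, inner_sub_left, inner_smul_left, hxN, hxx, hNN, RCLike.conj_to_real,
    _root_.zero_apply, inner_zero_left, ContinuousLinearMap.id_apply]
  rw [real_inner_comm a x]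
  push_cast
  ring

theorem ixP_nonneg (u : E k → ℝ) (x : E k) : 0 ≤ ixP u x :=
  mul_nonneg (sq_nonneg _) (gmtSim_A_nonneg u x)

/-- on the link `<x,N> = 0`. -/
theorem ix_inner_self_grad (hT : IxTube U u) {x : E k} (hx : x ∈ ixCone U u) : ⟪x, gradient u x⟫ = 0 := by
  rw [ixc_euler hT hx.1, hx.2]

end Claimed.Agent.R323
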