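import Claimed.Agent.R323.Ix.Defs

/-!
# Row 323, block F, leaf L-IX-CALC-B: sum, product and chain rules for `ixTg`, `ixLap` (pointwise on `U`).      Architect: helper154.
`gmtSimTg u f g = ∇f·∇g - (∇f·N)(∇g·N)`, `gmtSimL u f = div ∇f - <D²f N, N>`; everything follows from the rules for `gradient` and `gmtSimH f = fderiv (gradient f)` of sums, products, compositions
(see `gmtSimI_gradient_mul` in Lib/Gmt/SimInt).   Keep the statements; add helper lemmas freely (prefix `ix`).
-/

set_option autoImplicit false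
open scoped ContDiff ENNReal RealInnerProductSpace Topology
open MeasureTheory Metric Set Filter

namespace Claimed.Agent.R323

open Claimed.Agent.Gmt

variable {k : ℕ} {U : Set (E k)} {u f g f' g' : E k → ℝ} {σ : Measure (E k)}

/-! ## A. helpers -/

theorem ixb_grad_congr {x : E k} (h : g =ᶠ[𝓝 x] f) : gradient g =ᶠ[𝓝 x] gradient f := by
  filter_upwards [h.fderiv (𝕜 := ℝ)] with y hy
  unfold gradient
  rw [hy]

theorem ixb_L_of_field {X : E k → E k} {x : E k} (h : gradient g =ᶠ[𝓝 x] X) :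
    gmtSimL u g x = gmtDiv X x - ⟪fderiv ℝ X x (gradient u x), gradient u x⟫ := by
  unfold gmtSimL gmtSimH gmtDiv
  rw [h.fderiv_eq]

theorem ixb_diffAt (hT : IxTube U u) (hf : IxFun U f) {x : E k} (hx : x ∈ U) : DifferentiableAt ℝ f x :=
  (hf.smooth.contDiffAt (hT.opn.mem_nhds hx)).differentiableAt (by simp)

theorem ixb_grad_diffAt (hT : IxTube U u) (hf : IxFun U f) {x : E k} (hx : x ∈ U) : DifferentiableAt ℝ (gradient f) x :=
  ((gmtSim_contDiffOn_gradient hT.opn hf.smooth).contDiffAt (hT.opn.mem_nhds hx)).differentiableAt (by simp)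

theorem ixb_grad_add {x : E k} (hf : DifferentiableAt ℝ f x) (hg : DifferentiableAt ℝ g x) :
    gradient (fun y => f y + g y) x = gradient f x + gradient g x := by
  unfold gradient
  rw [fderiv_fun_add hf hg, map_add]

theorem ixb_grad_smul (c : ℝ) {x : E k} (hf : DifferentiableAt ℝ f x) :
    gradient (fun y => c * f y) x = c • gradient f x := by
  refine ext_inner_right ℝ fun v => ?_
  rw [gmtSim_inner_gradient, fderiv_const_mul hf, inner_smul_left, gmtSim_inner_gradient]
  simp

theorem ixb_grad_mul {x : E k} (hf : DifferentiableAt ℝ f x) (hg : DifferentiableAt ℝ g x) :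
    gradient (fun y => f y * g y) x = f x • gradient g x + g x • gradient f x := by
  refine ext_inner_right ℝ fun v => ?_
  rw [gmtSim_inner_gradient, fderiv_fun_mul hf hg, inner_add_left, inner_smul_left, inner_smul_left,
    gmtSim_inner_gradient, gmtSim_inner_gradient]
  simp

theorem ixb_grad_comp {F : ℝ → ℝ} {x : E k} (hF : DifferentiableAt ℝ F (f x)) (hf : DifferentiableAt ℝ f x) :
    gradient (fun y => F (f y)) x = deriv F (f x) • gradient f x := by
  refine ext_inner_right ℝ fun v => ?_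
  have h : fderiv ℝ (fun y => F (f y)) x = deriv F (f x) • fderiv ℝ f x :=
    (hF.hasDerivAt.comp_hasFDerivAt x hf.hasFDerivAt).fderiv
  rw [gmtSim_inner_gradient, h, inner_smul_left, gmtSim_inner_gradient]
  simp

/-- the functional `div X - <DX N, N>` of a field `φ T` -/
theorem ixb_field_smul {φ : E k → ℝ} {T : E k → E k} {x : E k} (N : E k) (hφ : DifferentiableAt ℝ φ x) (hT : DifferentiableAt ℝ T x) :
    gmtDiv (fun y => φ y • T y) x - ⟪fderiv ℝ (fun y => φ y • T y) x N, N⟫
      = φ x * (gmtDiv T x - ⟪fderiv ℝ T x N, N⟫) + (⟪gradient φ x, T x⟫ - ⟪gradient φ x, N⟫ * ⟪T x, N⟫) := by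
  have h : fderiv ℝ (fun y => φ y • T y) x = φ x • fderiv ℝ T x + (fderiv ℝ φ x).smulRight (T x) :=
    (hφ.hasFDerivAt.smul hT.hasFDerivAt).fderiv
  rw [gmtDiv_smul hφ hT, h, gmtSim_inner_gradient, gmtSim_inner_gradient]
  simp only [add_apply, smul_apply, ContinuousLinearMap.smulRight_apply,
    inner_add_left, inner_smul_left]
  simp
  ring

theorem ixb_field_add {T T' : E k → E k} {x : E k} (N : E k) (hT : DifferentiableAt ℝ T x) (hT' : DifferentiableAt ℝ T' x) :
    gmtDiv (fun y => T y + T' y) x - ⟪fderiv ℝ (fun y => T y + T' y) x N, N⟫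
      = (gmtDiv T x - ⟪fderiv ℝ T x N, N⟫) + (gmtDiv T' x - ⟪fderiv ℝ T' x N, N⟫) := by
  rw [gmtDiv_add hT hT', fderiv_fun_add hT hT', add_apply, inner_add_left]
  ring

theorem ixb_L_eq (u f : E k → ℝ) (x : E k) :
    gmtSimL u f x = gmtDiv (gradient f) x - ⟪fderiv ℝ (gradient f) x (gradient u x), gradient u x⟫ := rfl

/-! ## B. rules for `ixTg` and `ixLap` (pointwise on `U`) -/

theorem ixTg_comm (u f g : E k → ℝ) (x : E k) : ixTg u f g x = ixTg u g f x := by
  unfold ixTg gmtSimTg
  rw [real_inner_comm, mul_comm ⟪gradient f x, gradient u x⟫]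

theorem ixTg_self_nonneg (hT : IxTube U u) (f : E k → ℝ) {x : E k} (hx : x ∈ U) : 0 ≤ ixTg u f f x := by
  unfold ixTg gmtSimTg
  have h1 := abs_real_inner_le_norm (gradient f x) (gradient u x)
  rw [hT.eik x hx, mul_one] at h1
  have h2 : ⟪gradient f x, gradient u x⟫ * ⟪gradient f x, gradient u x⟫ ≤ ‖gradient f x‖ ^ 2 := by
    rw [← sq, ← sq_abs]
    exact pow_le_pow_left₀ (abs_nonneg _) h1 2
  rw [real_inner_self_eq_norm_sq]
  exact mul_nonneg (sq_nonneg _) (by linarith)

theorem ixTg_const_left (u g : E k → ℝ) (c : ℝ) (x : E k) : ixTg u (fun _ => c) g x = 0 := by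
  have h : gradient (fun _ : E k => c) x = 0 := by
    unfold gradient
    rw [fderiv_fun_const]
    simp
  unfold ixTg gmtSimTg
  rw [h]
  simp

theorem ixTg_add_left (hT : IxTube U u) (hf : IxFun U f) (hf' : IxFun U f') (g : E k → ℝ) {x : E k} (hx : x ∈ U) :
    ixTg u (fun y => f y + f' y) g x = ixTg u f g x + ixTg u f' g x := by
  unfold ixTg gmtSimTg
  rw [ixb_grad_add (ixb_diffAt hT hf hx) (ixb_diffAt hT hf' hx), inner_add_left, inner_add_left]
  ring

theorem ixTg_smul_left (hT : IxTube U u) (c : ℝ) (hf : IxFun U f) (g : E k → ℝ) {x : E k} (hx : x ∈ U) :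
    ixTg u (fun y => c * f y) g x = c * ixTg u f g x := by
  unfold ixTg gmtSimTg
  rw [ixb_grad_smul c (ixb_diffAt hT hf hx), inner_smul_left, inner_smul_left]
  simp
  ring

theorem ixTg_mul_left (hT : IxTube U u) (hf : IxFun U f) (hf' : IxFun U f') (g : E k → ℝ) {x : E k} (hx : x ∈ U) :
    ixTg u (fun y => f y * f' y) g x = f x * ixTg u f' g x + f' x * ixTg u f g x := by
  unfold ixTg gmtSimTg
  rw [ixb_grad_mul (ixb_diffAt hT hf hx) (ixb_diffAt hT hf' hx), inner_add_left, inner_add_left, inner_smul_left,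
    inner_smul_left, inner_smul_left, inner_smul_left]
  simp
  ring

theorem ixTg_comp_left (hT : IxTube U u) {F : ℝ → ℝ} {V : Set ℝ} (hV : IsOpen V) (hF : ContDiffOn ℝ ∞ F V)
    (hf : IxFun U f) (hfV : ∀ x ∈ U, f x ∈ V) (g : E k → ℝ) {x : E k} (hx : x ∈ U) :
    ixTg u (fun y => F (f y)) g x = deriv F (f x) * ixTg u f g x := by
  have hFd : DifferentiableAt ℝ F (f x) := (hF.contDiffAt (hV.mem_nhds (hfV x hx))).differentiableAt (by simp)
  unfold ixTg gmtSimTg
  rw [ixb_grad_comp hFd (ixb_diffAt hT hf hx), inner_smul_left, inner_smul_left]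
  simp
  ring

theorem ixLap_const (u : E k → ℝ) (c : ℝ) (x : E k) : ixLap u (fun _ => c) x = 0 := by
  have h : gradient (fun _ : E k => c) = fun _ => 0 := by
    funext y
    unfold gradient
    rw [fderiv_fun_const]
    simp
  unfold ixLap
  rw [ixb_L_eq, h]
  unfold gmtDiv
  simp

theorem ixLap_add (hT : IxTube U u) (hf : IxFun U f) (hg : IxFun U g) {x : E k} (hx : x ∈ U) :
    ixLap u (fun y => f y + g y) x = ixLap u f x + ixLap u g x := by
  have h : gradient (fun y => f y + g y) =ᶠ[𝓝 x] fun y => gradient f y + gradient g y := by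
    filter_upwards [hT.opn.mem_nhds hx] with y hy
    exact ixb_grad_add (ixb_diffAt hT hf hy) (ixb_diffAt hT hg hy)
  unfold ixLap
  rw [ixb_L_of_field h, ixb_field_add _ (ixb_grad_diffAt hT hf hx) (ixb_grad_diffAt hT hg hx), ixb_L_eq, ixb_L_eq]
  ring

theorem ixLap_smul (hT : IxTube U u) (c : ℝ) (hf : IxFun U f) {x : E k} (hx : x ∈ U) :
    ixLap u (fun y => c * f y) x = c * ixLap u f x := by
  have h : gradient (fun y => c * f y) =ᶠ[𝓝 x] fun y => (fun _ : E k => c) y • gradient f y := by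
    filter_upwards [hT.opn.mem_nhds hx] with y hy
    exact ixb_grad_smul c (ixb_diffAt hT hf hy)
  have h0 : gradient (fun _ : E k => c) x = 0 := by
    unfold gradient
    rw [fderiv_fun_const]
    simp
  unfold ixLap
  rw [ixb_L_of_field h, ixb_field_smul _ (differentiableAt_const c) (ixb_grad_diffAt hT hf hx), ixb_L_eq, h0]
  simp
  ring

theorem ixLap_mul (hT : IxTube U u) (hf : IxFun U f) (hg : IxFun U g) {x : E k} (hx : x ∈ U) :
    ixLap u (fun y => f y * g y) x = f x * ixLap u g x + g x * ixLap u f x + 2 * ixTg u f g x := by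
  have h : gradient (fun y => f y * g y) =ᶠ[𝓝 x] fun y => f y • gradient g y + g y • gradient f y := by
    filter_upwards [hT.opn.mem_nhds hx] with y hy
    exact ixb_grad_mul (ixb_diffAt hT hf hy) (ixb_diffAt hT hg hy)
  have df := ixb_diffAt hT hf hx
  have dg := ixb_diffAt hT hg hx
  have dGf := ixb_grad_diffAt hT hf hx
  have dGg := ixb_grad_diffAt hT hg hx
  unfold ixLap ixTg gmtSimTg
  rw [ixb_L_of_field h, ixb_field_add (T := fun y => f y • gradient g y) (T' := fun y => g y • gradient f y) _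
      (df.smul dGg) (dg.smul dGf), ixb_field_smul _ df dGg, ixb_field_smul _ dg dGf,
    ixb_L_eq, ixb_L_eq, real_inner_comm (gradient f x) (gradient g x)]
  ring

theorem ixLap_comp (hT : IxTube U u) {F : ℝ → ℝ} {V : Set ℝ} (hV : IsOpen V) (hF : ContDiffOn ℝ ∞ F V)
    (hf : IxFun U f) (hfV : ∀ x ∈ U, f x ∈ V) {x : E k} (hx : x ∈ U) :
    ixLap u (fun y => F (f y)) x = deriv F (f x) * ixLap u f x + deriv (deriv F) (f x) * ixTg u f f x := by
  have hFd : ∀ y ∈ U, DifferentiableAt ℝ F (f y) := fun y hy =>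
    (hF.contDiffAt (hV.mem_nhds (hfV y hy))).differentiableAt (by simp)
  have hF' : ContDiffOn ℝ ∞ (deriv F) V := hF.deriv_of_isOpen hV (by simp)
  have hFd' : DifferentiableAt ℝ (deriv F) (f x) := (hF'.contDiffAt (hV.mem_nhds (hfV x hx))).differentiableAt (by simp)
  have h : gradient (fun y => F (f y)) =ᶠ[𝓝 x] fun y => (fun z => deriv F (f z)) y • gradient f y := by
    filter_upwards [hT.opn.mem_nhds hx] with y hy
    exact ixb_grad_comp (hFd y hy) (ixb_diffAt hT hf hy)
  have df := ixb_diffAt hT hf hx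
  have dφ : DifferentiableAt ℝ (fun z => deriv F (f z)) x := hFd'.comp x df
  unfold ixLap ixTg gmtSimTg
  rw [ixb_L_of_field h, ixb_field_smul _ dφ (ixb_grad_diffAt hT hf hx), ixb_grad_comp hFd' df, ixb_L_eq,
    inner_smul_left, inner_smul_left]
  simp
  ring

/-- `ixLap`, `ixTg` only depend on the germ. -/
theorem ixLap_congr (hT : IxTube U u) (h : ∀ x ∈ U, g x = f x) {x : E k} (hx : x ∈ U) :
    ixLap u g x = ixLap u f x := by
  have h1 : g =ᶠ[𝓝 x] f := by
    filter_upwards [hT.opn.mem_nhds hx] with y hy using h y hy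
  unfold ixLap
  rw [ixb_L_of_field (ixb_grad_congr h1), ixb_L_eq]

theorem ixTg_congr_left (hT : IxTube U u) (h : ∀ x ∈ U, f' x = f x) (g : E k → ℝ) {x : E k} (hx : x ∈ U) :
    ixTg u f' g x = ixTg u f g x := by
  have h1 : f' =ᶠ[𝓝 x] f := by
    filter_upwards [hT.opn.mem_nhds hx] with y hy using h y hy
  unfold ixTg gmtSimTg
  rw [(ixb_grad_congr h1).eq_of_nhds]

end Claimed.Agent.R323
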