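import Claimed.Agent.R323.Ix.CalcA
import Claimed.Agent.R323.Ix.CalcB

/-!
# Row 323, block F, leaf L-IX-CALC-D: integration against `σ`.      Architect: helper154.
`σ` is finite and carried by the compact link, `IxFun` functions are continuous there ⟹ integrable (`σ = σ.restrict Σ`, `ContinuousOn.integrableOn_compact`).
`ix_eq_zero_of_integral`: if `f(x₀) > 0`, then `f > f(x₀)/2` on `Σ ∩ ball x₀ r`, which has positive measure (`pos`, `supp`).
`ixB_eq`, `ixQ_eq`: field `ibp`.   Keep the statements; add helper lemmas freely (prefix `ix`).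
-/

set_option autoImplicit false
open scoped ContDiff ENNReal RealInnerProductSpace Topology
open MeasureTheory Metric Set Filter

namespace Claimed.Agent.R323

open Claimed.Agent.Gmt

variable {k : ℕ} {U : Set (E k)} {u f g f' g' : E k → ℝ} {σ : Measure (E k)}

/-! ## D. integration -/

theorem ixLink_subset (U : Set (E k)) (u : E k → ℝ) : ixLink U u ⊆ U := fun _ hx => hx.1

theorem IxFun.continuousOn_link (hf : IxFun U f) : ContinuousOn f (ixLink U u) :=
  hf.smooth.continuousOn.mono (ixLink_subset U u)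

/-- `σ`-almost every point lies on the link. -/
theorem ix_ae_mem (hG : IxGeom U u σ) : ∀ᵐ x ∂σ, x ∈ ixLink U u := by
  rw [Filter.Eventually, mem_ae_iff]
  exact hG.supp

theorem ix_restrict (hG : IxGeom U u σ) : σ.restrict (ixLink U u) = σ :=
  Measure.restrict_eq_self_of_ae_mem (ix_ae_mem hG)

theorem IxFun.integrable (hG : IxGeom U u σ) (hf : IxFun U f) : Integrable f σ := by
  haveI := hG.fin
  have h1 : IntegrableOn f (ixLink U u) σ := (hf.continuousOn_link (u := u)).integrableOn_compact hG.cpt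
  rwa [IntegrableOn, ix_restrict hG] at h1

theorem ix_integral_congr (hG : IxGeom U u σ) (h : ∀ x ∈ ixLink U u, f x = g x) :
    ∫ x, f x ∂σ = ∫ x, g x ∂σ := by
  refine integral_congr_ae ?_
  filter_upwards [ix_ae_mem hG] with x hx using h x hx

theorem ix_integral_mono (hG : IxGeom U u σ) (hf : IxFun U f) (hg : IxFun U g)
    (h : ∀ x ∈ ixLink U u, f x ≤ g x) : ∫ x, f x ∂σ ≤ ∫ x, g x ∂σ := by
  refine integral_mono_ae (hf.integrable hG) (hg.integrable hG) ?_
  filter_upwards [ix_ae_mem hG] with x hx using h x hx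

/-- a nonnegative function with vanishing integral vanishes on the link. -/
theorem ix_eq_zero_of_integral (hG : IxGeom U u σ) (hf : IxFun U f) (h0 : ∀ x ∈ ixLink U u, 0 ≤ f x)
    (h : ∫ x, f x ∂σ = 0) : ∀ x ∈ ixLink U u, f x = 0 := by
  intro x₀ hx₀
  by_contra hne
  have hpos : 0 < f x₀ := lt_of_le_of_ne (h0 x₀ hx₀) (Ne.symm hne)
  have hae : 0 ≤ᵐ[σ] f := by
    filter_upwards [ix_ae_mem hG] with x hx using h0 x hx
  have hz : f =ᵐ[σ] 0 := (integral_eq_zero_iff_of_nonneg_ae hae (hf.integrable hG)).1 h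
  have hcont : ContinuousAt f x₀ := hf.smooth.continuousOn.continuousAt (hG.opn.mem_nhds hx₀.1)
  have hev : ∀ᶠ y in 𝓝 x₀, 0 < f y := hcont.eventually (lt_mem_nhds hpos)
  obtain ⟨r, hr, hball⟩ := Metric.eventually_nhds_iff_ball.1 hev
  have h1 : σ (ball x₀ r) ≤ σ {y | ¬ f y = (0 : E k → ℝ) y} :=
    measure_mono fun y hy => (hball y hy).ne'
  have h2 : σ {y | ¬ f y = (0 : E k → ℝ) y} = 0 := ae_iff.1 hz
  have h3 := hG.pos x₀ hx₀ r hr
  rw [h2] at h1
  exact absurd h3 (not_lt.2 h1)

theorem ixLink_nonempty (hk : 0 < k) (hG : IxGeom U u σ) : (ixLink U u).Nonempty := by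
  by_contra hne
  rw [Set.not_nonempty_iff_eq_empty] at hne
  have h1 := hG.full (eb ⟨0, hk⟩) (fun x hx => by rw [hne] at hx; exact absurd hx (Set.notMem_empty x))
  have h2 : ‖(eb ⟨0, hk⟩ : E k)‖ = 1 := by simp [eb]
  rw [h1, norm_zero] at h2
  exact zero_ne_one h2

theorem ix_vol_pos (hk : 0 < k) (hG : IxGeom U u σ) : 0 < σ.real univ := by
  haveI := hG.fin
  obtain ⟨x, hx⟩ := ixLink_nonempty hk hG
  have h1 : 0 < σ univ := lt_of_lt_of_le (hG.pos x hx 1 one_pos) (measure_mono (subset_univ _))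
  exact ENNReal.toReal_pos h1.ne' (measure_ne_top σ univ)

/-- `∫ Δ_Σ f = 0`. -/
theorem ix_integral_lap (hG : IxGeom U u σ) (hf : IxFun U f) : ∫ x, ixLap u f x ∂σ = 0 := by
  have h := hG.ibp (fun _ => 1) f (IxFun.const 1) hf
  rw [← h]
  refine integral_congr_ae (Eventually.of_forall fun x => ?_)
  simp only [ixTg_const_left, one_mul, add_zero]

/-- `B(f,g) = ∫ f (Δg + (m + |A|²) g)`. -/
theorem ixB_eq (m : ℕ) (hG : IxGeom U u σ) (hf : IxFun U f) (hg : IxFun U g) :
    ixB m u σ f g = ∫ x, f x * (ixLap u g x + ((m : ℝ) + ixP u x) * g x) ∂σ := by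
  have hT := hG.toIxTube
  have h1 : Integrable (fun x => f x * ixLap u g x + ixTg u f g x) σ :=
    ((hf.mul (ixFun_lap hT hg)).add (ixFun_tg hT hf hg)).integrable hG
  have h2 : Integrable (fun x => -(ixTg u f g x) + ((m : ℝ) + ixP u x) * (f x * g x)) σ :=
    ((ixFun_tg hT hf hg).neg.add (((IxFun.const (m : ℝ)).add (ixFun_P hT)).mul (hf.mul hg))).integrable hG
  have h3 := hG.ibp f g hf hg
  unfold ixB
  rw [← add_zero (∫ x, (-(ixTg u f g x) + ((m : ℝ) + ixP u x) * (f x * g x)) ∂σ), ← h3, ← integral_add h2 h1]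
  refine integral_congr_ae (Eventually.of_forall fun x => ?_)
  simp only
  ring

theorem ixQ_eq (hG : IxGeom U u σ) (hf : IxFun U f) (hg : IxFun U g) :
    ixQ u σ f g = ∫ x, f x * (ixLap u g x + ixP u x * g x) ∂σ := by
  have hT := hG.toIxTube
  have h1 : Integrable (fun x => f x * ixLap u g x + ixTg u f g x) σ :=
    ((hf.mul (ixFun_lap hT hg)).add (ixFun_tg hT hf hg)).integrable hG
  have h2 : Integrable (fun x => -(ixTg u f g x) + ixP u x * (f x * g x)) σ :=
    ((ixFun_tg hT hf hg).neg.add ((ixFun_P hT).mul (hf.mul hg))).integrable hG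
  have h3 := hG.ibp f g hf hg
  unfold ixQ
  rw [← add_zero (∫ x, (-(ixTg u f g x) + ixP u x * (f x * g x)) ∂σ), ← h3, ← integral_add h2 h1]
  refine integral_congr_ae (Eventually.of_forall fun x => ?_)
  simp only
  ring

theorem ixB_comm (m : ℕ) (u : E k → ℝ) (σ : Measure (E k)) (f g : E k → ℝ) : ixB m u σ f g = ixB m u σ g f := by
  unfold ixB
  refine integral_congr_ae (Eventually.of_forall fun x => ?_)
  simp only [ixTg_comm u f g x, mul_comm (f x)]

theorem ixQ_comm (u : E k → ℝ) (σ : Measure (E k)) (f g : E k → ℝ) : ixQ u σ f g = ixQ u σ g f := by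
  unfold ixQ
  refine integral_congr_ae (Eventually.of_forall fun x => ?_)
  simp only [ixTg_comm u f g x, mul_comm (f x)]

theorem ixB_eq_Q (m : ℕ) (hG : IxGeom U u σ) (hf : IxFun U f) (hg : IxFun U g) :
    ixB m u σ f g = ixQ u σ f g + (m : ℝ) * ∫ x, f x * g x ∂σ := by
  have hT := hG.toIxTube
  have h1 : Integrable (fun x => (m : ℝ) * (f x * g x)) σ := ((hf.mul hg).smul (m : ℝ)).integrable hG
  have h2 : Integrable (fun x => -(ixTg u f g x) + ixP u x * (f x * g x)) σ :=
    ((ixFun_tg hT hf hg).neg.add ((ixFun_P hT).mul (hf.mul hg))).integrable hG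
  unfold ixB ixQ
  rw [← integral_const_mul, ← integral_add h2 h1]
  refine integral_congr_ae (Eventually.of_forall fun x => ?_)
  simp only
  ring

theorem ixQ_add_left (hG : IxGeom U u σ) (hf : IxFun U f) (hf' : IxFun U f') (hg : IxFun U g) :
    ixQ u σ (fun x => f x + f' x) g = ixQ u σ f g + ixQ u σ f' g := by
  have hT := hG.toIxTube
  have h1 : Integrable (fun x => -(ixTg u f g x) + ixP u x * (f x * g x)) σ :=
    ((ixFun_tg hT hf hg).neg.add ((ixFun_P hT).mul (hf.mul hg))).integrable hG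
  have h2 : Integrable (fun x => -(ixTg u f' g x) + ixP u x * (f' x * g x)) σ :=
    ((ixFun_tg hT hf' hg).neg.add ((ixFun_P hT).mul (hf'.mul hg))).integrable hG
  unfold ixQ
  rw [← integral_add h1 h2]
  refine ix_integral_congr hG fun x hx => ?_
  rw [ixTg_add_left hT hf hf' g hx.1]
  ring

theorem ixQ_smul_left (hG : IxGeom U u σ) (c : ℝ) (hf : IxFun U f) (hg : IxFun U g) :
    ixQ u σ (fun x => c * f x) g = c * ixQ u σ f g := by
  have hT := hG.toIxTube
  unfold ixQ
  rw [← integral_const_mul]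
  refine ix_integral_congr hG fun x hx => ?_
  rw [ixTg_smul_left hT c hf g hx.1]
  ring

end Claimed.Agent.R323
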