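import Claimed.Agent.R323.Ix.GeoB
import Claimed.Agent.R323.Kit.LinkIbp

/-!
# Row 323, block F, leaf L-IX-GEO-C: bridge GMT → abstract language, part C: integration by parts on the link.      Architect: helper154.

By `ix_geo_integral` (the integrand is `IxFun`: `ixFun_lap`, `ixFun_tg`) the claim is `∫_{B_1} F dμ_S = 0`, `F = |x|² (f Lc g + Tgc(f,g))`, `Lc = gmtSimL u`, `Tgc = gmtSimTg u`.
`kit_ibp hS.stat hU.toGmtSimTube` with `Y = ζ · ψ(|x|²) f ∇g`, `ψ ∈ C_c^∞((0,∞))`, `ζ` a cutoff `= 1` near `C ∩ supp ψ(|x|²)` with support in `U` (`gmtSim_exists_cutoff`; `gmtSim_test_smul`):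
on `C`:  `div Y - <DY N,N> = ψ (f Lc g + Tgc(f,g)) + 2ψ' f (<x,∇g> - <x,N><∇g,N>) = ψ(|x|²) |x|⁻² F`   since `<x,∇g> = 0` (`g` is `0`-homogeneous).
So `∫ ψ(|x|²)|x|⁻² F dμ_S = 0` for all such `ψ`.  Take `ψ_j(s) = s χ_j(s)`, `0 ≤ χ_j ≤ 1` smooth, `χ_j = 1` on `[1/j, 1-1/j]`, support in `(0,1)`: `χ_j(|x|²) → 1_{B_1 \ 0}` pointwise,
`|F| ≤ sup_Σ |F|` on `C`, `μ_S(B_1) < ∞`: dominated convergence.
-/

set_option autoImplicit false
open scoped ContDiff ENNReal RealInnerProductSpace Topology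
open MeasureTheory Metric Set Filter

namespace Claimed.Agent.R323

open Claimed.Agent.Gmt

variable {k : ℕ} {S U : Set (E k)}

theorem ix_geo_ibp (hk : 2 ≤ k) (hS : MinCone k S) (hU : GmtSimCone S U (gmtSimSd S))
    (hcon : ∀ x ∈ U, ∀ t : ℝ, 0 < t → t • x ∈ U) (f g : E k → ℝ) (hf : IxFun U f) (hg : IxFun U g) :
    ∫ x, (f x * ixLap (gmtSimSd S) g x + ixTg (gmtSimSd S) f g x) ∂(ixSig S) = 0 := by
  rw [ix_sig_eq, ← kit_sg_ibp hk hS ⟨hU, hcon⟩ hf.kitFun hg.kitFun]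
  refine kit_sg_congr hk hS fun x hx => ?_
  have hx1 : ‖x‖ = 1 := by simpa using hx.2
  unfold ixLap ixTg
  rw [hx1]
  ring

/-- **the bridge.** -/
theorem ix_geo (hk : 2 ≤ k) (hS : MinCone k S) (hnf : ¬ IsHalf S) (hU : GmtSimCone S U (gmtSimSd S))
    (hcon : ∀ x ∈ U, ∀ t : ℝ, 0 < t → t • x ∈ U) : IxGeom U (gmtSimSd S) (ixSig S) :=
  { toIxTube := ix_geo_tube hS hU hcon
    fin := ix_geo_fin hS
    supp := ix_geo_supp hk hS hU
    pos := ix_geo_pos hk hS hU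
    ibp := ix_geo_ibp hk hS hU hcon
    full := ix_geo_full hS hnf hU }

end Claimed.Agent.R323
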