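import Claimed.Agent.R323.Ix.GeoB
import Claimed.Agent.R323.Kit.LinkIbp

/-!
# Row 323, block F, leaf L-IX-GEO-D: bridge abstract language → GMT: `IxExtra ⟹ ExtraIndex`.      Architect: helper154.

* `ix_geo_jacB`: `ix_geo_integral` for the `IxFun` function `-ixTg f g + (m + ixP)(f g)`; unfold `jacB`, `ixB`, `ixTg`, `ixP` (`((m+2 : ℕ) : ℝ) - 2 = m`).
* `ix_geo_jacB_congr`: `μ_S`-a.e. point of `B_1` lies in `C = gmtBd S \ 0` (`gmtMu_compl_gmtBd`, `μ_S{0} = 0`), where the integrands agree (`gradient` depends only on the germ: `Filter.EventuallyEq.fderiv_eq`).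
* `ix_geo_cutoff`: `ζ` smooth, `= 1` near the compact `Σ`, `tsupport ζ ⊆ U` (`gmtSim_exists_cutoff`); `η'(x) = ζ(x/|x|) η(x)`: smooth on `{0}ᶜ` (near `x` with `x/|x| ∈ U`: product of smooth functions, `U` conic; near `x` with `x/|x| ∉ tsupport ζ`: zero), `0`-homogeneous, `= η` near `C`.
-/

set_option autoImplicit false
open scoped ContDiff ENNReal RealInnerProductSpace Topology
open MeasureTheory Metric Set Filter

namespace Claimed.Agent.R323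

open Claimed.Agent.Gmt

variable {m : ℕ} {S U : Set (E (m + 2))}

theorem ix_geo_jacB (hS : MinCone (m + 2) S) (hU : GmtSimCone S U (gmtSimSd S))
    (hcon : ∀ x ∈ U, ∀ t : ℝ, 0 < t → t • x ∈ U) {f g : E (m + 2) → ℝ} (hf : IxFun U f) (hg : IxFun U g) :
    jacB S f g = ixB m (gmtSimSd S) (ixSig S) f g := by
  rw [kit_jacB (by omega) hS ⟨hU, hcon⟩ hf.kitFun hg.kitFun, ix_sig_eq]
  unfold ixB
  refine kit_sg_congr (by omega) hS fun x hx => ?_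
  have hx1 : ‖x‖ = 1 := by simpa using hx.2
  unfold ixTg ixP
  rw [hx1]
  push_cast
  ring

theorem ix_geo_jacB_congr (hS : MinCone (m + 2) S) {f f' g g' : E (m + 2) → ℝ}
    (hf : ∀ x ∈ gmtBd S, x ≠ 0 → f' =ᶠ[𝓝 x] f) (hg : ∀ x ∈ gmtBd S, x ≠ 0 → g' =ᶠ[𝓝 x] g) :
    jacB S f' g' = jacB S f g :=
  kit_jacB_congr (by omega) hS hf hg

theorem ix_geo_cutoff (hS : MinCone (m + 2) S) (hU : GmtSimCone S U (gmtSimSd S))
    (hcon : ∀ x ∈ U, ∀ t : ℝ, 0 < t → t • x ∈ U) {η : E (m + 2) → ℝ} (hη : IxFun U η) :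
    ∃ η' : E (m + 2) → ℝ, Hom0 η' ∧ ∀ x ∈ gmtBd S, x ≠ 0 → η' =ᶠ[𝓝 x] η :=
  kit_extend hS ⟨hU, hcon⟩ hη.kitFun

theorem ix_geo_extra (hS : MinCone (m + 2) S) (hU : GmtSimCone S U (gmtSimSd S))
    (hcon : ∀ x ∈ U, ∀ t : ℝ, 0 < t → t • x ∈ U) (hx : IxExtra m U (gmtSimSd S) (ixSig S)) : ExtraIndex S := by
  obtain ⟨η, hη, h1, h2, h3⟩ := hx
  obtain ⟨η', hη', he⟩ := ix_geo_cutoff hS hU hcon hη
  have hT := ix_geo_tube hS hU hcon
  have hr : ∀ g : E (m + 2) → ℝ, ∀ x ∈ gmtBd S, x ≠ 0 → g =ᶠ[𝓝 x] g := fun g x _ _ => EventuallyEq.rfl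
  refine ⟨η', hη', ?_, fun a => ?_, ?_⟩
  · rw [ix_geo_jacB_congr hS he (hr _), ix_geo_jacB hS hU hcon hη (IxFun.const 1)]
    exact h1
  · rw [ix_geo_jacB_congr hS he (hr _)]
    have := ix_geo_jacB hS hU hcon hη (ixFun_X hT a)
    exact this.trans (h2 a)
  · rw [ix_geo_jacB_congr hS he he, ix_geo_jacB hS hU hcon hη hη]
    exact h3

end Claimed.Agent.R323
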