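import Claimed.Agent.R323.Ix.Calc

/-!
# Row 323, block F, leaf L-IX-ATOM: `σ` has no atoms (a consequence of the integration by parts formula).      Architect + proof: helper154.

`x₀ ∉ Σ`: `supp`.   `x₀ ∈ Σ` (trick of helper59): `s = ixX x₀`, `w = (1+s)/2 ∈ [0,1]` on `Σ`, `w = 1 ⟺ x = x₀`.   `ibp` with `f = w^j`, `g = s`:
`m ∫ w^j s = (j/2) ∫ w^{j-1} Tg(s,s)`, `0 ≤ Tg(s,s) ≤ 1 - s² = 4w(1-w)`, `j w^j (1-w) ≤ 1`.  Dominated convergence: `m σ{x₀} = 0`.
-/

set_option autoImplicit false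
open scoped ContDiff ENNReal RealInnerProductSpace Topology
open MeasureTheory Metric Set Filter

namespace Claimed.Agent.R323

open Claimed.Agent.Gmt

theorem ix_atom_pow_bound {w : ℝ} (h0 : 0 ≤ w) (h1 : w ≤ 1) (j : ℕ) : (j : ℝ) * w ^ j * (1 - w) ≤ 1 := by
  have h2 : (j : ℝ) * w ^ j ≤ ∑ i ∈ Finset.range j, w ^ i := by
    have : ∑ _i ∈ Finset.range j, w ^ j ≤ ∑ i ∈ Finset.range j, w ^ i :=
      Finset.sum_le_sum fun i hi => pow_le_pow_of_le_one h0 h1 (Finset.mem_range.1 hi).le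
    simpa using this
  have h3 : (∑ i ∈ Finset.range j, w ^ i) * (1 - w) = 1 - w ^ j := geom_sum_mul_neg w j
  have h4 : 0 ≤ w ^ j := pow_nonneg h0 j
  nlinarith [mul_le_mul_of_nonneg_right h2 (sub_nonneg.2 h1)]

theorem ix_atom {m : ℕ} (hm : 1 ≤ m) {U : Set (E (m + 2))} {u : E (m + 2) → ℝ} {σ : Measure (E (m + 2))}
    (hG : IxGeom U u σ) (x₀ : E (m + 2)) : σ {x₀} = 0 := by
  have := hG.fin
  have hT := hG.toIxTube
  by_cases hx₀ : x₀ ∈ ixLink U u
  swap
  · exact measure_mono_null (fun y hy => by rw [mem_singleton_iff] at hy; rw [hy]; exact hx₀) hG.supp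
  have hae : ∀ᵐ x ∂σ, x ∈ ixLink U u := by
    have := measure_eq_zero_iff_ae_notMem.1 hG.supp
    filter_upwards [this] with x hx
    by_contra h
    exact hx h
  set s : E (m + 2) → ℝ := ixX x₀ with hs
  have hsF : IxFun U s := ixFun_X hT x₀
  set F : ℕ → ℝ → ℝ := fun j t => ((1 + t) / 2) ^ j with hF
  have hFs : ∀ j, ContDiffOn ℝ ∞ (F j) univ := fun j =>
    (((contDiff_const.add contDiff_id).div_const 2).pow j).contDiffOn
  have hFd : ∀ j t, deriv (F j) t = (j : ℝ) / 2 * ((1 + t) / 2) ^ (j - 1) := by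
    intro j t
    have h1 : HasDerivAt (fun t : ℝ => (1 + t) / 2) (1 / 2) t := by
      simpa using ((hasDerivAt_id t).const_add 1).div_const 2
    have h2 : HasDerivAt (F j) ((j : ℝ) * ((1 + t) / 2) ^ (j - 1) * (1 / 2)) t := h1.pow j
    rw [h2.deriv]
    ring
  have hwF : ∀ j, IxFun U (fun x => F j (s x)) := fun j => IxFun.comp (hFs j) hsF fun _ _ => mem_univ _
  -- facts on the link
  have hs1 : ∀ x ∈ ixLink U u, |s x| ≤ 1 := by
    intro x hx
    have h1 : s x = ⟪x₀, x⟫ := by simp [hs, ixX, hx.2.2]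
    rw [h1]
    have := abs_real_inner_le_norm x₀ x
    rwa [hx₀.2.2, hx.2.2, one_mul] at this
  have hs2 : ∀ x ∈ ixLink U u, s x = 1 → x = x₀ := by
    intro x hx h
    have h1 : s x = ⟪x₀, x⟫ := by simp [hs, ixX, hx.2.2]
    rw [h1] at h
    exact ((inner_eq_one_iff_of_norm_eq_one hx₀.2.2 hx.2.2).1 h).symm
  have hs3 : s x₀ = 1 := by
    simp [hs, ixX, hx₀.2.2]
  -- the two integrands
  set A : ℕ → E (m + 2) → ℝ := fun j x => F j (s x) * s x with hA
  set B : ℕ → E (m + 2) → ℝ := fun j x => deriv (F j) (s x) * ixTg u s s x with hB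
  have hAF : ∀ j, IxFun U (A j) := fun j => (hwF j).mul hsF
  have hBF : ∀ j, IxFun U (fun x => ixTg u (fun y => F j (s y)) s x) := fun j => ixFun_tg hT (hwF j) hsF
  have hBeq : ∀ j, ∀ x ∈ U, ixTg u (fun y => F j (s y)) s x = B j x := fun j x hx =>
    ixTg_comp_left hT isOpen_univ (hFs j) hsF (fun _ _ => mem_univ _) s hx
  have hBint : ∀ j, Integrable (B j) σ := fun j =>
    ((hBF j).integrable hG).congr (by
      filter_upwards [hae] with x hx using hBeq j x hx.1)
  have hkey : ∀ j, (m : ℝ) * ∫ x, A j x ∂σ = ∫ x, B j x ∂σ := by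
    intro j
    have h1 := hG.ibp _ _ (hwF j) hsF
    have h2 : ∫ x, (F j (s x) * ixLap u s x + ixTg u (fun y => F j (s y)) s x) ∂σ
        = ∫ x, (-(m : ℝ) * A j x + B j x) ∂σ := by
      refine ix_integral_congr hG fun x hx => ?_
      rw [hBeq j x hx.1, ixLap_X hT x₀ hx]
      simp only [hA]
      ring
    rw [h2, integral_add (((hAF j).integrable hG).const_mul _) (hBint j), integral_const_mul] at h1
    linarith
  -- limits
  have hw : ∀ x ∈ ixLink U u, 0 ≤ (1 + s x) / 2 ∧ (1 + s x) / 2 ≤ 1 := by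
    intro x hx
    have := abs_le.1 (hs1 x hx)
    constructor <;> linarith [this.1, this.2]
  have hlimA : Tendsto (fun j => ∫ x, A j x ∂σ) atTop (𝓝 (∫ x, ({x₀} : Set (E (m + 2))).indicator (fun _ => (1 : ℝ)) x ∂σ)) := by
    refine tendsto_integral_of_dominated_convergence (fun _ => (1 : ℝ))
      (fun j => ((hAF j).integrable hG).aestronglyMeasurable) (integrable_const _) ?_ ?_
    · intro j
      filter_upwards [hae] with x hx
      obtain ⟨h0, h1⟩ := hw x hx
      simp only [hA, hF, norm_mul, Real.norm_eq_abs]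
      have e1 : |((1 + s x) / 2) ^ j| ≤ 1 := by
        rw [abs_of_nonneg (pow_nonneg h0 j)]
        exact pow_le_one₀ h0 h1
      calc _ ≤ 1 * 1 := mul_le_mul e1 (hs1 x hx) (abs_nonneg _) zero_le_one
        _ = 1 := one_mul 1
    · filter_upwards [hae] with x hx
      obtain ⟨h0, h1⟩ := hw x hx
      by_cases hxx : x = x₀
      · subst hxx
        simp only [hA, hF, hs3]
        norm_num
      · have h2 : (1 + s x) / 2 < 1 := by
          rcases lt_or_eq_of_le h1 with h | h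
          · exact h
          · exact absurd (hs2 x hx (by linarith)) hxx
        have h3 := (tendsto_pow_atTop_nhds_zero_of_lt_one h0 h2).mul_const (s x)
        simpa [hA, hF, hxx] using h3
  have hlimB : Tendsto (fun j => ∫ x, B j x ∂σ) atTop (𝓝 (∫ _x, (0 : ℝ) ∂σ)) := by
    have hTg : ∀ x ∈ ixLink U u, 0 ≤ ixTg u s s x ∧ ixTg u s s x ≤ 4 * ((1 + s x) / 2) * (1 - (1 + s x) / 2) := by
      intro x hx
      refine ⟨ixTg_self_nonneg hT s hx.1, ?_⟩
      have h1 := ixTg_X_X hT x₀ x₀ hx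
      have h2 : ⟪x₀, x₀⟫ = 1 := by rw [real_inner_self_eq_norm_sq, hx₀.2.2]; norm_num
      rw [h2] at h1
      have h3 : ixTg u s s x = 1 - s x * s x - ixN u x₀ x * ixN u x₀ x := h1
      nlinarith [mul_self_nonneg (ixN u x₀ x)]
    have hBb : ∀ j, ∀ x ∈ ixLink U u, 0 ≤ B j x ∧ B j x ≤ 2 * ((j : ℝ) * ((1 + s x) / 2) ^ j * (1 - (1 + s x) / 2)) := by
      intro j x hx
      obtain ⟨h0, h1⟩ := hw x hx
      obtain ⟨t0, t1⟩ := hTg x hx
      simp only [hB, hFd]
      have hc : 0 ≤ (j : ℝ) / 2 * ((1 + s x) / 2) ^ (j - 1) := by positivity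
      refine ⟨mul_nonneg hc t0, ?_⟩
      rcases Nat.eq_zero_or_pos j with rfl | hj
      · simp
      · have e : ((1 + s x) / 2) ^ j = ((1 + s x) / 2) ^ (j - 1) * ((1 + s x) / 2) := by
          rw [← pow_succ, Nat.sub_add_cancel hj]
        rw [e]
        calc _ ≤ (j : ℝ) / 2 * ((1 + s x) / 2) ^ (j - 1) * (4 * ((1 + s x) / 2) * (1 - (1 + s x) / 2)) :=
              mul_le_mul_of_nonneg_left t1 hc
          _ = _ := by ring
    refine tendsto_integral_of_dominated_convergence (fun _ => (2 : ℝ))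
      (fun j => (hBint j).aestronglyMeasurable) (integrable_const _) ?_ ?_
    · intro j
      filter_upwards [hae] with x hx
      obtain ⟨h0, h1⟩ := hw x hx
      obtain ⟨b0, b1⟩ := hBb j x hx
      rw [Real.norm_eq_abs, abs_of_nonneg b0]
      have := ix_atom_pow_bound h0 h1 j
      linarith
    · filter_upwards [hae] with x hx
      obtain ⟨h0, h1⟩ := hw x hx
      have hz : Tendsto (fun j : ℕ => 2 * ((j : ℝ) * ((1 + s x) / 2) ^ j * (1 - (1 + s x) / 2))) atTop (𝓝 0) := by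
        rcases lt_or_eq_of_le h1 with h | h
        · have := ((tendsto_self_mul_const_pow_of_lt_one h0 h).mul_const (1 - (1 + s x) / 2)).const_mul 2
          simpa using this
        · simp [h]
      exact tendsto_of_tendsto_of_tendsto_of_le_of_le tendsto_const_nhds hz
        (fun j => (hBb j x hx).1) (fun j => (hBb j x hx).2)
  have h5 : (m : ℝ) * ∫ x, ({x₀} : Set (E (m + 2))).indicator (fun _ => (1 : ℝ)) x ∂σ = ∫ _x, (0 : ℝ) ∂σ :=
    tendsto_nhds_unique ((hlimA.const_mul (m : ℝ)).congr hkey) hlimB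
  rw [integral_zero, integral_indicator (measurableSet_singleton x₀), setIntegral_const] at h5
  have hm0 : (m : ℝ) ≠ 0 := by positivity
  have h6 : σ.real {x₀} = 0 := by
    simpa [hm0] using h5
  rw [Measure.real, ENNReal.toReal_eq_zero_iff] at h6
  exact h6.resolve_right (measure_ne_top σ _)

end Claimed.Agent.R323
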