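import Claimed.Agent.R315.Gs.Aap
import Claimed.Agent.R315.Pk.Mfd
import Claimed.Agent.Lib.Gmt.SimCalc

/-!
# Row 323, block F (index), package PDE: the resolvent equation on the link of a minimal cone.      Architect + prover: helper34.   SORRY-FREE.

EXIT: `ix_pde_solve`: `IxPdeGeo d U u` (fields of `Gmt.GmtSimCone`), compact link, `F` smooth on `U`, `λ > 0` ⟹ there is `z`, smooth off the origin and
`0`-homogeneous, with `- gmtSimL u z + λ z = F` on the link.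

Parts (one `section` each):
1. RES    `ix_pde_resolvent`: `(-Δ + λ) z = F` on a compact manifold of `R315` (`gs_solve` with the trivial gap `λ`);
2. LIN    linear algebra at a point: resolution of the identity and tangential trace for a frame `(Dψ, x, N)`;
3. GAUSS  `ix_pde_lapC`: `lapC G (f ∘ ψ) = ∑ G⁻¹ᵢⱼ D²f(∂ᵢψ,∂ⱼψ) + Df(H)`, `H ⟂ ∂ₗψ` (Gauss formula) for the induced metric of a submanifold of `E n`;
4. MFD    the link is a manifold in the sense of `R315` (two regular level sets);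
5. LINK   the bridge `lap d Σ (if_euc _) f = gmtSimL u f` for `f` with `Df(y) y = 0`, radial extension, the solver.
-/

set_option autoImplicit false
set_option linter.unusedSectionVars false

namespace Claimed.Agent.R323

/-! ## part PdeRes -/

section PdeRes

set_option maxSynthPendingDepth 6
open scoped ContDiff Topology ENNReal
open Set MeasureTheory Filter
open Claimed.Agent.R315


variable {V : Type} [NormedAddCommGroup V] [NormedSpace ℝ V] [FiniteDimensional ℝ V]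
  [MeasurableSpace V] [BorelSpace V]
variable {d : ℕ} {M : Set V} {h : Ten V}

/-- the zero drift. -/
abbrev ixT0 (V : Type) : V → ℝ := fun _ => 0

theorem ix_pde_cs (hMc : IsCompact M) (f : V → ℝ) : CtCS M f :=
  ⟨M, hMc, Subset.rfl, fun _ hx hx' => absurd hx hx'⟩

theorem ix_pde_integrable (hG : GsGeo d M h (ixT0 V)) (hMc : IsCompact M) {f : V → ℝ}
    (hf : SmoothAlong d M f) : Integrable f (wvol d M h (ixT0 V)) :=
  gs_integrable hG (if_smoothAlong_continuousOn hG.mfd hf) (ix_pde_cs hMc f)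

/-- the coercive equation `(-Δ + λ) z = F` on a compact manifold, `F` of any sign. -/
theorem ix_pde_resolvent (hG : GsGeo d M h (ixT0 V)) (hMc : IsCompact M) {F : V → ℝ}
    (hF : SmoothAlong d M F) {lam : ℝ} (hlam : 0 < lam) :
    ∃ z : V → ℝ, SmoothAlong d M z ∧
      ∀ x ∈ M, - wlap d M h (ixT0 V) z x + lam * z x = F x := by
  have hFc : ContinuousOn F M := if_smoothAlong_continuousOn hG.mfd hF
  obtain ⟨K0, hK0⟩ := hMc.exists_bound_of_continuousOn hFc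
  have hgap : GsGap d M h (ixT0 V) 1 (fun _ => lam) lam := by
    intro φ hφ
    unfold gsN gsB
    have hi1 : Integrable (fun x => φ x * φ x) (wvol d M h (ixT0 V)) :=
      ix_pde_integrable hG hMc (gs_sm_mul hφ.1 hφ.1)
    rw [← integral_const_mul]
    refine integral_mono_ae (hi1.const_mul lam) ?_ ?_
    · have hs : SmoothAlong d M (fun x => 1 * gradIp d M h φ φ x + lam * (φ x * φ x)) :=
        gs_sm_add (gs_sm_smul 1 (if_gradIp_smoothAlong hG.met hφ.1 hφ.1)) (gs_sm_smul lam (gs_sm_mul hφ.1 hφ.1))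
      exact ix_pde_integrable hG hMc hs
    · filter_upwards [gs_ae_mem hG] with x hx
      have := gs_sq_nonneg hG.mfd hG.met hφ.1 hx
      rw [if_gradSq_eq_gradIp] at this
      show lam * (φ x * φ x) ≤ 1 * gradIp d M h φ φ x + lam * (φ x * φ x)
      linarith
  have hF' : SmoothAlong d M (fun x => F x + K0) := gs_sm_add hF (gs_sm_const K0)
  obtain ⟨z, hz, -, -, hsol⟩ := gs_solve hG (gs_sm_const lam) one_pos hlam hgap hF'
    (fun x hx => by
      have := hK0 x hx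
      rw [Real.norm_eq_abs] at this
      have := (abs_le.1 this).1
      show 0 ≤ F x + K0
      linarith)
    (ix_pde_integrable hG hMc (gs_sm_pow hF' 2))
  refine ⟨fun x => z x - K0 / lam, gs_sm_sub hz (gs_sm_const _), fun x hx => ?_⟩
  rw [gs_wlap_sub hG.mfd hG.met hG.drift hz (gs_sm_const _) hx,
    gs_wlap_const hG.mfd hG.met hG.drift _ hx]
  have := hsol x hx
  field_simp
  field_simp at this
  linarith

end PdeRes

/-! ## part PdeLin -/

section PdeLin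

open scoped ContDiff Topology RealInnerProductSpace
open Set Filter
open Claimed.Agent.R315


variable {p n : ℕ}

/-- the Gram matrix of `A`. -/
noncomputable def ixGram (A : E p →L[ℝ] E n) : Matrix (Fin p) (Fin p) ℝ :=
  Matrix.of fun i j => ⟪A (eb i), A (eb j)⟫

/-- an injective map and two unit normals. -/
structure IxFrame (A : E p →L[ℝ] E n) (x N : E n) : Prop where
  inj : Function.Injective A
  nx : ‖x‖ = 1
  nN : ‖N‖ = 1
  xN : ⟪x, N⟫ = 0
  Ax : ∀ w, ⟪A w, x⟫ = 0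
  AN : ∀ w, ⟪A w, N⟫ = 0

/-- `(w, s, t) ↦ A w + s x + t N`. -/
noncomputable def ixPhi (A : E p →L[ℝ] E n) (x N : E n) : (E p × ℝ × ℝ) →ₗ[ℝ] E n :=
  (A : E p →ₗ[ℝ] E n).coprod
    ((LinearMap.toSpanSingleton ℝ (E n) x).coprod (LinearMap.toSpanSingleton ℝ (E n) N))

theorem ixPhi_apply (A : E p →L[ℝ] E n) (x N : E n) (w : E p) (s t : ℝ) :
    ixPhi A x N (w, s, t) = A w + (s • x + t • N) := by
  simp [ixPhi]

variable {A : E p →L[ℝ] E n} {x N : E n}

theorem ix_pde_lin_inj (h : IxFrame A x N) : Function.Injective (ixPhi A x N) := by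
  rw [injective_iff_map_eq_zero]
  rintro ⟨w, s, t⟩ h0
  rw [ixPhi_apply] at h0
  have hxx : ⟪x, x⟫ = 1 := by rw [real_inner_self_eq_norm_sq, h.nx]; norm_num
  have hNN : ⟪N, N⟫ = 1 := by rw [real_inner_self_eq_norm_sq, h.nN]; norm_num
  have hNx : ⟪N, x⟫ = 0 := by rw [real_inner_comm]; exact h.xN
  have hs : s = 0 := by
    have := congrArg (fun v => ⟪v, x⟫) h0
    simp only [inner_add_left, inner_smul_left, h.Ax, hxx, hNx, inner_zero_left] at this
    simpa using this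
  have ht : t = 0 := by
    have := congrArg (fun v => ⟪v, N⟫) h0
    simp only [inner_add_left, inner_smul_left, h.AN, hNN, h.xN, inner_zero_left] at this
    simpa using this
  have hw : w = 0 := by
    rw [hs, ht] at h0
    simp only [zero_smul, add_zero] at h0
    exact h.inj (by rw [h0, map_zero])
  rw [hs, ht, hw]
  rfl

theorem ix_pde_lin_finrank : Module.finrank ℝ (E p × ℝ × ℝ) = p + 2 := by
  simp [Module.finrank_prod]

theorem ix_pde_lin_dim (h : IxFrame A x N) : p + 2 ≤ n := by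
  have := LinearMap.finrank_le_finrank_of_injective (ix_pde_lin_inj h)
  rw [ix_pde_lin_finrank] at this
  simpa using this

theorem ix_pde_lin_A (A : E p →L[ℝ] E n) (w : E p) : A w = ∑ j, w j • A (eb j) := by
  conv_lhs => rw [← (EuclideanSpace.basisFun (Fin p) ℝ).sum_repr w]
  simp [map_sum]

theorem ix_pde_lin_surj {A : E p →L[ℝ] E (p + 2)} {x N : E (p + 2)} (h : IxFrame A x N)
    (v : E (p + 2)) : ∃ (w : E p) (s t : ℝ), v = A w + (s • x + t • N) := by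
  have hs : Function.Surjective (ixPhi A x N) :=
    (LinearMap.injective_iff_surjective_of_finrank_eq_finrank
      (by rw [ix_pde_lin_finrank]; simp)).1 (ix_pde_lin_inj h)
  obtain ⟨⟨w, s, t⟩, hw⟩ := hs v
  exact ⟨w, s, t, by rw [← hw, ixPhi_apply]⟩

/-- a vector which is orthogonal to the frame vanishes. -/
theorem ix_pde_lin_zero {A : E p →L[ℝ] E (p + 2)} {x N : E (p + 2)} (h : IxFrame A x N)
    {r : E (p + 2)} (h1 : ∀ l, ⟪r, A (eb l)⟫ = 0) (h2 : ⟪r, x⟫ = 0) (h3 : ⟪r, N⟫ = 0) : r = 0 := by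
  obtain ⟨w, s, t, hr⟩ := ix_pde_lin_surj h r
  have : ⟪r, r⟫ = 0 := by
    have e : ⟪r, r⟫ = ⟪r, A w + (s • x + t • N)⟫ := by rw [← hr]
    rw [e, ix_pde_lin_A A w]
    simp only [inner_add_right, inner_smul_right, inner_sum, h1, h2, h3]
    simp
  exact inner_self_eq_zero.1 this

/-- the tangential projection. -/
noncomputable def ixPT (A : E p →L[ℝ] E n) (v : E n) : E n :=
  ∑ i, ∑ j, ((ixGram A)⁻¹ i j * ⟪v, A (eb i)⟫) • A (eb j)

theorem ix_pde_lin_PT (hdet : (ixGram A).det ≠ 0) (v : E n) (l : Fin p) :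
    ⟪ixPT A v, A (eb l)⟫ = ⟪v, A (eb l)⟫ := by
  have hinv : (ixGram A)⁻¹ * ixGram A = 1 :=
    Matrix.nonsing_inv_mul _ (isUnit_iff_ne_zero.2 hdet)
  unfold ixPT
  simp only [sum_inner, inner_smul_left, RCLike.conj_to_real]
  have : ∀ i, ∑ j, (ixGram A)⁻¹ i j * ⟪v, A (eb i)⟫ * ⟪A (eb j), A (eb l)⟫ =
      ⟪v, A (eb i)⟫ * ((ixGram A)⁻¹ * ixGram A) i l := by
    intro i
    rw [Matrix.mul_apply, Finset.mul_sum]
    exact Finset.sum_congr rfl fun j _ => by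
      show _ = ⟪v, A (eb i)⟫ * ((ixGram A)⁻¹ i j * ⟪A (eb j), A (eb l)⟫)
      ring
  simp only [this, hinv, Matrix.one_apply, mul_ite, mul_one, mul_zero, Finset.sum_ite_eq',
    Finset.mem_univ, if_true]

theorem ix_pde_lin_PT_perp {y : E n} (hy : ∀ w, ⟪A w, y⟫ = 0) (v : E n) : ⟪ixPT A v, y⟫ = 0 := by
  unfold ixPT
  simp only [sum_inner, inner_smul_left, hy, mul_zero, Finset.sum_const_zero]

/-- **resolution of the identity**. -/
theorem ix_pde_lin_res {A : E p →L[ℝ] E (p + 2)} {x N : E (p + 2)} (h : IxFrame A x N)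
    (hdet : (ixGram A).det ≠ 0) (v : E (p + 2)) :
    v = ixPT A v + (⟪v, x⟫ • x + ⟪v, N⟫ • N) := by
  have hxx : ⟪x, x⟫ = 1 := by rw [real_inner_self_eq_norm_sq, h.nx]; norm_num
  have hNN : ⟪N, N⟫ = 1 := by rw [real_inner_self_eq_norm_sq, h.nN]; norm_num
  have hNx : ⟪N, x⟫ = 0 := by rw [real_inner_comm]; exact h.xN
  have hxA : ∀ w, ⟪x, A w⟫ = 0 := fun w => by rw [real_inner_comm]; exact h.Ax w
  have hNA : ∀ w, ⟪N, A w⟫ = 0 := fun w => by rw [real_inner_comm]; exact h.AN w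
  have : v - (ixPT A v + (⟪v, x⟫ • x + ⟪v, N⟫ • N)) = 0 := by
    refine ix_pde_lin_zero h (fun l => ?_) ?_ ?_
    · simp only [inner_sub_left, inner_add_left, inner_smul_left, ix_pde_lin_PT hdet, hxA, hNA]
      simp
    · simp only [inner_sub_left, inner_add_left, inner_smul_left, ix_pde_lin_PT_perp h.Ax, hxx, hNx]
      simp
    · simp only [inner_sub_left, inner_add_left, inner_smul_left, ix_pde_lin_PT_perp h.AN, hNN, h.xN]
      simp
  exact sub_eq_zero.1 this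

theorem ix_pde_lin_sum (B : E n →L[ℝ] E n) (y z : E n) :
    ∑ a, ⟪(eb a : E n), y⟫ * ⟪B (eb a), z⟫ = ⟪B y, z⟫ := by
  rw [ix_pde_lin_A B y, sum_inner]
  refine Finset.sum_congr rfl fun a _ => ?_
  rw [inner_smul_left, real_inner_comm, Gmt.gmtSim_inner_eb]
  simp

/-- **the tangential trace**. -/
theorem ix_pde_lin_tr {A : E p →L[ℝ] E (p + 2)} {x N : E (p + 2)} (h : IxFrame A x N)
    (hdet : (ixGram A).det ≠ 0) (B : E (p + 2) →L[ℝ] E (p + 2)) :
    ∑ i, ∑ j, (ixGram A)⁻¹ i j * ⟪B (A (eb i)), A (eb j)⟫ =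
      Gmt.gmtSimTr B - ⟪B x, x⟫ - ⟪B N, N⟫ := by
  have key : ∀ a : Fin (p + 2), ⟪B (eb a), (eb a : E (p + 2))⟫ =
      (∑ i, ∑ j, (ixGram A)⁻¹ i j * (⟪(eb a : E (p + 2)), A (eb i)⟫ * ⟪B (eb a), A (eb j)⟫)) +
      (⟪(eb a : E (p + 2)), x⟫ * ⟪B (eb a), x⟫ + ⟪(eb a : E (p + 2)), N⟫ * ⟪B (eb a), N⟫) := by
    intro a
    have e : ⟪B (eb a), (eb a : E (p + 2))⟫ = ⟪B (eb a), ixPT A (eb a) +
        (⟪(eb a : E (p + 2)), x⟫ • x + ⟪(eb a : E (p + 2)), N⟫ • N)⟫ :=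
      congrArg (fun y => ⟪B (eb a), y⟫) (ix_pde_lin_res h hdet (eb a : E (p + 2)))
    rw [e]
    unfold ixPT
    simp only [inner_add_right, inner_smul_right, inner_sum]
    congr 1
    exact Finset.sum_congr rfl fun i _ => Finset.sum_congr rfl fun j _ => by ring
  unfold Gmt.gmtSimTr
  simp only [key, Finset.sum_add_distrib, ix_pde_lin_sum]
  have hc : ∑ a : Fin (p + 2), ∑ i, ∑ j, (ixGram A)⁻¹ i j *
      (⟪(eb a : E (p + 2)), A (eb i)⟫ * ⟪B (eb a), A (eb j)⟫) =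
      ∑ i, ∑ a : Fin (p + 2), ∑ j, (ixGram A)⁻¹ i j *
      (⟪(eb a : E (p + 2)), A (eb i)⟫ * ⟪B (eb a), A (eb j)⟫) := Finset.sum_comm
  rw [hc]
  have : ∀ i, ∑ a : Fin (p + 2), ∑ j, (ixGram A)⁻¹ i j *
      (⟪(eb a : E (p + 2)), A (eb i)⟫ * ⟪B (eb a), A (eb j)⟫) =
      ∑ j, (ixGram A)⁻¹ i j * ⟪B (A (eb i)), A (eb j)⟫ := by
    intro i
    rw [Finset.sum_comm]
    refine Finset.sum_congr rfl fun j _ => ?_
    rw [← Finset.mul_sum, ix_pde_lin_sum]
  rw [Finset.sum_congr rfl fun i _ => this i]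
  ring

end PdeLin

/-! ## part PdeGauss -/

section PdeGauss

open scoped ContDiff Topology RealInnerProductSpace
open Set Filter Claims.C0499
open Claimed.Agent.R315


variable {d n : ℕ} {M : Set (E n)} {ψ : E d → E n} {T : Set (E d)} {a : E d}

/-- the Euclidean metric is a metric on every submanifold. -/
theorem ix_pde_euc_metric (d : ℕ) (M : Set (E n)) : IsMetricOn d M (if_euc (E n)) := by
  intro ψ U h
  have h1 : ∀ k : Fin d, ContDiffOn ℝ ∞ (fun u => fderiv ℝ ψ u (eb k)) U := fun k =>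
    ((if_smooth h).fderiv_of_isOpen (if_open h) (m := ∞) (by simp)).clm_apply contDiffOn_const
  refine ⟨fun i j => (h1 i).inner ℝ (h1 j), fun u hu =>
    pk_posDef_of_bil (fun i j => by
      show ⟪fderiv ℝ ψ u (eb i), fderiv ℝ ψ u (eb j)⟫ = ⟪fderiv ℝ ψ u (eb j), fderiv ℝ ψ u (eb i)⟫
      exact real_inner_comm _ _) fun X hX => ?_⟩
  rw [if_cm_bil]
  show 0 < ⟪fderiv ℝ ψ u X, fderiv ℝ ψ u X⟫
  exact real_inner_self_pos.2 fun h0 => hX (if_imm h hu (by rw [h0, map_zero]))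

/-- `∂_j ψ`. -/
noncomputable def ixD1 (ψ : E d → E n) (j : Fin d) (w : E d) : E n := fderiv ℝ ψ w (eb j)

/-- `∂_i ∂_j ψ`. -/
noncomputable def ixD2 (ψ : E d → E n) (i j : Fin d) (w : E d) : E n :=
  fderiv ℝ (ixD1 ψ j) w (eb i)

theorem ix_pde_d1_smooth (hp : IsParam M ψ T) (j : Fin d) : ContDiffOn ℝ ∞ (ixD1 ψ j) T :=
  ((if_smooth hp).fderiv_of_isOpen (if_open hp) (m := ∞) (by simp)).clm_apply contDiffOn_const

theorem ix_pde_d1_diff (hp : IsParam M ψ T) (ha : a ∈ T) (j : Fin d) :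
    DifferentiableAt ℝ (ixD1 ψ j) a :=
  ((ix_pde_d1_smooth hp j).contDiffAt ((if_open hp).mem_nhds ha)).differentiableAt (by simp)

theorem ix_pde_d2_eq (hp : IsParam M ψ T) (ha : a ∈ T) (i j : Fin d) :
    ixD2 ψ i j a = fderiv ℝ (fderiv ℝ ψ) a (eb i) (eb j) := by
  have h1 : ContDiffOn ℝ ∞ (fderiv ℝ ψ) T :=
    (if_smooth hp).fderiv_of_isOpen (if_open hp) (by simp)
  have h2 : DifferentiableAt ℝ (fderiv ℝ ψ) a :=
    (h1.contDiffAt ((if_open hp).mem_nhds ha)).differentiableAt (by simp)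
  unfold ixD2 ixD1
  rw [fderiv_clm_apply h2 (differentiableAt_const _)]
  simp

theorem ix_pde_d2_symm (hp : IsParam M ψ T) (ha : a ∈ T) (i j : Fin d) :
    ixD2 ψ i j a = ixD2 ψ j i a := by
  rw [ix_pde_d2_eq hp ha, ix_pde_d2_eq hp ha]
  have h : ContDiffAt ℝ ∞ ψ a := (if_smooth hp).contDiffAt ((if_open hp).mem_nhds ha)
  exact (h.isSymmSndFDerivAt
    (by rw [minSmoothness_of_isRCLikeNormedField]; exact ENat.LEInfty.out)).eq _ _

theorem ix_pde_cm_apply (ψ : E d → E n) (w : E d) (i j : Fin d) :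
    cm (if_euc (E n)) ψ w i j = ⟪ixD1 ψ i w, ixD1 ψ j w⟫ := rfl

theorem ix_pde_cm_gram (ψ : E d → E n) (w : E d) :
    cm (if_euc (E n)) ψ w = ixGram (fderiv ℝ ψ w) := rfl

theorem ix_pde_cm_pd (hp : IsParam M ψ T) (ha : a ∈ T) (i j l : Fin d) :
    pdiff (fun w => cm (if_euc (E n)) ψ w j l) i a =
      ⟪ixD2 ψ i j a, ixD1 ψ l a⟫ + ⟪ixD1 ψ j a, ixD2 ψ i l a⟫ := by
  have := fderiv_inner_apply ℝ (ix_pde_d1_diff hp ha j) (ix_pde_d1_diff hp ha l) (eb i)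
  unfold pdiff
  simp only [ix_pde_cm_apply]
  rw [this]
  unfold ixD2
  ring

theorem ix_pde_christoffel (hp : IsParam M ψ T) (ha : a ∈ T) (k i j : Fin d) :
    christoffel (cm (if_euc (E n)) ψ) a k i j =
      ∑ l, (cm (if_euc (E n)) ψ a)⁻¹ k l * ⟪ixD2 ψ i j a, ixD1 ψ l a⟫ := by
  unfold christoffel
  rw [Finset.mul_sum]
  refine Finset.sum_congr rfl fun l _ => ?_
  rw [ix_pde_cm_pd hp ha, ix_pde_cm_pd hp ha, ix_pde_cm_pd hp ha, ix_pde_d2_symm hp ha j i,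
    ix_pde_d2_symm hp ha l i, ix_pde_d2_symm hp ha l j, real_inner_comm (ixD2 ψ i l a),
    real_inner_comm (ixD2 ψ j l a)]
  ring

theorem ix_pde_det (hp : IsParam M ψ T) (ha : a ∈ T) : (cm (if_euc (E n)) ψ a).det ≠ 0 :=
  (if_euc_posDef hp ha).ne'

/-- the normal part of `∂_i ∂_j ψ`. -/
noncomputable def ixII (ψ : E d → E n) (a : E d) (i j : Fin d) : E n :=
  ixD2 ψ i j a - ∑ k, christoffel (cm (if_euc (E n)) ψ) a k i j • ixD1 ψ k a

/-- **Gauss formula**. -/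
theorem ix_pde_gauss (hp : IsParam M ψ T) (ha : a ∈ T) (i j m : Fin d) :
    ⟪ixII ψ a i j, ixD1 ψ m a⟫ = 0 := by
  have hinv : cm (if_euc (E n)) ψ a * (cm (if_euc (E n)) ψ a)⁻¹ = 1 :=
    Matrix.mul_nonsing_inv _ (isUnit_iff_ne_zero.2 (ix_pde_det hp ha))
  unfold ixII
  rw [inner_sub_left, sum_inner, sub_eq_zero]
  simp only [inner_smul_left, RCLike.conj_to_real, ix_pde_christoffel hp ha, Finset.sum_mul]
  rw [Finset.sum_comm]
  have : ∀ l, ∑ k, (cm (if_euc (E n)) ψ a)⁻¹ k l * ⟪ixD2 ψ i j a, ixD1 ψ l a⟫ *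
      ⟪ixD1 ψ k a, ixD1 ψ m a⟫ =
      ⟪ixD2 ψ i j a, ixD1 ψ l a⟫ * (cm (if_euc (E n)) ψ a * (cm (if_euc (E n)) ψ a)⁻¹) m l := by
    intro l
    rw [Matrix.mul_apply, Finset.mul_sum]
    refine Finset.sum_congr rfl fun k _ => ?_
    rw [ix_pde_cm_apply, real_inner_comm (ixD1 ψ k a)]
    ring
  rw [Finset.sum_congr rfl fun l _ => this l, hinv]
  simp [Matrix.one_apply]

/-- the mean curvature vector. -/
noncomputable def ixHv (ψ : E d → E n) (a : E d) : E n :=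
  ∑ i, ∑ j, (cm (if_euc (E n)) ψ a)⁻¹ i j • ixII ψ a i j

theorem ix_pde_Hv_perp (hp : IsParam M ψ T) (ha : a ∈ T) (m : Fin d) :
    ⟪ixHv ψ a, ixD1 ψ m a⟫ = 0 := by
  unfold ixHv
  simp only [sum_inner, inner_smul_left, ix_pde_gauss hp ha, mul_zero, Finset.sum_const_zero]

variable {O : Set (E n)} {f : E n → ℝ}

theorem ix_pde_pd_comp (hp : IsParam M ψ T) (hO : IsOpen O) (hf : ContDiffOn ℝ ∞ f O) {w : E d}
    (hw : w ∈ T) (hwO : ψ w ∈ O) (k : Fin d) :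
    pdiff (f ∘ ψ) k w = fderiv ℝ f (ψ w) (ixD1 ψ k w) := by
  have h1 : DifferentiableAt ℝ f (ψ w) :=
    (hf.contDiffAt (hO.mem_nhds hwO)).differentiableAt (by simp)
  unfold pdiff ixD1
  rw [fderiv_comp w h1 (if_differentiableAt hp hw)]
  rfl

theorem ix_pde_p2_has (hp : IsParam M ψ T) (ha : a ∈ T) (hO : IsOpen O) (hf : ContDiffOn ℝ ∞ f O)
    (haO : ψ a ∈ O) (j : Fin d) :
    HasFDerivAt (fun w => pdiff (f ∘ ψ) j w)
      ((fderiv ℝ f (ψ a)).comp (fderiv ℝ (ixD1 ψ j) a) +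
        ((fderiv ℝ (fderiv ℝ f) (ψ a)).comp (fderiv ℝ ψ a)).flip (ixD1 ψ j a)) a := by
  have h1 : ContDiffOn ℝ ∞ (fderiv ℝ f) O := hf.fderiv_of_isOpen hO (by simp)
  have h2 : HasFDerivAt (fderiv ℝ f) (fderiv ℝ (fderiv ℝ f) (ψ a)) (ψ a) :=
    ((h1.contDiffAt (hO.mem_nhds haO)).differentiableAt (by simp)).hasFDerivAt
  have h3 : HasFDerivAt (fun w => fderiv ℝ f (ψ w))
      ((fderiv ℝ (fderiv ℝ f) (ψ a)).comp (fderiv ℝ ψ a)) a :=
    h2.comp a (if_differentiableAt hp ha).hasFDerivAt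
  have h4 := h3.clm_apply (ix_pde_d1_diff hp ha j).hasFDerivAt
  refine h4.congr_of_eventuallyEq ?_
  have hc : ContinuousAt ψ a := (if_differentiableAt hp ha).continuousAt
  filter_upwards [(if_open hp).mem_nhds ha, hc.eventually (hO.mem_nhds haO)] with w hw hwO
  exact ix_pde_pd_comp hp hO hf hw hwO j

theorem ix_pde_p2_comp (hp : IsParam M ψ T) (ha : a ∈ T) (hO : IsOpen O) (hf : ContDiffOn ℝ ∞ f O)
    (haO : ψ a ∈ O) (i j : Fin d) :
    pdiff (fun w => pdiff (f ∘ ψ) j w) i a =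
      fderiv ℝ (fderiv ℝ f) (ψ a) (ixD1 ψ i a) (ixD1 ψ j a) + fderiv ℝ f (ψ a) (ixD2 ψ i j a) := by
  unfold pdiff
  have := (ix_pde_p2_has hp ha hO hf haO j).fderiv
  unfold pdiff at this
  rw [this]
  simp only [add_apply, ContinuousLinearMap.comp_apply,
    ContinuousLinearMap.flip_apply]
  unfold ixD2 ixD1
  ring

theorem ix_pde_hessC (hp : IsParam M ψ T) (ha : a ∈ T) (hO : IsOpen O) (hf : ContDiffOn ℝ ∞ f O)
    (haO : ψ a ∈ O) (i j : Fin d) :
    hessC (cm (if_euc (E n)) ψ) (f ∘ ψ) a i j =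
      fderiv ℝ (fderiv ℝ f) (ψ a) (ixD1 ψ i a) (ixD1 ψ j a) + fderiv ℝ f (ψ a) (ixII ψ a i j) := by
  unfold hessC ixII
  rw [ix_pde_p2_comp hp ha hO hf haO, map_sub, map_sum]
  simp only [map_smul, smul_eq_mul, ix_pde_pd_comp hp hO hf ha haO]
  ring

/-- **the Laplace-Beltrami operator in ambient terms**. -/
theorem ix_pde_lapC (hp : IsParam M ψ T) (ha : a ∈ T) (hO : IsOpen O) (hf : ContDiffOn ℝ ∞ f O)
    (haO : ψ a ∈ O) :
    lapC (cm (if_euc (E n)) ψ) (f ∘ ψ) a =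
      ∑ i, ∑ j, (cm (if_euc (E n)) ψ a)⁻¹ i j *
        fderiv ℝ (fderiv ℝ f) (ψ a) (ixD1 ψ i a) (ixD1 ψ j a) + fderiv ℝ f (ψ a) (ixHv ψ a) := by
  rw [rm_lapC_eq_pt (if_metC (ix_pde_euc_metric d M) hp).toRm ha
    fun j => (ix_pde_p2_has hp ha hO hf haO j).differentiableAt]
  unfold ixHv
  simp only [ix_pde_hessC hp ha hO hf haO, map_sum, map_smul, smul_eq_mul, mul_add,
    Finset.sum_add_distrib]

end PdeGauss

/-! ## part PdeMfd -/

section PdeMfd

open scoped ContDiff Topology RealInnerProductSpace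
open Set Filter Claims.C0499
open Claimed.Agent.R315


/-- the hypotheses of the PDE package. -/
structure IxPdeGeo (d : ℕ) (U : Set (E (d + 2))) (u : E (d + 2) → ℝ) : Prop where
  opn : IsOpen U
  smooth : ContDiffOn ℝ ∞ u U
  eik : ∀ x ∈ U, ‖gradient u x‖ = 1
  hom : ∀ x ∈ U, ⟪x, gradient u x⟫ = u x
  harm : ∀ x ∈ U, u x = 0 → Gmt.gmtDiv (gradient u) x = 0

/-- the cone `{u = 0}`. -/
def ixpCone {n : ℕ} (U : Set (E n)) (u : E n → ℝ) : Set (E n) := {x | x ∈ U ∧ u x = 0}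

/-- the link. -/
def ixpLink {n : ℕ} (U : Set (E n)) (u : E n → ℝ) : Set (E n) :=
  {x | x ∈ ixpCone U u ∧ ‖x‖ ^ 2 - 1 = 0}

theorem ix_pde_link_iff {n : ℕ} {U : Set (E n)} {u : E n → ℝ} {x : E n} :
    x ∈ ixpLink U u ↔ x ∈ U ∧ u x = 0 ∧ ‖x‖ = 1 := by
  constructor
  · rintro ⟨⟨h1, h2⟩, h3⟩
    refine ⟨h1, h2, ?_⟩
    have : ‖x‖ ^ 2 = 1 ^ 2 := by linarith
    exact (pow_left_inj₀ (norm_nonneg x) zero_le_one two_ne_zero).1 this
  · rintro ⟨h1, h2, h3⟩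
    exact ⟨⟨h1, h2⟩, by rw [h3]; norm_num⟩

/-- an open set is a manifold. -/
theorem ix_pde_param_id {n : ℕ} {U : Set (E n)} (hU : IsOpen U) : IsParam U (id : E n → E n) U :=
  pk_param_mk (O := U) (g := id) hU contDiffOn_id
    (fun u _ => by rw [fderiv_id]; exact Function.injective_id) hU (by simp) continuousOn_id
    fun _ _ => rfl

section tang

variable {p n : ℕ} {Y : Set (E n)} {ψ : E p → E n} {T : Set (E p)} {a : E p}

/-- a function which is constant on `Y` has no derivative along `Y`. -/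
theorem ix_pde_tang (hp : IsParam Y ψ T) (ha : a ∈ T) {q : E n → ℝ} {c : ℝ}
    (hq : DifferentiableAt ℝ q (ψ a)) (hc : ∀ y ∈ Y, q y = c) (w : E p) :
    fderiv ℝ q (ψ a) (fderiv ℝ ψ a w) = 0 := by
  have h1 : (q ∘ ψ) =ᶠ[𝓝 a] fun _ => c := by
    filter_upwards [(if_open hp).mem_nhds ha] with b hb
    exact hc _ (if_mem hp hb)
  have h2 : fderiv ℝ (q ∘ ψ) a = fderiv ℝ (fun _ : E p => c) a := h1.fderiv_eq
  rw [fderiv_comp a hq (if_differentiableAt hp ha), fderiv_fun_const] at h2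
  exact congrArg (fun L : E p →L[ℝ] ℝ => L w) h2

theorem ix_pde_fderiv_sq (x v : E n) : fderiv ℝ (fun y : E n => ‖y‖ ^ 2 - 1) x v = 2 * ⟪x, v⟫ := by
  have h1 : HasFDerivAt (fun y : E n => ‖y‖ ^ 2 - 1) (2 • (innerSL ℝ x)) x :=
    (hasStrictFDerivAt_norm_sq x).hasFDerivAt.sub_const 1
  rw [h1.fderiv]
  simp

theorem ix_pde_sq_smooth : ContDiff ℝ ∞ (fun y : E n => ‖y‖ ^ 2 - 1) :=
  (contDiff_norm_sq ℝ).sub contDiff_const

theorem ix_pde_sq_diff (x : E n) : DifferentiableAt ℝ (fun y : E n => ‖y‖ ^ 2 - 1) x :=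
  ix_pde_sq_smooth.contDiffAt.differentiableAt (by simp)

end tang

variable {d : ℕ} {U : Set (E (d + 2))} {u : E (d + 2) → ℝ}

theorem IxPdeGeo.diff (hG : IxPdeGeo d U u) {x : E (d + 2)} (hx : x ∈ U) :
    DifferentiableAt ℝ u x :=
  (hG.smooth.contDiffAt (hG.opn.mem_nhds hx)).differentiableAt (by simp)

theorem ix_pde_cone_mfd (hG : IxPdeGeo d U u) : IsMfd (d + 1) (ixpCone U u) := by
  refine pk_mfd_level (d := d + 1) (Y := U) (G := u) fun z hz _ =>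
    ⟨id, U, z, ix_pde_param_id hG.opn, hz, rfl, hG.smooth, fun h0 => ?_⟩
  have h1 : fderiv ℝ u z = 0 := h0
  have h2 : gradient u z = 0 := by
    unfold gradient
    rw [h1, map_zero]
  have h3 := hG.eik z hz
  rw [h2, norm_zero] at h3
  exact zero_ne_one h3

/-- frames along the cone and along the link. -/
theorem ix_pde_frame (hG : IxPdeGeo d U u) {p : ℕ} {Y : Set (E (d + 2))} {ψ : E p → E (d + 2)}
    {T : Set (E p)} {a : E p} (hp : IsParam Y ψ T) (ha : a ∈ T) (hY : Y ⊆ ixpCone U u)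
    (h1 : ‖ψ a‖ = 1) (h2 : ∀ w, ⟪fderiv ℝ ψ a w, ψ a⟫ = 0) :
    IxFrame (fderiv ℝ ψ a) (ψ a) (gradient u (ψ a)) := by
  have hx : ψ a ∈ ixpCone U u := hY (if_mem hp ha)
  refine ⟨if_imm hp ha, h1, hG.eik _ hx.1, ?_, h2, fun w => ?_⟩
  · rw [hG.hom _ hx.1, hx.2]
  · rw [real_inner_comm, Gmt.gmtSim_inner_gradient]
    exact ix_pde_tang hp ha (hG.diff hx.1) (fun y hy => (hY hy).2) w

theorem ix_pde_link_mfd (hG : IxPdeGeo d U u) : IsMfd d (ixpLink U u) := by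
  refine pk_mfd_level (d := d) (Y := ixpCone U u) (G := fun y => ‖y‖ ^ 2 - 1) fun z hz hz0 => ?_
  obtain ⟨ψ, T, hp, a, ha, rfl⟩ := ix_pde_cone_mfd hG z hz
  refine ⟨ψ, T, a, hp, ha, rfl, ix_pde_sq_smooth.comp_contDiffOn (if_smooth hp), fun h0 => ?_⟩
  have h1 : ‖ψ a‖ = 1 := (ix_pde_link_iff.1 ⟨hz, hz0⟩).2.2
  have h2 : ∀ w, ⟪fderiv ℝ ψ a w, ψ a⟫ = 0 := by
    intro w
    have h3 := congrArg (fun L : E (d + 1) →L[ℝ] ℝ => L w) h0
    rw [fderiv_comp a (ix_pde_sq_diff _) (if_differentiableAt hp ha)] at h3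
    simp only [ContinuousLinearMap.comp_apply, ix_pde_fderiv_sq] at h3
    rw [real_inner_comm]
    simpa using h3
  have := ix_pde_lin_dim (ix_pde_frame hG hp ha Subset.rfl h1 h2)
  omega

theorem ix_pde_link_frame (hG : IxPdeGeo d U u) {ψ : E d → E (d + 2)} {T : Set (E d)} {a : E d}
    (hp : IsParam (ixpLink U u) ψ T) (ha : a ∈ T) :
    IxFrame (fderiv ℝ ψ a) (ψ a) (gradient u (ψ a)) := by
  have hx := ix_pde_link_iff.1 (if_mem hp ha)
  refine ix_pde_frame hG hp ha (fun y hy => hy.1) hx.2.2 fun w => ?_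
  have h1 := ix_pde_tang hp ha (q := fun y => ‖y‖ ^ 2 - 1) (c := 0)
    (ix_pde_sq_diff _) (fun y hy => hy.2) w
  rw [ix_pde_fderiv_sq] at h1
  rw [real_inner_comm]
  linarith

theorem ix_pde_link_geo (hG : IxPdeGeo d U u) :
    GsGeo d (ixpLink U u) (if_euc (E (d + 2))) (fun _ => 0) :=
  CtGeo.gs ⟨ix_pde_link_mfd hG, ix_pde_euc_metric d _, gs_sm_const 0⟩

end PdeMfd

/-! ## part PdeLink -/

section PdeLink

open scoped ContDiff Topology RealInnerProductSpace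
open Set Filter Claims.C0499
open Claimed.Agent.R315


variable {d : ℕ} {U : Set (E (d + 2))} {u : E (d + 2) → ℝ}

/-- `D²u(x, ·) = 0` (Euler). -/
theorem ix_pde_H_x (hG : IxPdeGeo d U u) {x : E (d + 2)} (hx : x ∈ U) (v : E (d + 2)) :
    ⟪Gmt.gmtSimH u x v, x⟫ = 0 := by
  have hg : DifferentiableAt ℝ (gradient u) x :=
    ((Gmt.gmtSim_contDiffOn_gradient hG.opn hG.smooth).contDiffAt
      (hG.opn.mem_nhds hx)).differentiableAt (by simp)
  have h1 : (fun y => ⟪y, gradient u y⟫) =ᶠ[𝓝 x] u := by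
    filter_upwards [hG.opn.mem_nhds hx] with y hy using hG.hom y hy
  have h3 := fderiv_inner_apply ℝ (differentiableAt_fun_id (x := x)) hg v
  rw [h1.fderiv_eq, fderiv_fun_id, ← Gmt.gmtSim_inner_gradient] at h3
  simp only [ContinuousLinearMap.id_apply] at h3
  rw [real_inner_comm v] at h3
  unfold Gmt.gmtSimH
  rw [real_inner_comm]
  linarith

section euler

variable {n : ℕ} {O : Set (E n)} {f : E n → ℝ}

/-- `D²f(x,x) = 0` for a function which satisfies Euler's identity of degree `0`. -/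
theorem ix_pde_euler2 (hO : IsOpen O) (hf : ContDiffOn ℝ ∞ f O) (hE : ∀ y ∈ O, fderiv ℝ f y y = 0)
    {x : E n} (hx : x ∈ O) : fderiv ℝ (fderiv ℝ f) x x x = 0 := by
  have h1 : ContDiffOn ℝ ∞ (fderiv ℝ f) O := hf.fderiv_of_isOpen hO (by simp)
  have h2 : HasFDerivAt (fderiv ℝ f) (fderiv ℝ (fderiv ℝ f) x) x :=
    ((h1.contDiffAt (hO.mem_nhds hx)).differentiableAt (by simp)).hasFDerivAt
  have h3 := h2.clm_apply (hasFDerivAt_id x)
  have h4 : (fun y => fderiv ℝ f y (id y)) =ᶠ[𝓝 x] fun _ => (0 : ℝ) := by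
    filter_upwards [hO.mem_nhds hx] with y hy using hE y hy
  have h5 := (h3.congr_of_eventuallyEq h4.symm).unique (hasFDerivAt_const (0 : ℝ) x)
  have h6 := congrArg (fun L : E n →L[ℝ] ℝ => L x) h5
  simp only [add_apply, ContinuousLinearMap.comp_apply, ContinuousLinearMap.flip_apply,
    ContinuousLinearMap.id_apply, id] at h6
  rw [hE x hx] at h6
  simpa using h6

/-- Euler's identity for `0`-homogeneous functions. -/
theorem ix_pde_euler1 (hf : ∀ t : ℝ, 0 < t → ∀ x, f (t • x) = f x) {x : E n}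
    (hd : DifferentiableAt ℝ f x) : fderiv ℝ f x x = 0 := by
  have h1 : HasDerivAt (fun t : ℝ => t • x) x 1 := by
    simpa using (hasDerivAt_id (1 : ℝ)).smul_const x
  have hd' : HasFDerivAt f (fderiv ℝ f x) ((1 : ℝ) • x) := by rw [one_smul]; exact hd.hasFDerivAt
  have h2 : HasDerivAt (fun t : ℝ => f (t • x)) (fderiv ℝ f x x) 1 :=
    hd'.comp_hasDerivAt (1 : ℝ) h1
  have h3 : (fun t : ℝ => f (t • x)) =ᶠ[𝓝 (1 : ℝ)] fun _ => f x := by
    filter_upwards [lt_mem_nhds (zero_lt_one' ℝ)] with t ht using hf t ht x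
  exact (h2.congr_of_eventuallyEq h3.symm).unique (hasDerivAt_const (1 : ℝ) (f x))

end euler

variable {O : Set (E (d + 2))} {f : E (d + 2) → ℝ}

/-- **the bridge**. -/
theorem ix_pde_lap_eq (hG : IxPdeGeo d U u) (hO : IsOpen O) (hLk : ixpLink U u ⊆ O)
    (hf : ContDiffOn ℝ ∞ f O) (hE : ∀ y ∈ O, fderiv ℝ f y y = 0) {x : E (d + 2)}
    (hx : x ∈ ixpLink U u) :
    lap d (ixpLink U u) (if_euc (E (d + 2))) f x = Gmt.gmtSimL u f x := by
  obtain ⟨ψ, T, hp, a, ha, rfl⟩ := ix_pde_link_mfd hG x hx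
  have hxU : ψ a ∈ U := hx.1.1
  have hfr := ix_pde_link_frame hG hp ha
  have hdet : (ixGram (fderiv ℝ ψ a)).det ≠ 0 := ix_pde_det hp ha
  have hfs : SmoothAlong d (ixpLink U u) f := if_smoothAlong_of_near ⟨O, hO, hLk, hf⟩
  -- the tangential trace
  have htr : ∀ (O' : Set (E (d + 2))) (k : E (d + 2) → ℝ), IsOpen O' → ContDiffOn ℝ ∞ k O' →
      ψ a ∈ O' → ∑ i, ∑ j, (cm (if_euc (E (d + 2))) ψ a)⁻¹ i j *
        fderiv ℝ (fderiv ℝ k) (ψ a) (ixD1 ψ i a) (ixD1 ψ j a) =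
      Gmt.gmtDiv (gradient k) (ψ a) - ⟪Gmt.gmtSimH k (ψ a) (ψ a), ψ a⟫ -
        ⟪Gmt.gmtSimH k (ψ a) (gradient u (ψ a)), gradient u (ψ a)⟫ := by
    intro O' k hO' hk hm
    rw [Gmt.gmtSim_div_eq_tr]
    have := ix_pde_lin_tr hfr hdet (Gmt.gmtSimH k (ψ a))
    simp only [Gmt.gmtSim_H_inner hO' hk hm] at this ⊢
    exact this
  -- the mean curvature vector is radial
  have hN : ⟪ixHv ψ a, gradient u (ψ a)⟫ = 0 := by
    have h1 := ix_pde_lapC hp ha hG.opn hG.smooth hxU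
    have h2 : (u ∘ ψ) =ᶠ[𝓝 a] fun _ => (0 : ℝ) := by
      filter_upwards [(if_open hp).mem_nhds ha] with b hb
      exact (if_mem hp hb).1.2
    rw [rm_lap_congr h2, rm_lap_const, htr U u hG.opn hG.smooth hxU, hG.harm _ hxU hx.1.2,
      ix_pde_H_x hG hxU, Gmt.gmtSim_H_gradient hG.opn hG.smooth hG.eik hxU, inner_zero_left,
      ← Gmt.gmtSim_inner_gradient] at h1
    rw [real_inner_comm]
    linarith
  have hHv : ixHv ψ a = ⟪ixHv ψ a, ψ a⟫ • ψ a := by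
    have h1 := ix_pde_lin_res hfr hdet (ixHv ψ a)
    have h2 : ixPT (fderiv ℝ ψ a) (ixHv ψ a) = 0 := by
      unfold ixPT
      refine Finset.sum_eq_zero fun i _ => Finset.sum_eq_zero fun j _ => ?_
      have : ⟪ixHv ψ a, fderiv ℝ ψ a (eb i)⟫ = 0 := ix_pde_Hv_perp hp ha i
      rw [this, mul_zero, zero_smul]
    rw [h2, hN, zero_smul, add_zero, zero_add] at h1
    exact h1
  have hxO : ψ a ∈ O := hLk hx
  rw [gs_lap_eq (ix_pde_euc_metric d _) hfs hp ha]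
  have h3 := ix_pde_lapC hp ha hO hf hxO
  have h4 : fderiv ℝ f (ψ a) (ixHv ψ a) = 0 := by
    rw [hHv, map_smul, hE _ hxO, smul_zero]
  rw [h4, add_zero, htr O f hO hf hxO, Gmt.gmtSim_H_inner hO hf hxO (ψ a) (ψ a),
    ix_pde_euler2 hO hf hE hxO, sub_zero] at h3
  unfold Gmt.gmtSimL
  exact h3

/-- radial extension. -/
noncomputable def ixRad {n : ℕ} (φ : E n → ℝ) (x : E n) : ℝ := φ (‖x‖⁻¹ • x)

theorem ix_pde_rad_smooth {n : ℕ} {φ : E n → ℝ} (hφ : ContDiff ℝ ∞ φ) :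
    ContDiffOn ℝ ∞ (ixRad φ) {0}ᶜ := by
  have h1 : ContDiffOn ℝ ∞ (fun x : E n => ‖x‖⁻¹ • x) {0}ᶜ := by
    refine ContDiffOn.smul (ContDiffOn.inv ?_ fun x hx => norm_ne_zero_iff.2 hx) contDiffOn_id
    intro x hx
    exact (contDiffAt_norm ℝ hx).contDiffWithinAt
  exact hφ.comp_contDiffOn h1

theorem ix_pde_rad_hom {n : ℕ} (φ : E n → ℝ) (t : ℝ) (ht : 0 < t) (x : E n) :
    ixRad φ (t • x) = ixRad φ x := by
  unfold ixRad
  congr 1
  rw [norm_smul, Real.norm_eq_abs, abs_of_pos ht, smul_smul, mul_inv]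
  congr 1
  field_simp

theorem ix_pde_rad_eq {n : ℕ} (φ : E n → ℝ) {x : E n} (hx : ‖x‖ = 1) : ixRad φ x = φ x := by
  unfold ixRad
  rw [hx, inv_one, one_smul]

/-- **the solver in the ambient language**. -/
theorem ix_pde_solve (hG : IxPdeGeo d U u) (hc : IsCompact (ixpLink U u)) {F : E (d + 2) → ℝ}
    (hF : ContDiffOn ℝ ∞ F U) {lam : ℝ} (hlam : 0 < lam) :
    ∃ z : E (d + 2) → ℝ, ContDiffOn ℝ ∞ z {0}ᶜ ∧ (∀ t : ℝ, 0 < t → ∀ x, z (t • x) = z x) ∧
      ∀ x ∈ ixpLink U u, - Gmt.gmtSimL u z x + lam * z x = F x := by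
  have hgeo := ix_pde_link_geo hG
  have hFs : SmoothAlong d (ixpLink U u) F :=
    if_smoothAlong_of_near ⟨U, hG.opn, fun x hx => hx.1.1, hF⟩
  obtain ⟨z, hz, hsol⟩ := ix_pde_resolvent hgeo hc hFs hlam
  obtain ⟨φ, hφ, -, hφz⟩ := gs_extend hgeo.mfd (φ := z) ⟨hz, ix_pde_cs hc z⟩
  have hsm := ix_pde_rad_smooth hφ
  have hop : IsOpen ({0}ᶜ : Set (E (d + 2))) := isOpen_compl_singleton
  have hsub : ixpLink U u ⊆ ({0}ᶜ : Set (E (d + 2))) := by
    intro x hx h0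
    have h1 := (ix_pde_link_iff.1 hx).2.2
    rw [mem_singleton_iff.1 h0, norm_zero] at h1
    exact zero_ne_one h1
  have heq : ∀ y ∈ ixpLink U u, ixRad φ y = z y := fun y hy => by
    rw [ix_pde_rad_eq φ (ix_pde_link_iff.1 hy).2.2, hφz y hy]
  refine ⟨ixRad φ, hsm, ix_pde_rad_hom φ, fun x hx => ?_⟩
  have h1 := ix_pde_lap_eq hG hop hsub hsm (fun y hy => ix_pde_euler1 (ix_pde_rad_hom φ)
    ((hsm.contDiffAt (hop.mem_nhds hy)).differentiableAt (by simp))) hx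
  have h2 := hsol x hx
  unfold wlap at h2
  rw [gs_ip_const_left hgeo.mfd hgeo.met 0 hz hx, sub_zero, ← gs_lap_congr heq, h1] at h2
  rw [heq x hx]
  exact h2

end PdeLink

end Claimed.Agent.R323
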