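import Claimed.Agent.R323.Ix.Calc
import Claimed.Agent.R323.Ix.PdeKit

/-!
# Row 323, block F, package PDE: the resolvent equation on the link.      Architect + prover: helper34.   SORRY-FREE.

Route (`Ix/PdeKit.lean`): `Σ = ixLink U u` is a compact embedded submanifold of `E (m+2)` in the sense of `R315`; `R315/Gs/Solve.gs_solve` (W = ε, C = 1, drift 0,
Euclidean tensor) solves `-Δz + εz = F`; `z` is extended to an ambient smooth function (`gs_extend`) and then radially; bridge `lap = gmtSimL` on the link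
(`Δ_g (z̃∘ψ) = tr_{TΣ} D²z̃ + Dz̃(H)`, `H` = mean curvature vector of the link in `E (m+2)`, which is radial).
EXIT (keep): `ix_resolvent`.
-/

set_option autoImplicit false
open scoped ContDiff ENNReal RealInnerProductSpace Topology
open MeasureTheory Metric Set Filter

namespace Claimed.Agent.R323

open Claimed.Agent.Gmt

theorem ix_pde_geo_of_tube {m : ℕ} {U : Set (E (m + 2))} {u : E (m + 2) → ℝ} (hT : IxTube U u) :
    IxPdeGeo m U u where
  opn := hT.opn
  smooth := hT.smooth
  eik := hT.eik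
  hom := fun x hx => by
    have hd : DifferentiableAt ℝ u x :=
      (hT.smooth.contDiffAt (hT.opn.mem_nhds hx)).differentiableAt (by simp)
    have h1 : HasDerivAt (fun t : ℝ => t • x) x 1 := by
      simpa using (hasDerivAt_id (1 : ℝ)).smul_const x
    have hd' : HasFDerivAt u (fderiv ℝ u x) ((1 : ℝ) • x) := by rw [one_smul]; exact hd.hasFDerivAt
    have h2 : HasDerivAt (fun t : ℝ => u (t • x)) (fderiv ℝ u x x) 1 :=
      hd'.comp_hasDerivAt (1 : ℝ) h1
    have h3 : (fun t : ℝ => u (t • x)) =ᶠ[𝓝 (1 : ℝ)] fun t => t * u x := by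
      filter_upwards [lt_mem_nhds (zero_lt_one' ℝ)] with t ht using hT.hom t ht x
    have h4 : HasDerivAt (fun t : ℝ => t * u x) (u x) 1 := by
      simpa using (hasDerivAt_id (1 : ℝ)).mul_const (u x)
    have h5 := (h2.congr_of_eventuallyEq h3.symm).unique h4
    rw [real_inner_comm, gmtSim_inner_gradient]
    exact h5
  harm := hT.harm

theorem ix_pde_link_eq {k : ℕ} (U : Set (E k)) (u : E k → ℝ) : ixpLink U u = ixLink U u := by
  ext x
  exact ix_pde_link_iff

theorem ix_resolvent {m : ℕ} (hm : 1 ≤ m) {U : Set (E (m + 2))} {u f : E (m + 2) → ℝ} (hT : IxTube U u) (hf : IxFun U f)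
    {ε : ℝ} (hε : 0 < ε) :
    ∃ h : E (m + 2) → ℝ, IxFun U h ∧ ∀ x ∈ ixLink U u, ixLap u h x - ε * h x = f x := by
  obtain ⟨z, hz1, hz2, hz3⟩ := ix_pde_solve (ix_pde_geo_of_tube hT)
    (by rw [ix_pde_link_eq]; exact hT.cpt) (F := fun x => - f x) hf.smooth.neg hε
  refine ⟨z, ⟨hz1.mono fun x hx h0 => hT.zero ((mem_singleton_iff.1 h0) ▸ hx),
    fun x _ t ht => hz2 t ht x⟩, fun x hx => ?_⟩
  have h1 := hz3 x (by rw [ix_pde_link_eq]; exact hx)
  unfold ixLap
  rw [hx.2.2]
  linarith

end Claimed.Agent.R323
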