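import Claimed.Agent.R323.Ix.TwoExit
import Claimed.Agent.R323.Ix.Pde

/-!
# Row 323, block F, package AVG: `∫ |A|² ≥ m |Σ|` (paper Theorem 3.2).      Architect: helper154.  Proof: helper34 (sorry-free modulo the cited contracts).

Proof: let `c' = ∫ (m - P) > 0`, `Λ` from `ix_two` (wlog `Λ ≥ 0`).  For `ε > 0` take `h` with `Δh - εh = m - P` on `Σ` (`ix_resolvent`) and `x₀` from `ix_two` for `f = h`:
`m - P(x₀) ≤ Δh(x₀) = m - P(x₀) + εh(x₀)`, so `h(x₀) ≥ 0` and `h ≥ -Λ` on `Σ`.   `∫ Δh = 0` gives `-ε∫h = c'`, so `c' ≤ εΛ|Σ|` for every `ε > 0`: contradiction.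
-/

set_option autoImplicit false
open scoped ContDiff ENNReal RealInnerProductSpace Topology
open MeasureTheory Metric Set Filter

namespace Claimed.Agent.R323

open Claimed.Agent.Gmt

theorem ix_avg {m : ℕ} (hm : 1 ≤ m) {U : Set (E (m + 2))} {u : E (m + 2) → ℝ} {σ : Measure (E (m + 2))}
    (hG : IxGeom U u σ) : (m : ℝ) * σ.real univ ≤ ∫ x, ixP u x ∂σ := by
  by_contra hcon
  rw [not_le] at hcon
  have hT : IxTube U u := hG.toIxTube
  have := hG.fin
  obtain ⟨Λ, hΛ⟩ := ix_two hT hG.full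
  have hV : 0 < σ.real univ := ix_vol_pos (by omega) hG
  set V : ℝ := σ.real univ with hVdef
  set c : ℝ := (m : ℝ) * V - ∫ x, ixP u x ∂σ with hc
  have hc0 : 0 < c := by rw [hc]; linarith
  have hL : 0 < |Λ| + 1 := by positivity
  set ε : ℝ := c / (2 * ((|Λ| + 1) * V)) with hε
  have hε0 : 0 < ε := by positivity
  have hεc : ε * ((|Λ| + 1) * V) < c := by
    have : ε * ((|Λ| + 1) * V) = c / 2 := by
      rw [hε]; field_simp
    rw [this]; linarith
  have hg : IxFun U (fun x => (m : ℝ) - ixP u x) := (IxFun.const (m : ℝ)).sub (ixFun_P hT)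
  obtain ⟨h, hh, hsol⟩ := ix_resolvent hm hT hg hε0
  obtain ⟨x₀, hx₀, h1, h2⟩ := hΛ h hh
  have h3 : 0 ≤ h x₀ := by
    have := hsol x₀ hx₀
    have h4 : 0 ≤ ε * h x₀ := by linarith
    exact nonneg_of_mul_nonneg_right h4 hε0
  have h5 : ∀ x ∈ ixLink U u, -|Λ| ≤ h x := fun x hx => by
    have := h2 x hx
    have := le_abs_self Λ
    linarith
  have h6 : ∫ x, (-|Λ|) ∂σ ≤ ∫ x, h x ∂σ := ix_integral_mono hG (IxFun.const _) hh h5
  rw [integral_const, smul_eq_mul, ← hVdef] at h6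
  have h7 : ∫ x, (ixLap u h x - ε * h x) ∂σ = ∫ x, ((m : ℝ) - ixP u x) ∂σ :=
    ix_integral_congr hG hsol
  rw [integral_sub ((ixFun_lap hT hh).integrable hG) ((hh.smul ε).integrable hG),
    integral_sub (integrable_const _) ((ixFun_P hT).integrable hG), ix_integral_lap hG hh,
    integral_const_mul, integral_const, smul_eq_mul, ← hVdef] at h7
  have h8 : c = -(ε * ∫ x, h x ∂σ) := by rw [hc]; linarith
  have h9 : ε * (V * -|Λ|) ≤ ε * ∫ x, h x ∂σ := mul_le_mul_of_nonneg_left h6 hε0.le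
  have h10 : ε * (|Λ| * V) ≤ ε * ((|Λ| + 1) * V) := by
    apply mul_le_mul_of_nonneg_left _ hε0.le
    nlinarith
  nlinarith

end Claimed.Agent.R323
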