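import Claimed.Agent.R323.Ix.Defs

/-!
# Row 323, block F, leaf L-IX-CALC-A: closure properties of `IxFun`.      Architect: helper154.
Routine: smoothness on the open set `U` (`gmtSim_contDiffOn_gradient`, `gmtSim_contDiffOn_H`, `gmtSim_contDiffOn_A`, `gmtSimI_contDiffOn_L` in Lib/Gmt/SimCalc, SimInt) and homogeneity
(`R323/Kit/Tube.kit_grad_smul`: `∇u(tx) = ∇u(x)`; `gmtSim_A_smul`; for `f` only homogeneous ON `U`: differentiate `f(ty) = f(y)` near `x`: `∇f(tx) = t⁻¹∇f(x)`, `D²f(tx) = t⁻² D²f(x)`).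
Keep the statements; add helper lemmas freely (prefix `ix`).
-/

set_option autoImplicit false
open scoped ContDiff ENNReal RealInnerProductSpace Topology
open MeasureTheory Metric Set Filter

namespace Claimed.Agent.R323

open Claimed.Agent.Gmt

variable {k : ℕ} {U : Set (E k)} {u f g f' g' : E k → ℝ} {σ : Measure (E k)}

/-! ## A. closure properties of `IxFun` -/

theorem IxFun.const (c : ℝ) : IxFun U (fun _ : E k => c) :=
  ⟨contDiffOn_const, fun _ _ _ _ => rfl⟩

theorem IxFun.add (hf : IxFun U f) (hg : IxFun U g) : IxFun U (fun x => f x + g x) :=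
  ⟨hf.smooth.add hg.smooth, fun x hx t ht => by simp only [hf.hom x hx t ht, hg.hom x hx t ht]⟩

theorem IxFun.sub (hf : IxFun U f) (hg : IxFun U g) : IxFun U (fun x => f x - g x) :=
  ⟨hf.smooth.sub hg.smooth, fun x hx t ht => by simp only [hf.hom x hx t ht, hg.hom x hx t ht]⟩

theorem IxFun.neg (hf : IxFun U f) : IxFun U (fun x => - f x) :=
  ⟨hf.smooth.neg, fun x hx t ht => by simp only [hf.hom x hx t ht]⟩

theorem IxFun.mul (hf : IxFun U f) (hg : IxFun U g) : IxFun U (fun x => f x * g x) :=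
  ⟨hf.smooth.mul hg.smooth, fun x hx t ht => by simp only [hf.hom x hx t ht, hg.hom x hx t ht]⟩

theorem IxFun.smul (c : ℝ) (hf : IxFun U f) : IxFun U (fun x => c * f x) :=
  (IxFun.const c).mul hf

theorem IxFun.pow (hf : IxFun U f) (n : ℕ) : IxFun U (fun x => f x ^ n) :=
  ⟨hf.smooth.pow n, fun x hx t ht => by simp only [hf.hom x hx t ht]⟩

theorem IxFun.sum {ι : Type*} (s : Finset ι) {F : ι → E k → ℝ} (h : ∀ i ∈ s, IxFun U (F i)) :
    IxFun U (fun x => ∑ i ∈ s, F i x) :=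
  ⟨ContDiffOn.sum fun i hi => (h i hi).smooth,
    fun x hx t ht => Finset.sum_congr rfl fun i hi => (h i hi).hom x hx t ht⟩

theorem IxFun.comp {F : ℝ → ℝ} {V : Set ℝ} (hF : ContDiffOn ℝ ∞ F V) (hf : IxFun U f)
    (hfV : ∀ x ∈ U, f x ∈ V) : IxFun U (fun x => F (f x)) :=
  ⟨hF.comp hf.smooth hfV, fun x hx t ht => by simp only [hf.hom x hx t ht]⟩

theorem IxFun.congr (hf : IxFun U f) (h : ∀ x ∈ U, g x = f x) (hU : ∀ x ∈ U, ∀ t : ℝ, 0 < t → t • x ∈ U) :
    IxFun U g :=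
  ⟨hf.smooth.congr h, fun x hx t ht => by rw [h x hx, h _ (hU x hx t ht), hf.hom x hx t ht]⟩

/-! ## homogeneity of derivatives on the open conic set -/

theorem ix_fderiv_smul {F : Type*} [NormedAddCommGroup F] [NormedSpace ℝ F] (hU : IsOpen U)
    {φ : E k → F} {t c : ℝ} (ht : 0 < t) (h : ∀ y ∈ U, φ (t • y) = c • φ y) {x : E k} (hx : x ∈ U) :
    fderiv ℝ φ (t • x) = (t⁻¹ * c) • fderiv ℝ φ x := by
  have e1 : fderiv ℝ (fun y => φ (t • y)) x = t • fderiv ℝ φ (t • x) := fderiv_comp_smul t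
  have e2 : (fun y => φ (t • y)) =ᶠ[𝓝 x] (c • φ) := by
    filter_upwards [hU.mem_nhds hx] with y hy using h y hy
  have e3 : fderiv ℝ (c • φ) x = c • fderiv ℝ φ x := by
    rw [fderiv_const_smul_field]
    rfl
  rw [e2.fderiv_eq, e3] at e1
  rw [mul_smul, e1, smul_smul, inv_mul_cancel₀ ht.ne', one_smul]

theorem ix_grad_smul (hU : IsOpen U) {t c : ℝ} (ht : 0 < t) (h : ∀ y ∈ U, f (t • y) = c * f y)
    {x : E k} (hx : x ∈ U) : gradient f (t • x) = (t⁻¹ * c) • gradient f x := by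
  unfold gradient
  rw [ix_fderiv_smul hU ht (c := c) (fun y hy => by rw [h y hy]; rfl) hx]
  simp

theorem ix_H_smul (hU : IsOpen U) {t c : ℝ} (ht : 0 < t) (h : ∀ y ∈ U, f (t • y) = c * f y)
    {x : E k} (hx : x ∈ U) : gmtSimH f (t • x) = (t⁻¹ * (t⁻¹ * c)) • gmtSimH f x :=
  ix_fderiv_smul hU ht (fun _ hy => ix_grad_smul hU ht h hy) hx

theorem IxTube.ne_zero (hT : IxTube U u) {x : E k} (hx : x ∈ U) : x ≠ 0 :=
  fun h => hT.zero (h ▸ hx)

theorem IxTube.grad_smul (hT : IxTube U u) {x : E k} (hx : x ∈ U) {t : ℝ} (ht : 0 < t) :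
    gradient u (t • x) = gradient u x := by
  rw [ix_grad_smul hT.opn ht (fun y _ => hT.hom t ht y) hx, inv_mul_cancel₀ ht.ne', one_smul]

theorem IxTube.H_smul (hT : IxTube U u) {x : E k} (hx : x ∈ U) {t : ℝ} (ht : 0 < t) :
    gmtSimH u (t • x) = t⁻¹ • gmtSimH u x := by
  rw [ix_H_smul hT.opn ht (fun y _ => hT.hom t ht y) hx, inv_mul_cancel₀ ht.ne', mul_one]

theorem IxFun.grad_smul (hU : IsOpen U) (hf : IxFun U f) {x : E k} (hx : x ∈ U) {t : ℝ} (ht : 0 < t) :
    gradient f (t • x) = t⁻¹ • gradient f x := by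
  rw [ix_grad_smul hU ht (c := 1) (fun y hy => by rw [hf.hom y hy t ht, one_mul]) hx, mul_one]

theorem IxFun.H_smul (hU : IsOpen U) (hf : IxFun U f) {x : E k} (hx : x ∈ U) {t : ℝ} (ht : 0 < t) :
    gmtSimH f (t • x) = (t⁻¹ * t⁻¹) • gmtSimH f x := by
  rw [ix_H_smul hU ht (c := 1) (fun y hy => by rw [hf.hom y hy t ht, one_mul]) hx, mul_one]

theorem ix_norm_sq_smul {t : ℝ} (ht : 0 < t) (x : E k) : ‖t • x‖ ^ 2 = t ^ 2 * ‖x‖ ^ 2 := by
  rw [norm_smul, Real.norm_eq_abs, abs_of_pos ht, mul_pow]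

theorem ix_contDiffOn_L (hU : IsOpen U) (hu : ContDiffOn ℝ ∞ u U) (hf : ContDiffOn ℝ ∞ f U) :
    ContDiffOn ℝ ∞ (gmtSimL u f) U := by
  have h1 := gmtSim_contDiffOn_gradient hU hu
  have h2 := gmtSim_contDiffOn_H hU hf
  have e : gmtSimL u f = fun x => (∑ i, ⟪gmtSimH f x (eb i), eb i⟫)
      - ⟪gmtSimH f x (gradient u x), gradient u x⟫ := by
    funext x
    unfold gmtSimL
    rw [gmtSim_div_eq_tr]
    rfl
  rw [e]
  refine ContDiffOn.sub (ContDiffOn.sum fun i _ => ?_) ((h2.clm_apply h1).inner ℝ h1)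
  exact (h2.clm_apply contDiffOn_const).inner ℝ contDiffOn_const

theorem ix_contDiffOn_Tg (hU : IsOpen U) (hu : ContDiffOn ℝ ∞ u U) (hf : ContDiffOn ℝ ∞ f U)
    (hg : ContDiffOn ℝ ∞ g U) : ContDiffOn ℝ ∞ (gmtSimTg u f g) U := by
  have h1 := gmtSim_contDiffOn_gradient hU hu
  have h2 := gmtSim_contDiffOn_gradient hU hf
  have h3 := gmtSim_contDiffOn_gradient hU hg
  exact (h2.inner ℝ h3).sub ((h2.inner ℝ h1).mul (h3.inner ℝ h1))

theorem ix_contDiffOn_norm_sq : ContDiffOn ℝ ∞ (fun x : E k => ‖x‖ ^ 2) U :=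
  (contDiff_norm_sq ℝ).contDiffOn

/-! ## the basic functions -/

theorem ixFun_X (hT : IxTube U u) (a : E k) : IxFun U (ixX a) := by
  refine ⟨?_, fun x hx t ht => ?_⟩
  · exact ContDiffOn.div (contDiffOn_const.inner ℝ contDiffOn_id)
      (contDiffOn_id.norm ℝ fun x hx => hT.ne_zero hx)
      (fun x hx => norm_ne_zero_iff.2 (hT.ne_zero hx))
  · unfold ixX
    rw [inner_smul_right, norm_smul, Real.norm_eq_abs, abs_of_pos ht, mul_div_mul_left _ _ ht.ne']

theorem ixFun_N (hT : IxTube U u) (a : E k) : IxFun U (ixN u a) := by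
  refine ⟨?_, fun x hx t ht => ?_⟩
  · exact contDiffOn_const.inner ℝ (gmtSim_contDiffOn_gradient hT.opn hT.smooth)
  · unfold ixN
    rw [hT.grad_smul hx ht]

theorem ixFun_P (hT : IxTube U u) : IxFun U (ixP u) := by
  refine ⟨?_, fun x hx t ht => ?_⟩
  · exact ix_contDiffOn_norm_sq.mul (gmtSim_contDiffOn_A hT.opn hT.smooth)
  · unfold ixP gmtSimA
    rw [hT.H_smul hx ht, ix_norm_sq_smul ht, mul_assoc, mul_left_comm, Finset.mul_sum]
    congr 1
    refine Finset.sum_congr rfl fun i _ => ?_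
    rw [_root_.smul_apply, norm_smul, mul_pow, Real.norm_eq_abs, sq_abs, inv_pow, ← mul_assoc,
      mul_inv_cancel₀ (pow_ne_zero 2 ht.ne'), one_mul]

theorem ixFun_lap (hT : IxTube U u) (hf : IxFun U f) : IxFun U (ixLap u f) := by
  refine ⟨?_, fun x hx t ht => ?_⟩
  · exact ix_contDiffOn_norm_sq.mul (ix_contDiffOn_L hT.opn hT.smooth hf.smooth)
  · have e : ∀ y, gmtSimL u f y = (∑ i, ⟪gmtSimH f y (eb i), eb i⟫)
        - ⟪gmtSimH f y (gradient u y), gradient u y⟫ := by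
      intro y
      unfold gmtSimL
      rw [gmtSim_div_eq_tr]
      rfl
    unfold ixLap
    rw [e, e, hf.H_smul hT.opn hx ht, hT.grad_smul hx ht, ix_norm_sq_smul ht]
    simp only [_root_.smul_apply, inner_smul_left, conj_trivial, ← Finset.mul_sum]
    field_simp

theorem ixFun_tg (hT : IxTube U u) (hf : IxFun U f) (hg : IxFun U g) : IxFun U (ixTg u f g) := by
  refine ⟨?_, fun x hx t ht => ?_⟩
  · exact ix_contDiffOn_norm_sq.mul (ix_contDiffOn_Tg hT.opn hT.smooth hf.smooth hg.smooth)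
  · unfold ixTg gmtSimTg
    rw [hf.grad_smul hT.opn hx ht, hg.grad_smul hT.opn hx ht, hT.grad_smul hx ht,
      ix_norm_sq_smul ht]
    simp only [inner_smul_left, inner_smul_right, conj_trivial]
    field_simp

/-! ## the opposite orientation -/

theorem ix_gradient_neg (u : E k → ℝ) : gradient (fun x => - u x) = fun x => - gradient u x := by
  funext x
  unfold gradient
  rw [fderiv_fun_neg, map_neg]

theorem ix_Pi_neg (u : E k → ℝ) (x : E k) : gmtSimPi (fun x => - u x) x = gmtSimPi u x := by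
  unfold gmtSimPi
  rw [ix_gradient_neg]
  simp

theorem ixLink_neg (U : Set (E k)) (u : E k → ℝ) : ixLink U (fun x => - u x) = ixLink U u := by
  ext x
  simp [ixLink]

theorem ixCone_neg (U : Set (E k)) (u : E k → ℝ) : ixCone U (fun x => - u x) = ixCone U u := by
  ext x
  simp [ixCone]

/-- the tube of the opposite orientation. -/
theorem IxTube.neg (hT : IxTube U u) : IxTube U (fun x => - u x) where
  opn := hT.opn
  zero := hT.zero
  conic := hT.conic
  smooth := hT.smooth.neg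
  eik := fun x hx => by rw [ix_gradient_neg, norm_neg, hT.eik x hx]
  hom := fun t ht x => by rw [hT.hom t ht x]; ring
  harm := fun x hx h0 => by
    have h1 := hT.harm x hx (neg_eq_zero.1 h0)
    rw [ix_gradient_neg]
    unfold gmtDiv at h1 ⊢
    rw [fderiv_fun_neg]
    simp only [_root_.neg_apply, PiLp.neg_apply, Finset.sum_neg_distrib, h1, neg_zero]
  proj := fun x hx => by
    rw [ix_Pi_neg]
    exact ⟨(hT.proj x hx).1, neg_eq_zero.2 (hT.proj x hx).2⟩
  grad_proj := fun x hx => by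
    rw [ix_Pi_neg, ix_gradient_neg]
    simp only [hT.grad_proj x hx]
  cpt := by rw [ixLink_neg]; exact hT.cpt

end Claimed.Agent.R323
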