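import Claimed.Agent.R323.Ix.Calc

/-!
# Row 323, block F, leaf L-IX-CLIFF-A: `|A|² = m`, no extra index direction ⟹ `N = 𝔅x` on `Σ`.      Architect: helper154.     (notes F_h154.md sec. 1 (H))
`P = m` on `Σ`.  Gram operator `G`: `<Ga,c> = ∫ x_a x_c dσ`, symmetric, positive definite (`∫x_a² = 0 ⟹ x_a = 0` on `Σ` ⟹ `a = 0` by `full`) ⟹ injective ⟹ bijective (finite dimension).
For `b` let `w_b ∈ E` with `<w_b,c> = ∫ n_b x_c dσ`, `a = G⁻¹ w_b`, `η = n_b - x_a`: `∫η x_c = 0` for all `c`; `∫η = 0` (`∫Δ = 0`, `Δn_b = -m n_b`, `Δx_a = -m x_a`);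
`Jη = Δη + 2mη = mη` on `Σ`; `B(η,1) = 2m∫η = 0`, `B(η,x_c) = ∫η P x_c = m∫ηx_c = 0`, `B(η,η) = m∫η²`.   `¬IxExtra` ⟹ `∫η² = 0` ⟹ `n_b = x_a` on `Σ`.
So for each basis vector `e_β` there is `a_β` with `<e_β,N> = <a_β,x>` on `Σ`: `𝔅 x = Σ_β <a_β,x> e_β`.
-/

set_option autoImplicit false
open scoped ContDiff ENNReal RealInnerProductSpace Topology
open MeasureTheory Metric Set Filter

namespace Claimed.Agent.R323

open Claimed.Agent.Gmt

variable {m : ℕ} {U : Set (E (m + 2))} {u : E (m + 2) → ℝ} {σ : Measure (E (m + 2))}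

theorem ixca_X_add {k : ℕ} (a a' x : E k) : ixX (a + a') x = ixX a x + ixX a' x := by
  unfold ixX
  rw [inner_add_left, add_div]

theorem ixca_X_smul {k : ℕ} (t : ℝ) (a x : E k) : ixX (t • a) x = t * ixX a x := by
  unfold ixX
  rw [real_inner_smul_left, mul_div_assoc]

/-- the functional `c ↦ ∫ f x_c`. -/
theorem ixca_fun {k : ℕ} {U : Set (E k)} {u : E k → ℝ} {σ : Measure (E k)} (hG : IxGeom U u σ) {f : E k → ℝ}
    (hf : IxFun U f) : ∃ ψ : E k →ₗ[ℝ] ℝ, ∀ c, ψ c = ∫ x, f x * ixX c x ∂σ := by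
  have hI : ∀ c, Integrable (fun x => f x * ixX c x) σ := fun c =>
    (hf.mul (ixFun_X hG.toIxTube c)).integrable hG
  refine ⟨{ toFun := fun c => ∫ x, f x * ixX c x ∂σ, map_add' := ?_, map_smul' := ?_ }, fun c => rfl⟩
  · intro c c'
    rw [← integral_add (hI c) (hI c')]
    refine integral_congr_ae (Eventually.of_forall fun x => ?_)
    simp only [ixca_X_add]
    ring
  · intro t c
    rw [RingHom.id_apply, smul_eq_mul, ← integral_const_mul]
    refine integral_congr_ae (Eventually.of_forall fun x => ?_)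
    simp only [ixca_X_smul]
    ring

/-- the Gram form of the coordinate functions. -/
theorem ixca_gram {k : ℕ} {U : Set (E k)} {u : E k → ℝ} {σ : Measure (E k)} (hG : IxGeom U u σ) :
    ∃ Φ : E k →ₗ[ℝ] E k →ₗ[ℝ] ℝ, ∀ a c, Φ a c = ∫ x, ixX a x * ixX c x ∂σ := by
  have hI : ∀ a c, Integrable (fun x => ixX a x * ixX c x) σ := fun a c =>
    ((ixFun_X hG.toIxTube a).mul (ixFun_X hG.toIxTube c)).integrable hG
  refine ⟨LinearMap.mk₂ ℝ (fun a c => ∫ x, ixX a x * ixX c x ∂σ) ?_ ?_ ?_ ?_, fun a c => rfl⟩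
  · intro a a' c
    rw [← integral_add (hI a c) (hI a' c)]
    refine integral_congr_ae (Eventually.of_forall fun x => ?_)
    simp only [ixca_X_add]
    ring
  · intro t a c
    rw [smul_eq_mul, ← integral_const_mul]
    refine integral_congr_ae (Eventually.of_forall fun x => ?_)
    simp only [ixca_X_smul]
    ring
  · intro a c c'
    rw [← integral_add (hI a c) (hI a c')]
    refine integral_congr_ae (Eventually.of_forall fun x => ?_)
    simp only [ixca_X_add]
    ring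
  · intro t a c
    rw [smul_eq_mul, ← integral_const_mul]
    refine integral_congr_ae (Eventually.of_forall fun x => ?_)
    simp only [ixca_X_smul]
    ring

theorem ixca_gram_inj {k : ℕ} {U : Set (E k)} {u : E k → ℝ} {σ : Measure (E k)} (hG : IxGeom U u σ)
    (Φ : E k →ₗ[ℝ] E k →ₗ[ℝ] ℝ) (hΦ : ∀ a c, Φ a c = ∫ x, ixX a x * ixX c x ∂σ) : Function.Injective Φ := by
  rw [injective_iff_map_eq_zero]
  intro a ha
  have h1 : ∫ x, ixX a x * ixX a x ∂σ = 0 := by
    rw [← hΦ, ha]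
    rfl
  have hX := ixFun_X hG.toIxTube a
  have h2 := ix_eq_zero_of_integral hG (hX.mul hX) (fun x _ => mul_self_nonneg _) h1
  apply hG.full
  intro x hx
  have h3 := mul_self_eq_zero.1 (h2 x hx)
  unfold ixX at h3
  rw [hx.2.2, div_one] at h3
  exact h3

/-- one normal coordinate is a coordinate function. -/
theorem ixca_one (hm : 1 ≤ m) (hG : IxGeom U u σ) (hP : ∀ x ∈ ixLink U u, ixP u x = m) (hne : ¬ IxExtra m U u σ)
    (b : E (m + 2)) : ∃ a : E (m + 2), ∀ x ∈ ixLink U u, ⟪b, gradient u x⟫ = ⟪a, x⟫ := by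
  have hT := hG.toIxTube
  have hm0 : (0 : ℝ) < m := by exact_mod_cast hm
  obtain ⟨Φ, hΦ⟩ := ixca_gram hG
  obtain ⟨ψ, hψ⟩ := ixca_fun hG (ixFun_N hT b)
  have hinj := ixca_gram_inj hG Φ hΦ
  have hsurj : Function.Surjective Φ :=
    (LinearMap.injective_iff_surjective_of_finrank_eq_finrank (Subspace.dual_finrank_eq).symm).1 hinj
  obtain ⟨a, ha⟩ := hsurj ψ
  obtain ⟨η, hηdef⟩ : ∃ η : E (m + 2) → ℝ, η = fun y => ixN u b y + (-1) * ixX a y := ⟨_, rfl⟩
  have hηx : ∀ x, η x = ixN u b x + (-1) * ixX a x := fun x => by rw [hηdef]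
  have hη : IxFun U η := by
    rw [hηdef]
    exact (ixFun_N hT b).add ((ixFun_X hT a).smul (-1))
  have hLap : ∀ x ∈ ixLink U u, ixLap u η x = -(m : ℝ) * η x := by
    intro x hx
    rw [hηdef, ixLap_add hT (ixFun_N hT b) ((ixFun_X hT a).smul (-1)) hx.1,
      ixLap_smul hT (-1) (ixFun_X hT a) hx.1, ixLap_N hT b hx, ixLap_X hT a hx, hP x hx]
    ring
  have horth : ∀ c, ∫ x, η x * ixX c x ∂σ = 0 := by
    intro c
    have h1 : ∀ x, η x * ixX c x = ixN u b x * ixX c x - ixX a x * ixX c x := by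
      intro x
      rw [hηx]
      ring
    simp only [h1]
    rw [integral_sub (((ixFun_N hT b).mul (ixFun_X hT c)).integrable hG)
      (((ixFun_X hT a).mul (ixFun_X hT c)).integrable hG), ← hψ, ← hΦ, ha, sub_self]
  have hint : ∫ x, η x ∂σ = 0 := by
    have h1 := ix_integral_lap hG hη
    rw [ix_integral_congr hG hLap, integral_const_mul] at h1
    rcases mul_eq_zero.1 h1 with h | h
    · linarith
    · exact h
  have hB1 : ixB m u σ η (fun _ => 1) = 0 := by
    rw [ixB_eq m hG hη (IxFun.const 1),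
      ix_integral_congr hG (g := fun x => (2 * m : ℝ) * η x) (fun x hx => by
        rw [ixLap_const, hP x hx]; ring),
      integral_const_mul, hint, mul_zero]
  have hBx : ∀ c, ixB m u σ η (ixX c) = 0 := by
    intro c
    rw [ixB_eq m hG hη (ixFun_X hT c),
      ix_integral_congr hG (g := fun x => (m : ℝ) * (η x * ixX c x)) (fun x hx => by
        rw [ixLap_X hT c hx, hP x hx]; ring),
      integral_const_mul, horth, mul_zero]
  have hBη : ixB m u σ η η = m * ∫ x, η x * η x ∂σ := by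
    rw [ixB_eq m hG hη hη,
      ix_integral_congr hG (g := fun x => (m : ℝ) * (η x * η x)) (fun x hx => by
        rw [hLap x hx, hP x hx]; ring),
      integral_const_mul]
  have hz : ∫ x, η x * η x ∂σ = 0 := by
    by_contra hnz
    have hpos : 0 < ∫ x, η x * η x ∂σ :=
      lt_of_le_of_ne (integral_nonneg (fun x => mul_self_nonneg _)) (Ne.symm hnz)
    exact hne ⟨η, hη, hB1, hBx, by rw [hBη]; positivity⟩
  have h0 := ix_eq_zero_of_integral hG (hη.mul hη) (fun x _ => mul_self_nonneg _) hz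
  refine ⟨a, fun x hx => ?_⟩
  have h1 := mul_self_eq_zero.1 (h0 x hx)
  rw [hηx] at h1
  unfold ixN ixX at h1
  rw [hx.2.2, div_one] at h1
  linarith

/-- (H1) `N = 𝔅 x` on `Σ`. -/
theorem ix_cliff_lin (hm : 1 ≤ m) (hG : IxGeom U u σ) (hP : ∀ x ∈ ixLink U u, ixP u x = m) (hne : ¬ IxExtra m U u σ) :
    ∃ B : E (m + 2) →L[ℝ] E (m + 2), ∀ x ∈ ixLink U u, gradient u x = B x := by
  choose a ha using fun b => ixca_one hm hG hP hne b
  refine ⟨∑ i, (innerSL ℝ (a (eb i))).smulRight (eb i), fun x hx => ?_⟩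
  rw [sum_apply]
  simp only [ContinuousLinearMap.smulRight_apply, innerSL_apply_apply]
  conv_lhs => rw [← gmt_sum_eb (gradient u x)]
  refine Finset.sum_congr rfl fun i _ => ?_
  rw [← ha (eb i) x hx, real_inner_comm, gmtSim_inner_eb]

end Claimed.Agent.R323
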