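import Claimed.Agent.R323.Ix.Calc

/-!
# Row 323, block F, package NIND: independence of the normal coordinates (paper Lemma 3.3).      Architect: helper154.

Proof (no Obata, no Codazzi).  Let `a ≠ 0`, `<a,N> = 0` on `Σ`.
1. `<a,∇u> = 0` on `C` (`∇u` is `0`-homogeneous) and then on all of `U` (`grad_proj`: `∇u = ∇u ∘ π`, `π x ∈ C`).
2. `C ∪ {0}` is closed (`Σ` compact, `C = ℝ_{>0} Σ`).  For `y ∈ C`, `y ∉ ℝa`, the set `{t | y + ta ∈ C}` is closed, open (`U` is open, `d/dt u(y+ta) = <∇u,a> = 0` in `U`), nonempty: it is `ℝ`.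
3. `(y + ta)/t ∈ C` tends to `a ≠ 0`: `a ∈ C`.   (If every `y ∈ Σ` lies on `ℝa`, then `a/|a|` or `-a/|a|` is in `Σ`; replace `a` by `-a`.)
4. for `s > 0`: `a + sy = s(y + a/s) ∈ C`, so `u(a + sy) = 0`; derivative at `s = 0`: `<∇u(a), y> = 0`; also for `y ∈ ℝa` since `<∇u(a),a> = u(a) = 0`.
5. `full` with `e = ∇u(a) ≠ 0`: contradiction.
-/

set_option autoImplicit false
open scoped ContDiff ENNReal RealInnerProductSpace Topology
open MeasureTheory Metric Set Filter

namespace Claimed.Agent.R323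

open Claimed.Agent.Gmt

variable {k : ℕ} {U : Set (E k)} {u : E k → ℝ}

theorem ixn_diff (hT : IxTube U u) {x : E k} (hx : x ∈ U) : DifferentiableAt ℝ u x :=
  (hT.smooth.contDiffAt (hT.opn.mem_nhds hx)).differentiableAt (by simp)

theorem ixn_hasFDeriv (hT : IxTube U u) {x : E k} (hx : x ∈ U) : HasFDerivAt u (innerSL ℝ (gradient u x)) x := by
  have := (ixn_diff hT hx).hasGradientAt
  exact this.hasFDerivAt

/-- `∇u` is `0`-homogeneous -/
theorem ixn_grad_smul (hT : IxTube U u) {x : E k} (hx : x ∈ U) {t : ℝ} (ht : 0 < t) : gradient u (t • x) = gradient u x := by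
  have h1 : HasFDerivAt u (innerSL ℝ (gradient u (t • x))) (t • x) := ixn_hasFDeriv hT (hT.conic x hx t ht)
  have h2 : HasFDerivAt (fun w : E k => t • w) (t • ContinuousLinearMap.id ℝ (E k)) x := (hasFDerivAt_id x).const_smul t
  have h3 : HasFDerivAt (fun w : E k => u (t • w)) ((innerSL ℝ (gradient u (t • x))).comp (t • ContinuousLinearMap.id ℝ (E k))) x :=
    HasFDerivAt.comp x h1 h2
  have h4 : HasFDerivAt (fun w : E k => u (t • w)) (t • innerSL ℝ (gradient u x)) x := by
    have : (fun w : E k => u (t • w)) = fun w => t • u w := by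
      funext w
      rw [hT.hom t ht w, smul_eq_mul]
    rw [this]
    exact (ixn_hasFDeriv hT hx).const_smul t
  have h5 := h3.unique h4
  refine ext_inner_right ℝ fun v => ?_
  have h6 := congrArg (fun L : E k →L[ℝ] ℝ => L v) h5
  simp only [ContinuousLinearMap.comp_apply, smul_apply, ContinuousLinearMap.id_apply, innerSL_apply_apply, inner_smul_right,
    smul_eq_mul] at h6
  exact mul_left_cancel₀ ht.ne' h6

theorem ixn_cone_ne (hT : IxTube U u) {x : E k} (hx : x ∈ ixCone U u) : x ≠ 0 := fun h => hT.zero (h ▸ hx.1)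

theorem ixn_cone_smul (hT : IxTube U u) {x : E k} (hx : x ∈ ixCone U u) {t : ℝ} (ht : 0 < t) : t • x ∈ ixCone U u :=
  ⟨hT.conic x hx.1 t ht, by rw [hT.hom t ht, hx.2, mul_zero]⟩

theorem ixn_unit (hT : IxTube U u) {x : E k} (hx : x ∈ ixCone U u) : ‖x‖⁻¹ • x ∈ ixLink U u := by
  have h0 : 0 < ‖x‖ := norm_pos_iff.2 (ixn_cone_ne hT hx)
  have := ixn_cone_smul hT hx (inv_pos.2 h0)
  exact ⟨this.1, this.2, by rw [norm_smul, norm_inv, norm_norm, inv_mul_cancel₀ h0.ne']⟩

theorem ixn_link_cone {x : E k} (hx : x ∈ ixLink U u) : x ∈ ixCone U u := ⟨hx.1, hx.2.1⟩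

/-- step 1 -/
theorem ixn_all (hT : IxTube U u) {a : E k} (ha : ∀ x ∈ ixLink U u, ixN u a x = 0) {x : E k} (hx : x ∈ U) : ⟪a, gradient u x⟫ = 0 := by
  have hp : gmtSimPi u x ∈ ixCone U u := hT.proj x hx
  have h0 : 0 < ‖gmtSimPi u x‖ := norm_pos_iff.2 (ixn_cone_ne hT hp)
  have h1 := ha _ (ixn_unit hT hp)
  unfold ixN at h1
  rwa [ixn_grad_smul hT hp.1 (inv_pos.2 h0), hT.grad_proj x hx] at h1

/-- step 2a: `C ∪ {0}` is closed -/
theorem ixn_closed (hT : IxTube U u) : IsClosed (ixCone U u ∪ {0}) := by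
  refine isClosed_of_closure_subset fun x hx => ?_
  by_cases h0 : x = 0
  · exact Or.inr h0
  left
  rw [closure_union, closure_singleton] at hx
  have hx' : x ∈ closure (ixCone U u) := hx.resolve_right h0
  have hc : ContinuousAt (fun w : E k => ‖w‖⁻¹ • w) x :=
    (continuousAt_id.norm.inv₀ (norm_ne_zero_iff.2 h0)).smul continuousAt_id
  have h1 : ‖x‖⁻¹ • x ∈ closure ((fun w : E k => ‖w‖⁻¹ • w) '' ixCone U u) := mem_closure_image hc hx'
  have h2 : (fun w : E k => ‖w‖⁻¹ • w) '' ixCone U u ⊆ ixLink U u := by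
    rintro _ ⟨w, hw, rfl⟩
    exact ixn_unit hT hw
  have h3 : ‖x‖⁻¹ • x ∈ ixLink U u := by
    have := closure_mono h2 h1
    rwa [hT.cpt.isClosed.closure_eq] at this
  have h4 := ixn_cone_smul hT (ixn_link_cone h3) (norm_pos_iff.2 h0)
  rwa [smul_smul, mul_inv_cancel₀ (norm_ne_zero_iff.2 h0), one_smul] at h4

/-- step 2: the cone is invariant under the translations along `a` -/
theorem ixn_line (hT : IxTube U u) {a : E k} (ha : ∀ x ∈ ixLink U u, ixN u a x = 0) {y : E k} (hy : y ∈ ixCone U u)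
    (hya : ∀ t : ℝ, y + t • a ≠ 0) (t : ℝ) : y + t • a ∈ ixCone U u := by
  set T : Set ℝ := {t | y + t • a ∈ ixCone U u} with hTdef
  have hcont : Continuous fun t : ℝ => y + t • a := by fun_prop
  have hcl : IsClosed T := by
    have : T = (fun t : ℝ => y + t • a) ⁻¹' (ixCone U u ∪ {0}) := by
      ext t
      simp only [hTdef, mem_ofPred_eq, mem_preimage, mem_union, mem_singleton_iff, hya t, or_false]
    rw [this]
    exact (ixn_closed hT).preimage hcont
  have hop : IsOpen T := by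
    rw [Metric.isOpen_iff]
    intro t₀ ht₀
    have hU : (fun t : ℝ => y + t • a) ⁻¹' U ∈ 𝓝 t₀ := hcont.continuousAt.preimage_mem_nhds (hT.opn.mem_nhds ht₀.1)
    obtain ⟨ε, hε, hb⟩ := Metric.mem_nhds_iff.1 hU
    refine ⟨ε, hε, fun t ht => ⟨hb ht, ?_⟩⟩
    have hd : ∀ s ∈ ball t₀ ε, HasDerivAt (fun s : ℝ => u (y + s • a)) 0 s := by
      intro s hs
      have h1 : HasFDerivAt u (innerSL ℝ (gradient u (y + s • a))) (y + s • a) := ixn_hasFDeriv hT (hb hs)
      have h2 : HasDerivAt (fun s : ℝ => y + s • a) a s := by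
        simpa using ((hasDerivAt_id s).smul_const a).const_add y
      have h3 := h1.comp_hasDerivAt s h2
      have h4 : (innerSL ℝ (gradient u (y + s • a))) a = 0 := by
        rw [innerSL_apply_apply, real_inner_comm]
        exact ixn_all hT ha (hb hs)
      rw [h4] at h3
      exact h3
    have hconst := (convex_ball t₀ ε).norm_image_sub_le_of_norm_hasDerivWithin_le (f := fun s : ℝ => u (y + s • a)) (f' := fun _ => 0) (C := 0)
      (fun s hs => (hd s hs).hasDerivWithinAt) (fun _ _ => by simp) (mem_ball_self hε) ht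
    rw [zero_mul, norm_le_zero_iff, sub_eq_zero] at hconst
    rw [hconst]
    exact ht₀.2
  have huniv : T = univ := IsClopen.eq_univ ⟨hcl, hop⟩ ⟨0, by simpa [hTdef] using hy⟩
  have : t ∈ T := huniv ▸ mem_univ t
  exact this

theorem ixn_ray (hT : IxTube U u) {a : E k} (ha : ∀ x ∈ ixLink U u, ixN u a x = 0) {y : E k} (hy : y ∈ ixCone U u)
    (hya : ∀ t : ℝ, y + t • a ≠ 0) {s : ℝ} (hs : 0 < s) : a + s • y ∈ ixCone U u := by
  have h1 := ixn_cone_smul hT (ixn_line hT ha hy hya s⁻¹) hs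
  rwa [smul_add, smul_smul, mul_inv_cancel₀ hs.ne', one_smul, add_comm] at h1

/-- step 3 -/
theorem ixn_mem (hT : IxTube U u) {a : E k} (ha : ∀ x ∈ ixLink U u, ixN u a x = 0) (ha0 : a ≠ 0) {y : E k} (hy : y ∈ ixCone U u) :
    a ∈ ixCone U u ∨ -a ∈ ixCone U u := by
  by_cases hya : ∀ t : ℝ, y + t • a ≠ 0
  · left
    have h1 : Tendsto (fun s : ℝ => a + s • y) (𝓝[>] 0) (𝓝 a) := by
      have : Continuous fun s : ℝ => a + s • y := by fun_prop
      have h := this.tendsto 0
      simp only [zero_smul, add_zero] at h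
      exact h.mono_left nhdsWithin_le_nhds
    have h2 : a ∈ ixCone U u ∪ {0} := (ixn_closed hT).mem_of_tendsto h1 (by
      filter_upwards [self_mem_nhdsWithin] with s hs
      exact Or.inl (ixn_ray hT ha hy hya hs))
    exact h2.resolve_right ha0
  · obtain ⟨t, ht⟩ := not_forall.1 hya
    rw [not_not] at ht
    have ht0 : t ≠ 0 := by
      rintro rfl
      rw [zero_smul, add_zero] at ht
      exact ixn_cone_ne hT hy ht
    have e : -a = t⁻¹ • y := by
      have : y = -(t • a) := eq_neg_of_add_eq_zero_left ht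
      rw [this, smul_neg, smul_smul, inv_mul_cancel₀ ht0, one_smul]
    rcases lt_or_gt_of_ne ht0 with h | h
    · left
      have : a = (-t⁻¹) • y := by rw [neg_smul, ← e, neg_neg]
      rw [this]
      exact ixn_cone_smul hT hy (by rw [neg_pos]; exact inv_lt_zero.2 h)
    · right
      rw [e]
      exact ixn_cone_smul hT hy (inv_pos.2 h)

/-- step 4 -/
theorem ixn_perp (hT : IxTube U u) {a : E k} (ha : ∀ x ∈ ixLink U u, ixN u a x = 0) (haC : a ∈ ixCone U u) {y : E k} (hy : y ∈ ixCone U u) :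
    ⟪gradient u a, y⟫ = 0 := by
  by_cases hya : ∀ t : ℝ, y + t • a ≠ 0
  · have h1 : HasFDerivAt u (innerSL ℝ (gradient u a)) (a + (0 : ℝ) • y) := by
      rw [zero_smul, add_zero]
      exact ixn_hasFDeriv hT haC.1
    have h2 : HasDerivAt (fun s : ℝ => a + s • y) y 0 := by
      simpa using ((hasDerivAt_id (0 : ℝ)).smul_const y).const_add a
    have h3 : HasDerivAt (fun s : ℝ => u (a + s • y)) ⟪gradient u a, y⟫ 0 := by
      have := h1.comp_hasDerivAt (0 : ℝ) h2
      rwa [innerSL_apply_apply] at this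
    have h4 : HasDerivWithinAt (fun s : ℝ => u (a + s • y)) 0 (Ici 0) 0 := by
      refine (hasDerivWithinAt_const (0 : ℝ) (Ici 0) (0 : ℝ)).congr (fun s hs => ?_) ?_
      · rcases (mem_Ici.1 hs).eq_or_lt with h | h
        · rw [← h, zero_smul, add_zero]
          exact haC.2
        · exact (ixn_ray hT ha hy hya h).2
      · rw [zero_smul, add_zero]
        exact haC.2
    exact (uniqueDiffWithinAt_Ici (0 : ℝ)).eq_deriv _ h3.hasDerivWithinAt h4
  · obtain ⟨t, ht⟩ := not_forall.1 hya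
    rw [not_not] at ht
    have : y = -(t • a) := eq_neg_of_add_eq_zero_left ht
    rw [this, inner_neg_right, inner_smul_right, real_inner_comm, ixn_all hT ha haC.1, mul_zero, neg_zero]

theorem ix_normal_indep (hT : IxTube U u) (hfull : ∀ e : E k, (∀ x ∈ ixLink U u, ⟪e, x⟫ = 0) → e = 0)
    {a : E k} (ha : ∀ x ∈ ixLink U u, ixN u a x = 0) : a = 0 := by
  by_contra ha0
  by_cases hne : (ixLink U u).Nonempty
  · obtain ⟨y, hy⟩ := hne
    have key : ∀ b : E k, (∀ x ∈ ixLink U u, ixN u b x = 0) → b ∈ ixCone U u → False := by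
      intro b hb hbC
      have h1 := hfull (gradient u b) fun x hx => ixn_perp hT hb hbC (ixn_link_cone hx)
      have h2 := hT.eik b hbC.1
      rw [h1, norm_zero] at h2
      norm_num at h2
    rcases ixn_mem hT ha ha0 (ixn_link_cone hy) with h | h
    · exact key a ha h
    · refine key (-a) (fun x hx => ?_) h
      have := ha x hx
      unfold ixN at this ⊢
      rw [inner_neg_left, this, neg_zero]
  · exact ha0 (hfull a fun x hx => absurd ⟨x, hx⟩ hne)

end Claimed.Agent.R323
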