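import Claimed.Agent.R323.Ix.TwoKit
import Claimed.Agent.R323.Ix.NInd

/-!
# Row 323, block F: the bridge `IxTube` + fullness ⟹ `Ix2Tube` (language of helper201's package TWO).      helper154.
-/

set_option autoImplicit false
open scoped ContDiff ENNReal RealInnerProductSpace Topology
open MeasureTheory Metric Set Filter

namespace Claimed.Agent.R323

open Claimed.Agent.Gmt

variable {k : ℕ} {U : Set (E k)} {u : E k → ℝ}

/-- Euler's identity. -/
theorem ixb_euler (hT : IxTube U u) {x : E k} (hx : x ∈ U) : ⟪x, gradient u x⟫ = u x := by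
  have hd : DifferentiableAt ℝ u x := ixn_diff hT hx
  have h1 : HasDerivAt (fun t : ℝ => u (t • x)) (fderiv ℝ u x x) 1 := by
    have hx1 : HasDerivAt (fun t : ℝ => t • x) x 1 := by
      simpa using (hasDerivAt_id (1 : ℝ)).smul_const x
    have hd' : HasFDerivAt u (fderiv ℝ u x) ((1 : ℝ) • x) := by
      rw [one_smul]
      exact hd.hasFDerivAt
    exact hd'.comp_hasDerivAt 1 hx1
  have h2 : HasDerivAt (fun t : ℝ => t * u x) (u x) 1 := by
    simpa using (hasDerivAt_id (1 : ℝ)).mul_const (u x)
  have h3 : (fun t : ℝ => t * u x) =ᶠ[𝓝 1] fun t : ℝ => u (t • x) := by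
    filter_upwards [lt_mem_nhds (zero_lt_one' ℝ)] with t ht using (hT.hom t ht x).symm
  rw [real_inner_comm, gmtSim_inner_gradient]
  exact (h1.congr_of_eventuallyEq h3).unique h2

theorem ixb_tube2 (hT : IxTube U u) (hfull : ∀ e : E k, (∀ x ∈ ixLink U u, ⟪e, x⟫ = 0) → e = 0) :
    Ix2Tube k (ixLink U u) U u :=
  { opn := hT.opn
    conic := hT.conic
    smooth := hT.smooth
    eik := hT.eik
    homog := fun x _ t ht => hT.hom t ht x
    hom := fun _ hx => ixb_euler hT hx
    harm := hT.harm
    proj := hT.proj
    cpt := hT.cpt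
    mem_iff := fun _ => Iff.rfl
    full := by
      intro e he
      by_contra hcon
      push_neg at hcon
      have := hfull e hcon
      rw [this, norm_zero] at he
      exact zero_ne_one he }

end Claimed.Agent.R323
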