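import Claimed.Agent.R323.Ix.Calc
import Claimed.Agent.R323.Ix.TwoBridge

/-!
# Row 323, block F, leaf L-IX-CLIFF-B: `N = 𝔅x` on `Σ`, `|A|² = m` ⟹ `𝔅` symmetric, `𝔅² = r𝔅 + 1`, `tr 𝔅 = r`.      Architect + proof: helper154.     (notes F_h154.md sec. 1 (H))
TOOL: smooth curves in the link with prescribed velocity (`ix2k_curve`, helper201/257).
* `ix_cliff_tan`: differentiate `N(c t) = 𝔅 (c t)`.
* `ixc_B_apply`: `𝔅 w = h w + <w,x> N + <w,N> 𝔅N` at `x ∈ Σ`.
* `ix_cliff_symm`: `<y,𝔅w> = q(y) <w,N(y)>`, `q(y) = <y,𝔅N(y)>` on `Σ`; differentiate along a curve: `(1-q) h(v,w) = 0` for tangent `v, w`; `h ≠ 0` since `|h|² = m > 0`; so `q = 1`; `full`.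
* `ix_cliff_alg`: `𝔅N = x + rN`, `χ(y) = <𝔅N(y),N(y)>` has `∇χ = 2h𝔅N = 0` on `Σ`; `IxOne` for `χ`: reverse Cauchy-Schwarz ⟹ `χ` constant; `full`; trace from `ixc_B_apply`.
-/

set_option autoImplicit false
open scoped ContDiff ENNReal RealInnerProductSpace Topology
open MeasureTheory Metric Set Filter

namespace Claimed.Agent.R323

open Claimed.Agent.Gmt

variable {m : ℕ} {U : Set (E (m + 2))} {u : E (m + 2) → ℝ} {σ : Measure (E (m + 2))}

theorem ixc_N_hasFDerivAt (hT : IxTube U u) {x : E (m + 2)} (hx : x ∈ U) :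
    HasFDerivAt (gradient u) (gmtSimH u x) x :=
  (((gmtSim_contDiffOn_gradient hT.opn hT.smooth).contDiffAt (hT.opn.mem_nhds hx)).differentiableAt
    (by simp)).hasFDerivAt

/-- derivative of `N` along a curve. -/
theorem ixc_N_curve (hT : IxTube U u) {c : ℝ → E (m + 2)} (hc : ContDiff ℝ ∞ c) (hcU : c 0 ∈ U) :
    HasDerivAt (fun t => gradient u (c t)) (gmtSimH u (c 0) (deriv c 0)) 0 :=
  (ixc_N_hasFDerivAt hT hcU).comp_hasDerivAt 0 (ix2c_hasDerivAt hc 0)

/-- (H2) differentiation along the link: `𝔅 v = h v` for `v ⊥ x, N`. -/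
theorem ix_cliff_tan (hT : IxTube U u) (hfull : ∀ e : E (m + 2), (∀ x ∈ ixLink U u, ⟪e, x⟫ = 0) → e = 0)
    {B : E (m + 2) →L[ℝ] E (m + 2)} (hB : ∀ x ∈ ixLink U u, gradient u x = B x)
    {x : E (m + 2)} (hx : x ∈ ixLink U u) {v : E (m + 2)} (hvx : ⟪v, x⟫ = 0) (hvN : ⟪v, gradient u x⟫ = 0) :
    B v = gmtSimH u x v := by
  obtain ⟨c, hc, hc0, hc1, hcS⟩ := ix2k_curve (ixb_tube2 hT hfull) hx ⟨hvx, hvN⟩
  have h1 := ixc_N_curve hT hc (by rw [hc0]; exact hx.1)
  rw [hc0, hc1] at h1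
  have h2 : HasDerivAt (fun t => B (c t)) (B v) 0 := by
    have := (B.hasFDerivAt (x := c 0)).comp_hasDerivAt 0 (ix2c_hasDerivAt hc 0)
    rwa [hc1] at this
  have h3 : (fun t => gradient u (c t)) = fun t => B (c t) := funext fun t => hB _ (hcS t)
  rw [h3] at h1
  exact h2.unique h1

/-- the orthonormal pair `x, N` and the kernel of `h`. -/
theorem ixc_frame (hT : IxTube U u) {x : E (m + 2)} (hx : x ∈ ixLink U u) :
    ⟪x, x⟫ = 1 ∧ ⟪gradient u x, gradient u x⟫ = 1 ∧ ⟪x, gradient u x⟫ = 0 ∧ gmtSimH u x x = 0 ∧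
      gmtSimH u x (gradient u x) = 0 := by
  refine ⟨by rw [real_inner_self_eq_norm_sq, hx.2.2]; norm_num,
    by rw [real_inner_self_eq_norm_sq, hT.eik x hx.1]; norm_num,
    by rw [ixb_euler hT hx.1, hx.2.1], ?_, gmtSim_H_gradient hT.opn hT.smooth hT.eik hx.1⟩
  -- `h x = 0`: differentiate Euler's identity
  apply ext_inner_right ℝ
  intro a
  rw [inner_zero_left]
  have h1 : HasDerivAt (fun t : ℝ => ⟪x + t • a, gradient u (x + t • a)⟫)
      (⟪a, gradient u x⟫ + ⟪x, gmtSimH u x a⟫) 0 := by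
    have e1 := ix2k_line_id x a
    have e2 := ix2k_line (ixc_N_hasFDerivAt hT hx.1) a
    have := e1.inner ℝ e2
    simp only [zero_smul, add_zero] at this
    rw [add_comm ⟪a, gradient u x⟫]
    exact this
  have h2 : HasDerivAt (fun t : ℝ => u (x + t • a)) ⟪gradient u x, a⟫ 0 := by
    have h := (ixn_diff hT hx.1).hasFDerivAt
    have h2 := ix2k_line h a
    rwa [← gmtSim_inner_gradient] at h2
  have hmem : ∀ᶠ t : ℝ in 𝓝 0, x + t • a ∈ U := by
    have hcont : ContinuousAt (fun t : ℝ => x + t • a) 0 := (ix2k_line_id x a).continuousAt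
    exact hcont.preimage_mem_nhds (by simpa using hT.opn.mem_nhds hx.1)
  have h3 := h1.unique (h2.congr_of_eventuallyEq (by
    filter_upwards [hmem] with t ht using ixb_euler hT ht))
  rw [gmtSim_H_symm hT.opn hT.smooth hx.1 x a]
  rw [real_inner_comm a] at h3
  linarith

/-- `𝔅 w = h w + <w,x> N + <w,N> 𝔅N`. -/
theorem ixc_B_apply (hT : IxTube U u) (hfull : ∀ e : E (m + 2), (∀ x ∈ ixLink U u, ⟪e, x⟫ = 0) → e = 0)
    {B : E (m + 2) →L[ℝ] E (m + 2)} (hB : ∀ x ∈ ixLink U u, gradient u x = B x)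
    {x : E (m + 2)} (hx : x ∈ ixLink U u) (w : E (m + 2)) :
    B w = gmtSimH u x w + ⟪w, x⟫ • gradient u x + ⟪w, gradient u x⟫ • B (gradient u x) := by
  obtain ⟨hxx, hNN, hxN, hhx, hhN⟩ := ixc_frame hT hx
  set N := gradient u x with hN
  set wT : E (m + 2) := w - ⟪w, N⟫ • N - ⟪w, x⟫ • x with hwT
  have t1 : ⟪wT, x⟫ = 0 := by
    simp only [hwT, inner_sub_left, inner_smul_left, hxx, real_inner_comm x N, hxN]
    simp
  have t2 : ⟪wT, N⟫ = 0 := by
    simp only [hwT, inner_sub_left, inner_smul_left, hNN, hxN]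
    simp
  have h1 := ix_cliff_tan hT hfull hB hx t1 t2
  have h2 : gmtSimH u x wT = gmtSimH u x w := by
    simp only [hwT, map_sub, map_smul, hhx, hhN]
    simp
  have h3 : B wT = B w - ⟪w, N⟫ • B N - ⟪w, x⟫ • N := by
    simp only [hwT, map_sub, map_smul, ← hB x hx, hN]
  rw [h2, h3] at h1
  rw [← h1]
  abel

/-- the tangential projection. -/
theorem ixc_proj (hT : IxTube U u) {x : E (m + 2)} (hx : x ∈ ixLink U u) (w : E (m + 2)) :
    ∃ wT : E (m + 2), ⟪wT, x⟫ = 0 ∧ ⟪wT, gradient u x⟫ = 0 ∧ gmtSimH u x wT = gmtSimH u x w := by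
  obtain ⟨hxx, hNN, hxN, hhx, hhN⟩ := ixc_frame hT hx
  refine ⟨w - ⟪w, gradient u x⟫ • gradient u x - ⟪w, x⟫ • x, ?_, ?_, ?_⟩
  · simp only [inner_sub_left, inner_smul_left, hxx, real_inner_comm x (gradient u x), hxN]
    simp
  · simp only [inner_sub_left, inner_smul_left, hNN, hxN]
    simp
  · simp only [map_sub, map_smul, hhx, hhN]
    simp

/-- `h ≠ 0` on the tangent space of the link. -/
theorem ixc_h_ne (hm : 1 ≤ m) (hT : IxTube U u) {x : E (m + 2)} (hx : x ∈ ixLink U u) (hP : ixP u x = m) :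
    ∃ v w : E (m + 2), ⟪v, x⟫ = 0 ∧ ⟪v, gradient u x⟫ = 0 ∧ ⟪w, x⟫ = 0 ∧ ⟪w, gradient u x⟫ = 0 ∧
      ⟪gmtSimH u x w, v⟫ ≠ 0 := by
  by_contra hcon
  push_neg at hcon
  have h0 : ∀ a, gmtSimH u x a = 0 := by
    intro a
    apply ext_inner_right ℝ
    intro b
    rw [inner_zero_left]
    obtain ⟨aT, a1, a2, a3⟩ := ixc_proj hT hx a
    obtain ⟨bT, b1, b2, b3⟩ := ixc_proj hT hx b
    rw [← a3, gmtSim_H_symm hT.opn hT.smooth hx.1, ← b3, ← gmtSim_H_symm hT.opn hT.smooth hx.1]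
    exact hcon bT aT b1 b2 a1 a2
  have h1 : ixP u x = 0 := by
    simp [ixP, gmtSimA, h0]
  rw [h1] at hP
  have : (1 : ℝ) ≤ m := by exact_mod_cast hm
  linarith

/-- (H3) `𝔅` is symmetric. -/
theorem ix_cliff_symm (hm : 1 ≤ m) (hG : IxGeom U u σ) (hP : ∀ x ∈ ixLink U u, ixP u x = m)
    {B : E (m + 2) →L[ℝ] E (m + 2)} (hB : ∀ x ∈ ixLink U u, gradient u x = B x) :
    ∀ v w, ⟪B v, w⟫ = ⟪v, B w⟫ := by
  have hT := hG.toIxTube
  have hfull := hG.full
  have hid : ∀ y ∈ ixLink U u, ∀ w, ⟪y, B w⟫ = ⟪y, B (gradient u y)⟫ * ⟪w, gradient u y⟫ := by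
    intro y hy w
    obtain ⟨hxx, hNN, hxN, hhx, hhN⟩ := ixc_frame hT hy
    rw [ixc_B_apply hT hfull hB hy w, inner_add_right, inner_add_right, inner_smul_right, inner_smul_right,
      hxN, ← gmtSim_H_symm hT.opn hT.smooth hy.1, hhx, inner_zero_left]
    ring
  have hq : ∀ x ∈ ixLink U u, ⟪x, B (gradient u x)⟫ = 1 := by
    intro x hx
    obtain ⟨v, w, hvx, hvN, hwx, hwN, hne⟩ := ixc_h_ne hm hT hx (hP x hx)
    obtain ⟨c, hc, hc0, hc1, hcS⟩ := ix2k_curve (ixb_tube2 hT hfull) hx ⟨hvx, hvN⟩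
    have dc : HasDerivAt c v 0 := hc1 ▸ ix2c_hasDerivAt hc 0
    have d1 : HasDerivAt (fun t => ⟪c t, B w⟫) ⟪v, B w⟫ 0 := by
      have := dc.inner ℝ (hasDerivAt_const (0 : ℝ) (B w))
      simpa using this
    have dN : HasDerivAt (fun t => gradient u (c t)) (gmtSimH u x v) 0 := by
      have := ixc_N_curve hT hc (by rw [hc0]; exact hx.1)
      rwa [hc0, hc1] at this
    have dBN : HasDerivAt (fun t => B (gradient u (c t))) (B (gmtSimH u x v)) 0 :=
      (B.hasFDerivAt (x := gradient u (c 0))).comp_hasDerivAt 0 dN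
    have dq := dc.inner ℝ dBN
    have dw : HasDerivAt (fun t => ⟪w, gradient u (c t)⟫) ⟪w, gmtSimH u x v⟫ 0 := by
      have := (hasDerivAt_const (0 : ℝ) w).inner ℝ dN
      simpa using this
    have d2 := dq.mul dw
    have h3 := d1.unique (d2.congr_of_eventuallyEq (Eventually.of_forall fun t => hid _ (hcS t) w))
    simp only [hc0, hwN, mul_zero, zero_add] at h3
    rw [ix_cliff_tan hT hfull hB hx hwx hwN, ← gmtSim_H_symm hT.opn hT.smooth hx.1 w v,
      real_inner_comm] at h3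
    have h4 : (1 - ⟪x, B (gradient u x)⟫) * ⟪gmtSimH u x w, v⟫ = 0 := by linarith
    have := (mul_eq_zero.1 h4).resolve_right hne
    linarith
  intro v w
  have he : ContinuousLinearMap.adjoint B w - B w = 0 := by
    apply hfull
    intro x hx
    rw [inner_sub_left, ContinuousLinearMap.adjoint_inner_left, ← hB x hx, real_inner_comm x (B w),
      hid x hx w, hq x hx, one_mul, sub_self]
  rw [← ContinuousLinearMap.adjoint_inner_right, sub_eq_zero.1 he]

/-- (H4) `𝔅² = r𝔅 + 1`, `tr 𝔅 = r`. -/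
theorem ix_cliff_alg (hm : 1 ≤ m) (hG : IxGeom U u σ) (hP : ∀ x ∈ ixLink U u, ixP u x = m) (h1 : IxOne U u σ)
    {B : E (m + 2) →L[ℝ] E (m + 2)} (hB : ∀ x ∈ ixLink U u, gradient u x = B x)
    (hs : ∀ v w, ⟪B v, w⟫ = ⟪v, B w⟫) :
    ∃ r : ℝ, (∀ v, B (B v) = r • B v + v) ∧ gmtSimTr B = r := by
  have := hG.fin
  have hT := hG.toIxTube
  have hfull := hG.full
  have hm0 : (0 : ℝ) < m := by exact_mod_cast hm
  set χ : E (m + 2) → ℝ := fun y => ⟪B (gradient u y), gradient u y⟫ with hχ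
  have hBN : ∀ x ∈ ixLink U u, B (gradient u x) = x + χ x • gradient u x := by
    intro x hx
    obtain ⟨hxx, hNN, hxN, hhx, hhN⟩ := ixc_frame hT hx
    apply ext_inner_right ℝ
    intro w
    rw [hs, ixc_B_apply hT hfull hB hx w, inner_add_right, inner_add_right, inner_smul_right, inner_smul_right,
      hNN, ← gmtSim_H_symm hT.opn hT.smooth hx.1, hhN, inner_zero_left, inner_add_left, inner_smul_left,
      real_inner_comm (B (gradient u x)) (gradient u x), real_inner_comm w x, real_inner_comm w (gradient u x)]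
    simp only [hχ, conj_trivial]
    ring
  have hNs := gmtSim_contDiffOn_gradient hT.opn hT.smooth
  have hχF : IxFun U χ :=
    ⟨(B.contDiff.comp_contDiffOn hNs).inner ℝ hNs, fun x hx t ht => by
      simp only [hχ, ixn_grad_smul hT hx ht]⟩
  -- the gradient of `χ` vanishes on the link
  have hgrad : ∀ x ∈ ixLink U u, gradient χ x = 0 := by
    intro x hx
    obtain ⟨hxx, hNN, hxN, hhx, hhN⟩ := ixc_frame hT hx
    apply ext_inner_right ℝ
    intro v
    rw [inner_zero_left, gmtSim_inner_gradient]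
    have hd : DifferentiableAt ℝ χ x :=
      (hχF.smooth.contDiffAt (hT.opn.mem_nhds hx.1)).differentiableAt (by simp)
    have e1 := ix2k_line hd.hasFDerivAt v
    have dN := ix2k_line (ixc_N_hasFDerivAt hT hx.1) v
    have dBN : HasDerivAt (fun t : ℝ => B (gradient u (x + t • v))) (B (gmtSimH u x v)) 0 :=
      (B.hasFDerivAt (x := gradient u (x + (0 : ℝ) • v))).comp_hasDerivAt 0 dN
    have e2 := dBN.inner ℝ dN
    have e3 := e1.unique e2
    simp only [zero_smul, add_zero] at e3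
    rw [e3, hs (gmtSimH u x v), real_inner_comm (B (gradient u x)) (gmtSimH u x v), hBN x hx, inner_add_left,
      inner_smul_left, ← gmtSim_H_symm hT.opn hT.smooth hx.1, ← gmtSim_H_symm hT.opn hT.smooth hx.1, hhx, hhN]
    simp
  have hTg : ∀ x ∈ ixLink U u, ixTg u χ χ x = 0 := by
    intro x hx
    simp [ixTg, gmtSimTg, hgrad x hx]
  -- reverse Cauchy-Schwarz
  set V : ℝ := σ.real univ with hV
  have hVpos : 0 < V := ix_vol_pos (by omega) hG
  set I1 : ℝ := ∫ x, χ x ∂σ with hI1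
  set I2 : ℝ := ∫ x, χ x ^ 2 ∂σ with hI2
  have hχi := hχF.integrable hG
  have hχ2i := (hχF.pow 2).integrable hG
  have q1 : ixQ u σ χ χ = (m : ℝ) * I2 := by
    unfold ixQ
    rw [ix_integral_congr hG (g := fun x => (m : ℝ) * χ x ^ 2) (fun x hx => by
      rw [hTg x hx, hP x hx]; ring), integral_const_mul]
  have q2 : ∫ x, ixP u x ∂σ = (m : ℝ) * V := by
    rw [ix_integral_congr hG (g := fun _ => (m : ℝ)) hP, integral_const]
    simp [hV, mul_comm]
  have q3 : ∫ x, ixP u x * χ x ∂σ = (m : ℝ) * I1 := by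
    rw [ix_integral_congr hG (g := fun x => (m : ℝ) * χ x) (fun x hx => by rw [hP x hx]), integral_const_mul]
  have h2 := h1 χ hχF
  rw [q1, q2, q3] at h2
  have h3 : I2 * V ≤ I1 ^ 2 := by
    have : (m : ℝ) ^ 2 * (I2 * V) ≤ (m : ℝ) ^ 2 * I1 ^ 2 := by nlinarith
    exact le_of_mul_le_mul_left this (by positivity)
  set r : ℝ := I1 / V with hr
  have hdF : IxFun U (fun x => (χ x - r) ^ 2) := (hχF.sub (IxFun.const r)).pow 2
  have h4 : ∫ x, (χ x - r) ^ 2 ∂σ = I2 - 2 * r * I1 + r ^ 2 * V := by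
    have e : ∀ x, (χ x - r) ^ 2 = χ x ^ 2 - 2 * r * χ x + r ^ 2 := fun x => by ring
    simp only [e]
    have i1 : Integrable (fun x => 2 * r * χ x) σ := hχi.const_mul _
    have i2 : Integrable (fun x => χ x ^ 2 - 2 * r * χ x) σ := hχ2i.sub i1
    rw [integral_add i2 (integrable_const _), integral_sub hχ2i i1, integral_const_mul, integral_const,
      smul_eq_mul, ← hV, ← hI1, ← hI2]
    ring
  have h5 : ∫ x, (χ x - r) ^ 2 ∂σ = 0 := by
    apply le_antisymm
    · rw [h4, hr]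
      have : I2 - 2 * (I1 / V) * I1 + (I1 / V) ^ 2 * V = (I2 * V - I1 ^ 2) / V := by
        field_simp
        ring
      rw [this]
      exact div_nonpos_of_nonpos_of_nonneg (by linarith) hVpos.le
    · exact integral_nonneg fun x => sq_nonneg _
  have hχr : ∀ x ∈ ixLink U u, χ x = r := by
    intro x hx
    have := ix_eq_zero_of_integral hG hdF (fun x _ => sq_nonneg _) h5 x hx
    have := pow_eq_zero_iff (two_ne_zero) |>.1 this
    linarith
  refine ⟨r, fun v => ?_, ?_⟩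
  · have hD : B (B v) - r • B v - v = 0 := by
      apply hfull
      intro x hx
      rw [inner_sub_left, inner_sub_left, inner_smul_left, hs, hs, hs v x, ← hB x hx, hBN x hx, hχr x hx,
        inner_add_right, inner_smul_right]
      simp
    have := sub_eq_zero.1 hD
    rw [sub_eq_iff_eq_add] at this
    rw [this]
    abel
  · obtain ⟨x, hx⟩ := ixLink_nonempty (by omega) hG
    obtain ⟨hxx, hNN, hxN, hhx, hhN⟩ := ixc_frame hT hx
    have htr : gmtSimTr (gmtSimH u x) = 0 := by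
      have := gmtSim_div_eq_tr (gradient u) x
      rw [hT.harm x hx.1 hx.2.1] at this
      exact this.symm
    unfold gmtSimTr at htr ⊢
    have e : ∀ i, ⟪B (eb i), eb i⟫ = ⟪gmtSimH u x (eb i), eb i⟫ + 2 * (x i * gradient u x i)
        + r * (gradient u x i * gradient u x i) := by
      intro i
      rw [ixc_B_apply hT hfull hB hx (eb i), hBN x hx, hχr x hx, inner_add_left, inner_add_left, inner_smul_left,
        inner_smul_left, inner_add_left, inner_smul_left, real_inner_comm x (eb i),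
        real_inner_comm (gradient u x) (eb i)]
      simp only [conj_trivial, gmtSim_inner_eb x i, gmtSim_inner_eb (gradient u x) i]
      ring
    simp only [e]
    rw [Finset.sum_add_distrib, Finset.sum_add_distrib, htr, ← Finset.mul_sum, ← Finset.mul_sum,
      ← gmtSim_inner_eq_sum, ← gmtSim_inner_eq_sum, hxN, hNN]
    ring

end Claimed.Agent.R323
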