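import Claimed.Agent.R323.Ix.Defs

/-!
# Row 323, block F, leaf L-IX-CLIFF-C: pure linear algebra.      Architect: helper154.
`𝔅` symmetric on `E (m+2)`, `𝔅² = r𝔅 + 1`, `tr 𝔅 = r`.  Mathlib: `LinearMap.IsSymmetric.eigenvectorBasis`, `eigenvalues` (antitone: `eigenvalues_antitone`), `gmtSim_tr_eq_trace` + trace = sum of eigenvalues.
Every eigenvalue is a root of `t² - rt - 1`: `λ > 0` or `-1/λ < 0`, `r = λ - 1/λ`.  `d₊ = #{i | μ_i = λ}`, `d₋ = m+2-d₊`: `d₊λ - d₋/λ = λ - 1/λ` ⟹ `(d₊-1)λ² = d₋-1` ⟹ `d₊, d₋ ≥ 2` (`m ≥ 1`).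
`j = d₊-1`, `λ² = (m-j)/j`, `O = eigenvectorBasis.repr`, `μ_i = λ ⟺ i.val ≤ j` (antitone), `<𝔅x,x> = Σ μ_i (Ox)_i² = (λj)⁻¹((m-j)Σ_{i≤j} - jΣ_{i>j})`.
-/

set_option autoImplicit false
open scoped ContDiff ENNReal RealInnerProductSpace Topology
open MeasureTheory Metric Set Filter

namespace Claimed.Agent.R323

open Claimed.Agent.Gmt

variable {m : ℕ}

/-- a sum of two constants over an initial segment and its complement -/
theorem ixc_sum_ite (n d : ℕ) (hd : d ≤ n) (a b : ℝ) : ∑ k ∈ Finset.range n, (if k < d then a else b) = d * a + ((n : ℝ) - d) * b := by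
  obtain ⟨e, rfl⟩ := Nat.exists_eq_add_of_le hd
  rw [Finset.sum_range_add]
  have h1 : ∑ k ∈ Finset.range d, (if k < d then a else b) = d * a := by
    rw [Finset.sum_congr rfl fun k hk => if_pos (Finset.mem_range.1 hk), Finset.sum_const, Finset.card_range, nsmul_eq_mul]
  have h2 : ∑ k ∈ Finset.range e, (if d + k < d then a else b) = e * b := by
    rw [Finset.sum_congr rfl fun k _ => if_neg (by omega), Finset.sum_const, Finset.card_range, nsmul_eq_mul]
  rw [h1, h2]
  push_cast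
  ring

/-- an antitone family with two values `b < a` is a step function -/
theorem ixc_step (n : ℕ) (μ : Fin n → ℝ) (hμ : Antitone μ) (a b : ℝ) (hab : b < a) (h : ∀ i, μ i = a ∨ μ i = b) :
    ∃ d ≤ n, ∀ i : Fin n, μ i = if i.val < d then a else b := by
  classical
  have hex : ∃ k : ℕ, ∀ hk : k < n, μ ⟨k, hk⟩ ≠ a := ⟨n, fun hk => absurd hk (lt_irrefl n)⟩
  refine ⟨Nat.find hex, Nat.find_min' hex (fun hk => absurd hk (lt_irrefl n)), fun i => ?_⟩
  by_cases hi : i.val < Nat.find hex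
  · rw [if_pos hi]
    have := Nat.find_min hex hi
    push Not at this
    obtain ⟨_, h1⟩ := this
    exact h1
  · rw [if_neg hi]
    have hd : Nat.find hex ≤ i.val := not_lt.1 hi
    have hdn : Nat.find hex < n := lt_of_le_of_lt hd i.2
    have h1 := Nat.find_spec hex hdn
    have h2 : μ ⟨Nat.find hex, hdn⟩ = b := (h _).resolve_left h1
    have h3 : μ i ≤ μ ⟨Nat.find hex, hdn⟩ := hμ (Fin.mk_le_of_le_val hd)
    rcases h i with h4 | h4
    · rw [h4, h2] at h3
      exact absurd h3 (not_le.2 hab)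
    · exact h4

/-- (H5) linear algebra (spectral theorem of Mathlib, `eigenvalues` antitone). -/
theorem ix_cliff_spec (hm : 1 ≤ m) {B : E (m + 2) →L[ℝ] E (m + 2)} (hs : ∀ v w, ⟪B v, w⟫ = ⟪v, B w⟫) {r : ℝ}
    (h2 : ∀ v, B (B v) = r • B v + v) (htr : gmtSimTr B = r) :
    ∃ j : ℕ, 1 ≤ j ∧ j < m ∧ ∃ (O : E (m + 2) ≃ₗᵢ[ℝ] E (m + 2)) (c : ℝ), 0 < c ∧ ∀ x,
      ⟪B x, x⟫ = c * (((m : ℝ) - j) * (∑ i : Fin (m + 2) with i.val ≤ j, O x i ^ 2) -
        (j : ℝ) * ∑ i : Fin (m + 2) with j < i.val, O x i ^ 2) := by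
  rw [gmtSim_tr_eq_trace] at htr
  classical
  have hT : (B : E (m + 2) →ₗ[ℝ] E (m + 2)).IsSymmetric := fun v w => hs v w
  have hn : Module.finrank ℝ (E (m + 2)) = m + 2 := finrank_euclideanSpace_fin
  obtain ⟨b, hb⟩ : ∃ b : OrthonormalBasis (Fin (m + 2)) ℝ (E (m + 2)), b = hT.eigenvectorBasis hn := ⟨_, rfl⟩
  obtain ⟨μ, hμ⟩ : ∃ μ : Fin (m + 2) → ℝ, μ = hT.eigenvalues hn := ⟨_, rfl⟩
  have hBb : ∀ i, B (b i) = μ i • b i := by
    intro i
    rw [hb, hμ]
    exact hT.apply_eigenvectorBasis hn i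
  have hanti : Antitone μ := by
    rw [hμ]
    exact hT.eigenvalues_antitone hn
  have hsum : ∑ i, μ i = r := by
    rw [hμ, ← htr]
    exact (hT.trace_eq_sum_eigenvalues hn).symm
  -- the quadratic equation
  have hq : ∀ i, μ i ^ 2 = r * μ i + 1 := by
    intro i
    have h1 := h2 (b i)
    rw [hBb, map_smul, hBb, smul_smul, smul_smul] at h1
    have h3 : (μ i * μ i - (r * μ i + 1)) • b i = 0 := by
      rw [sub_smul, add_smul, one_smul, h1, sub_self]
    have hne : b i ≠ 0 := b.orthonormal.ne_zero i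
    have := (smul_eq_zero.1 h3).resolve_right hne
    nlinarith
  -- the positive root
  obtain ⟨lam, hlam⟩ : ∃ lam : ℝ, lam = (r + Real.sqrt (r ^ 2 + 4)) / 2 := ⟨_, rfl⟩
  have hsq : Real.sqrt (r ^ 2 + 4) ^ 2 = r ^ 2 + 4 := Real.sq_sqrt (by positivity)
  have hsr : |r| < Real.sqrt (r ^ 2 + 4) := by
    rw [← Real.sqrt_sq_eq_abs]
    exact Real.sqrt_lt_sqrt (by positivity) (by linarith)
  have hl0 : 0 < lam := by
    have := neg_abs_le r
    rw [hlam]
    linarith
  have hl2 : lam ^ 2 = r * lam + 1 := by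
    rw [hlam]
    nlinarith
  have hval : ∀ i, μ i = lam ∨ μ i = -lam⁻¹ := by
    intro i
    have h1 : (μ i - lam) * (μ i * lam + 1) = 0 := by
      have := hq i
      linear_combination lam * this - μ i * hl2
    rcases mul_eq_zero.1 h1 with h3 | h3
    · left; linarith
    · right
      field_simp
      linarith
  obtain ⟨d, hdn, hstep⟩ := ixc_step (m + 2) μ hanti lam (-lam⁻¹) (by have : 0 < lam⁻¹ := inv_pos.2 hl0; linarith) hval
  -- the trace
  have htr2 : (d : ℝ) * lam + (((m + 2 : ℕ) : ℝ) - d) * (-lam⁻¹) = r := by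
    rw [← ixc_sum_ite (m + 2) d hdn, ← hsum, ← Fin.sum_univ_eq_sum_range (fun k => if k < d then lam else -lam⁻¹)]
    exact Finset.sum_congr rfl fun i _ => (hstep i).symm
  have hkey : ((d : ℝ) - 1) * lam ^ 2 = (m : ℝ) + 1 - d := by
    have h1 : r = lam - lam⁻¹ := by
      field_simp
      linarith
    rw [h1] at htr2
    push_cast at htr2
    field_simp at htr2
    nlinarith
  have hl2p : 0 < lam ^ 2 := by positivity
  have hm' : (1 : ℝ) ≤ m := by exact_mod_cast hm
  have hd2 : 2 ≤ d := by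
    by_contra hlt
    have : d = 0 ∨ d = 1 := by omega
    rcases this with h0 | h0
    · rw [h0] at hkey
      push_cast at hkey
      nlinarith
    · rw [h0] at hkey
      push_cast at hkey
      nlinarith
  have hdm : d ≤ m := by
    by_contra hlt
    have h1 : m + 1 ≤ d := by omega
    have h1' : (m : ℝ) + 1 ≤ d := by exact_mod_cast h1
    have : 0 < ((d : ℝ) - 1) * lam ^ 2 := mul_pos (by linarith) hl2p
    linarith
  obtain ⟨j, rfl⟩ : ∃ j, d = j + 1 := ⟨d - 1, by omega⟩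
  have hj0 : (0 : ℝ) < j := by
    have : 0 < j := by omega
    exact_mod_cast this
  have hjl : (j : ℝ) * lam ^ 2 = (m : ℝ) - j := by
    push_cast at hkey
    linarith
  refine ⟨j, by omega, by omega, b.repr, (lam * j)⁻¹, by positivity, fun x => ?_⟩
  have hexp : ⟪B x, x⟫ = ∑ i, μ i * b.repr x i ^ 2 := by
    rw [← b.sum_inner_mul_inner (B x) x]
    refine Finset.sum_congr rfl fun i _ => ?_
    rw [hs, hBb, inner_smul_right, b.repr_apply_apply, real_inner_comm (b i) x]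
    ring
  rw [hexp, ← Finset.sum_filter_add_sum_filter_not Finset.univ (fun i : Fin (m + 2) => i.val ≤ j)]
  have e1 : ∑ i : Fin (m + 2) with i.val ≤ j, μ i * b.repr x i ^ 2 = lam * ∑ i : Fin (m + 2) with i.val ≤ j, b.repr x i ^ 2 := by
    rw [Finset.mul_sum]
    refine Finset.sum_congr rfl fun i hi => ?_
    rw [hstep i, if_pos (by have := (Finset.mem_filter.1 hi).2; omega)]
  have e2 : ∑ i : Fin (m + 2) with ¬ i.val ≤ j, μ i * b.repr x i ^ 2 = -lam⁻¹ * ∑ i : Fin (m + 2) with j < i.val, b.repr x i ^ 2 := by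
    rw [Finset.mul_sum]
    have : (Finset.univ.filter fun i : Fin (m + 2) => ¬ i.val ≤ j) = Finset.univ.filter fun i : Fin (m + 2) => j < i.val :=
      Finset.filter_congr fun i _ => not_le
    rw [this]
    refine Finset.sum_congr rfl fun i hi => ?_
    rw [hstep i, if_neg (by have := (Finset.mem_filter.1 hi).2; omega)]
  rw [e1, e2, ← hjl]
  field_simp
  ring


end Claimed.Agent.R323
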