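import Claimed.Agent.R323.Ix.Logic
import Claimed.Agent.R323.Ix.CliffA
import Claimed.Agent.R323.Ix.CliffB
import Claimed.Agent.R323.Ix.CliffC

/-!
# Row 323, block F: THE CORE in the abstract language (assembled from the packages; no sorry of its own).      Architect: helper154.
-/

set_option autoImplicit false
open scoped ContDiff ENNReal RealInnerProductSpace Topology
open MeasureTheory Metric Set Filter

namespace Claimed.Agent.R323

open Claimed.Agent.Gmt

variable {m : ℕ} {U : Set (E (m + 2))} {u : E (m + 2) → ℝ} {σ : Measure (E (m + 2))}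

/-- **the core of block F in the abstract language.** -/
theorem ix_core (hm : 2 ≤ m) (hG : IxGeom U u σ) :
    IxExtra m U u σ ∨ ∃ j : ℕ, 1 ≤ j ∧ j < m ∧ ∃ O : E (m + 2) ≃ₗᵢ[ℝ] E (m + 2), ∀ x ∈ ixLink U u,
      ((m : ℝ) - j) * (∑ i : Fin (m + 2) with i.val ≤ j, O x i ^ 2) =
        (j : ℝ) * ∑ i : Fin (m + 2) with j < i.val, O x i ^ 2 := by
  by_cases hne : IxExtra m U u σ
  · exact Or.inl hne
  right
  have hm1 : 1 ≤ m := by omega
  have h1 := ix_one_of_not_extra hm1 hG hne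
  have hP := ix_P_eq hm hG h1
  obtain ⟨B, hB⟩ := ix_cliff_lin hm1 hG hP hne
  have hs := ix_cliff_symm hm1 hG hP hB
  obtain ⟨r, h2, htr⟩ := ix_cliff_alg hm1 hG hP h1 hB hs
  obtain ⟨j, hj1, hjm, O, c, hc, hO⟩ := ix_cliff_spec hm1 hs h2 htr
  refine ⟨j, hj1, hjm, O, fun x hx => ?_⟩
  have h0 : ⟪B x, x⟫ = 0 := by
    rw [← hB x hx, real_inner_comm]
    exact ix_inner_self_grad hG.toIxTube ⟨hx.1, hx.2.1⟩
  have h3 := hO x
  rw [h0] at h3
  have h4 := (mul_eq_zero.1 h3.symm).resolve_left hc.ne'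
  linarith

end Claimed.Agent.R323
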