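import Claimed.Agent.Lib.Gmt.SimId

/-!
# Row 323, block F (index): DEFINITIONS of the abstract language.      Architect: helper154.

Written proof of the whole block: `git show origin/helper154:notes/r323/F_h154.md`.

`k = m + 2`, `E k = EuclideanSpace ℝ (Fin k)`.  A closed embedded minimal hypersurface `Σ^m ⊆ S^{m+1}` is given by ONE function `u`
(the signed distance to the cone `C` over `Σ`) on a conic open neighbourhood `U` of `C \ 0`: `IxTube U u`.
* `N = gradient u`, `h = D²u = gmtSimH u`, `|h|² = gmtSimA u`, `π = gmtSimPi u` (nearest point projection onto `C`).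
* functions on `Σ` = smooth `0`-homogeneous functions on `U` (`IxFun U f`);
* `ixP u = |x|² |h|²` (`= |A|²` on `Σ`), `ixLap u f = |x|² gmtSimL u f` (`= Δ_Σ f` on `Σ`), `ixTg u f g = |x|² gmtSimTg u f g` (`= ∇f·∇g` on `Σ`);
* `σ` = the volume measure of `Σ`, known only through the fields of `IxGeom` (no atoms: theorem `ix_atom`, file `Atom.lean`);
* `ixB` = Jacobi form `∫ (-∇f·∇g + (m + |A|²) f g)`, `ixQ = ixB - m ∫ f g`.
NO manifolds, NO frames, NO covariant derivatives, NO spectral theory of `Δ_Σ`.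
-/

set_option autoImplicit false
open scoped ContDiff ENNReal RealInnerProductSpace Topology
open MeasureTheory Metric Set Filter

namespace Claimed.Agent.R323

open Claimed.Agent.Gmt

variable {k : ℕ}

/-- the cone without its vertex. -/
def ixCone (U : Set (E k)) (u : E k → ℝ) : Set (E k) := {x | x ∈ U ∧ u x = 0}

/-- the link `Σ`. -/
def ixLink (U : Set (E k)) (u : E k → ℝ) : Set (E k) := {x | x ∈ U ∧ u x = 0 ∧ ‖x‖ = 1}

/-- `u` is the signed distance to a minimal cone with compact smooth embedded link, on the conic open set `U`. -/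
structure IxTube (U : Set (E k)) (u : E k → ℝ) : Prop where
  opn : IsOpen U
  zero : (0 : E k) ∉ U
  conic : ∀ x ∈ U, ∀ t : ℝ, 0 < t → t • x ∈ U
  smooth : ContDiffOn ℝ ∞ u U
  eik : ∀ x ∈ U, ‖gradient u x‖ = 1
  hom : ∀ t : ℝ, 0 < t → ∀ x, u (t • x) = t * u x
  harm : ∀ x ∈ U, u x = 0 → gmtDiv (gradient u) x = 0
  proj : ∀ x ∈ U, gmtSimPi u x ∈ U ∧ u (gmtSimPi u x) = 0
  grad_proj : ∀ x ∈ U, gradient u (gmtSimPi u x) = gradient u x
  cpt : IsCompact (ixLink U u)

/-- smooth `0`-homogeneous functions on `U` (= smooth functions near `Σ`). -/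
structure IxFun (U : Set (E k)) (f : E k → ℝ) : Prop where
  smooth : ContDiffOn ℝ ∞ f U
  hom : ∀ x ∈ U, ∀ t : ℝ, 0 < t → f (t • x) = f x

/-- `|A|²`. -/
noncomputable def ixP (u : E k → ℝ) (x : E k) : ℝ := ‖x‖ ^ 2 * gmtSimA u x

/-- `Δ_Σ f`. -/
noncomputable def ixLap (u f : E k → ℝ) (x : E k) : ℝ := ‖x‖ ^ 2 * gmtSimL u f x

/-- `∇_Σ f · ∇_Σ g`. -/
noncomputable def ixTg (u f g : E k → ℝ) (x : E k) : ℝ := ‖x‖ ^ 2 * gmtSimTg u f g x

/-- the coordinate function `<a,x>` of `Σ`. -/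
noncomputable def ixX (a : E k) (x : E k) : ℝ := ⟪a, x⟫ / ‖x‖

/-- the normal coordinate `<a,N>`. -/
noncomputable def ixN (u : E k → ℝ) (a : E k) (x : E k) : ℝ := ⟪a, gradient u x⟫

/-- the geometry: tube + volume measure of the link + fullness. -/
structure IxGeom (U : Set (E k)) (u : E k → ℝ) (σ : Measure (E k)) : Prop extends IxTube U u where
  fin : IsFiniteMeasure σ
  supp : σ (ixLink U u)ᶜ = 0
  pos : ∀ x ∈ ixLink U u, ∀ r : ℝ, 0 < r → 0 < σ (ball x r)
  ibp : ∀ f g, IxFun U f → IxFun U g → ∫ x, (f x * ixLap u g x + ixTg u f g x) ∂σ = 0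
  full : ∀ e : E k, (∀ x ∈ ixLink U u, ⟪e, x⟫ = 0) → e = 0

/-- the Jacobi form `B(f,g) = ∫ (-∇f·∇g + (m + |A|²) f g)`. -/
noncomputable def ixB (m : ℕ) (u : E k → ℝ) (σ : Measure (E k)) (f g : E k → ℝ) : ℝ :=
  ∫ x, (-(ixTg u f g x) + ((m : ℝ) + ixP u x) * (f x * g x)) ∂σ

/-- `Q(f,g) = ∫ (-∇f·∇g + |A|² f g)`. -/
noncomputable def ixQ (u : E k → ℝ) (σ : Measure (E k)) (f g : E k → ℝ) : ℝ :=
  ∫ x, (-(ixTg u f g x) + ixP u x * (f x * g x)) ∂σ

/-- the extra index direction, in the abstract language. -/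
def IxExtra (m : ℕ) (U : Set (E k)) (u : E k → ℝ) (σ : Measure (E k)) : Prop :=
  ∃ η : E k → ℝ, IxFun U η ∧ ixB m u σ η (fun _ => 1) = 0 ∧ (∀ a : E k, ixB m u σ η (ixX a) = 0) ∧
    0 < ixB m u σ η η

/-- "`Q` has index one": the reverse Cauchy-Schwarz inequality with respect to the positive direction `1`. -/
def IxOne (U : Set (E k)) (u : E k → ℝ) (σ : Measure (E k)) : Prop :=
  ∀ φ : E k → ℝ, IxFun U φ → ixQ u σ φ φ * ∫ x, ixP u x ∂σ ≤ (∫ x, ixP u x * φ x ∂σ) ^ 2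

/-- the Möbius map `T_a(x) = a + (1-|a|²)(x+a)/|x+a|²` (preserves the unit sphere, `|a| < 1`). -/
noncomputable def ixMob (a x : E k) : E k := a + ((1 - ‖a‖ ^ 2) / ‖x + a‖ ^ 2) • (x + a)

end Claimed.Agent.R323
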