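import Claimed.Agent.Lib.BrouwerBall
import Claimed.Agent.R323.Ix.Defs

/-!
# Row 323, block F, package HERSCH: conformal balancing of a measure on the sphere.      Architect: helper154.

`T_a(x) = ixMob a x = a + (1-|a|²)(x+a)/|x+a|²`.  For `|x| = 1`, `|a| < 1`: `|x+a| ≥ 1-|a| > 0`, `|T_a x| = 1`
(`|T_a x|² = |a|² + 2(1-|a|²)<a,x+a>/|x+a|² + (1-|a|²)²/|x+a|²` and `|x+a|² = 1 + 2<a,x> + |a|²`).
`Φ(a) = ν(S)⁻¹ ∫ T_a dν` for `|a| < 1`, `Φ(a) = a` for `|a| = 1`, is continuous on the closed ball: inside by dominated convergence; at `|a₀| = 1`: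
`|T_a x - a| = (1-|a|²)/|x+a| → 0` for every `x ≠ -a₀`, `ν{-a₀} = 0`, domination by `2`.  If `Φ ≠ 0` everywhere, `a ↦ -Φ(a)/|Φ(a)|` (precomposed with the radial
retraction onto the ball) has a fixed point by `Lib.bfp_brouwer_ball`, it lies on the sphere, where `Φ(a) = a`: `a = -a`, absurd.
-/

set_option autoImplicit false
open scoped ContDiff ENNReal RealInnerProductSpace Topology
open MeasureTheory Metric Set Filter

namespace Claimed.Agent.R323

open Claimed.Agent.Gmt

variable {k : ℕ}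

theorem ixh_add_ne {a x : E k} (ha : ‖a‖ < 1) (hx : ‖x‖ = 1) : x + a ≠ 0 := by
  intro h
  have : x = -a := eq_neg_of_add_eq_zero_left h
  rw [this, norm_neg] at hx
  linarith

theorem ixMob_norm {a x : E k} (ha : ‖a‖ < 1) (hx : ‖x‖ = 1) : ‖ixMob a x‖ = 1 := by
  have hy : x + a ≠ 0 := ixh_add_ne ha hx
  have hs : 0 < ‖x + a‖ ^ 2 := by positivity
  have e1 : ‖x + a‖ ^ 2 = 1 + 2 * ⟪a, x⟫ + ‖a‖ ^ 2 := by
    rw [norm_add_sq_real, hx, real_inner_comm]
    ring
  have e2 : ⟪a, x + a⟫ = ⟪a, x⟫ + ‖a‖ ^ 2 := by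
    rw [inner_add_right, real_inner_self_eq_norm_sq]
  have key : ‖ixMob a x‖ ^ 2 = 1 := by
    unfold ixMob
    rw [norm_add_sq_real, real_inner_smul_right, norm_smul, mul_pow, e2, Real.norm_eq_abs, sq_abs]
    set s := ‖x + a‖ ^ 2 with hsdef
    set p := ⟪a, x⟫
    set q := ‖a‖ ^ 2
    have hs' : s ≠ 0 := hs.ne'
    field_simp
    rw [e1]
    ring
  have h0 : 0 ≤ ‖ixMob a x‖ := norm_nonneg _
  nlinarith [sq_nonneg (‖ixMob a x‖ - 1)]

theorem ixh_of_norm_one {a : E k} (ha : ‖a‖ = 1) (x : E k) : ixMob a x = a := by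
  unfold ixMob
  rw [ha]
  simp

theorem ixh_norm_le {a x : E k} (ha : ‖a‖ ≤ 1) (hx : ‖x‖ = 1) : ‖ixMob a x‖ ≤ 1 := by
  rcases ha.lt_or_eq with h | h
  · exact (ixMob_norm h hx).le
  · rw [ixh_of_norm_one h]
    exact h.le

theorem ixh_measurable (a : E k) : Measurable (ixMob a) := by
  unfold ixMob
  exact measurable_const.add ((measurable_const.div ((measurable_id.add_const a).norm.pow_const 2)).smul (measurable_id.add_const a))

theorem ixh_continuousAt {a₀ x : E k} (h : x + a₀ ≠ 0) : ContinuousAt (fun a => ixMob a x) a₀ := by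
  unfold ixMob
  have h1 : ContinuousAt (fun a : E k => ‖x + a‖ ^ 2) a₀ := by fun_prop
  have h2 : ‖x + a₀‖ ^ 2 ≠ 0 := by positivity
  exact continuousAt_id.add (((continuousAt_const.sub (continuousAt_id.norm.pow 2)).div h1 h2).smul (continuousAt_const.add continuousAt_id))

theorem ixh_contOn (ν : Measure (E k)) [IsFiniteMeasure ν] (hs : ν (sphere (0 : E k) 1)ᶜ = 0) (hat : ∀ x, ν {x} = 0) :
    ContinuousOn (fun a => ∫ x, ixMob a x ∂ν) (closedBall 0 1) := by
  intro a₀ _
  have hsph : ∀ᵐ x ∂ν, ‖x‖ = 1 := by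
    have : ∀ᵐ x ∂ν, x ∈ sphere (0 : E k) 1 := by
      rw [ae_iff]
      exact hs
    filter_upwards [this] with x hx using by simpa using hx
  refine continuousWithinAt_of_dominated (bound := fun _ => (1 : ℝ)) ?_ ?_ (integrable_const 1) ?_
  · exact Eventually.of_forall fun a => (ixh_measurable a).aestronglyMeasurable
  · filter_upwards [self_mem_nhdsWithin] with a ha
    filter_upwards [hsph] with x hx
    exact ixh_norm_le (by simpa using ha) hx
  · have : ∀ᵐ x ∂ν, x ≠ -a₀ := by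
      rw [ae_iff]
      simpa using hat (-a₀)
    filter_upwards [this] with x hx
    exact (ixh_continuousAt (fun h => hx (eq_neg_of_add_eq_zero_left h))).continuousWithinAt

theorem ix_hersch (ν : Measure (E k)) [IsFiniteMeasure ν] (hs : ν (sphere (0 : E k) 1)ᶜ = 0) (h0 : ν univ ≠ 0)
    (hat : ∀ x, ν {x} = 0) : ∃ a : E k, ‖a‖ < 1 ∧ ∫ x, ixMob a x ∂ν = 0 := by
  by_contra hno'
  have hno : ∀ a : E k, ‖a‖ < 1 → ∫ x, ixMob a x ∂ν ≠ 0 := fun a ha h => hno' ⟨a, ha, h⟩
  set Ψ : E k → E k := fun a => ∫ x, ixMob a x ∂ν with hΨ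
  set m : ℝ := ν.real univ with hmdef
  have hm : 0 < m := ENNReal.toReal_pos h0 (measure_ne_top _ _)
  have hbd : ∀ a, ‖a‖ = 1 → Ψ a = m • a := by
    intro a ha
    simp only [hΨ, ixh_of_norm_one ha, integral_const, hmdef]
  have hne : ∀ a ∈ closedBall (0 : E k) 1, Ψ a ≠ 0 := by
    intro a ha
    rcases (mem_closedBall_zero_iff.1 ha).lt_or_eq with h | h
    · exact hno a h
    · rw [hbd a h]
      intro h0'
      have : a = 0 := (smul_eq_zero.1 h0').resolve_left hm.ne'
      rw [this, norm_zero] at h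
      norm_num at h
  set r : E k → E k := fun a => (max 1 ‖a‖)⁻¹ • a with hrdef
  have hmax : ∀ a : E k, 0 < max 1 ‖a‖ := fun a => lt_of_lt_of_le one_pos (le_max_left _ _)
  have hr : Continuous r :=
    ((continuous_const.max continuous_norm).inv₀ fun a => (hmax a).ne').smul continuous_id
  have hrb : ∀ a, r a ∈ closedBall (0 : E k) 1 := by
    intro a
    rw [mem_closedBall_zero_iff, hrdef]
    simp only [norm_smul, norm_inv, Real.norm_eq_abs, abs_of_pos (hmax a)]
    rw [inv_mul_le_iff₀ (hmax a), mul_one]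
    exact le_max_right _ _
  have hrid : ∀ a : E k, ‖a‖ ≤ 1 → r a = a := by
    intro a ha
    simp only [hrdef, max_eq_left ha, inv_one, one_smul]
  have hc : Continuous (fun a => Ψ (r a)) := (ixh_contOn ν hs hat).comp_continuous hr hrb
  set f : E k → E k := fun a => -(‖Ψ (r a)‖⁻¹ • Ψ (r a)) with hfdef
  have hf : Continuous f := ((hc.norm.inv₀ fun a => norm_ne_zero_iff.2 (hne _ (hrb a))).smul hc).neg
  have hfn : ∀ a, ‖f a‖ = 1 := by
    intro a
    have := norm_ne_zero_iff.2 (hne _ (hrb a))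
    simp only [hfdef, norm_neg, norm_smul, norm_inv, norm_norm]
    exact inv_mul_cancel₀ this
  obtain ⟨a, -, hfa⟩ := Lib.bfp_brouwer_ball f hf fun a _ => by
    rw [mem_closedBall_zero_iff, hfn a]
  have ha1 : ‖a‖ = 1 := by
    rw [← hfa]
    exact hfn a
  have e : f a = -a := by
    simp only [hfdef]
    rw [hrid a ha1.le, hbd a ha1, norm_smul, ha1, mul_one, Real.norm_eq_abs, abs_of_pos hm, smul_smul, inv_mul_cancel₀ hm.ne', one_smul]
  rw [e] at hfa
  have h2 : a = 0 := by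
    have : (2 : ℝ) • a = 0 := by
      rw [two_smul]
      nth_rewrite 1 [← hfa]
      exact neg_add_cancel a
    exact (smul_eq_zero.1 this).resolve_left two_ne_zero
  rw [h2, norm_zero] at ha1
  norm_num at ha1

end Claimed.Agent.R323
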