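import Claimed.Agent.R323.Ix.Calc
import Claimed.Agent.R323.Ix.Hersch

/-!
# Row 323, block F, leaf L-IX-CONF-A: the conformal test functions, pointwise part (file ConfB: AREA).      Architect: helper154.

`A = |a|² < 1`, `g = ixG a = 1 + A + 2 x_a = |x̂ + a|²` (`x̂ = x/|x|`, `g ≥ (1-|a|)² > 0`), `v_α = ixV a α = a_α + (1-A)(x̂_α + a_α)/g = (T_a x̂)_α`, `β = (1-A)/g`.
* `Σ v_α² = 1`.
* `Σ_α Tg(v_α,v_α) = m β²` on `Σ`:  with `w_α = x̂_α + a_α`:  `Tg(w_α/g,w_α/g) = Tg(w_α,w_α)/g² - 2 w_α Tg(w_α,g)/g³ + w_α² Tg(g,g)/g⁴`;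
   `Σ Tg(x̂_α,x̂_α) = k - 2 = m`, `Σ w_α Tg(x̂_α,g) = Tg(g,g)/2`, `Σ w_α² = g`  (all from `ixTg_X_X`, `|x̂| = |N| = 1`, `<x̂,N> = 0`).
* AREA: `L g = -m(g - 1 - A)`, `Tg(g,g) = 4(A - x_a² - n_a²)`, `(1-A)² = (2(1+A) - g) g - Tg(g,g) - 4 n_a²`;  `∫ L(log g) = 0` gives `∫ Tg(g,g)/g² = -m|Σ| + m(1+A)∫1/g`, which is `≥ 0`;
   so `∫β² = (m-1)|Σ| - (m-2)(1+A)∫1/g - 4∫n_a²/g² ≤ |Σ| - 4∫n_a²/g²`  (`m ≥ 2`).
-/

set_option autoImplicit false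
open scoped ContDiff ENNReal RealInnerProductSpace Topology
open MeasureTheory Metric Set Filter

namespace Claimed.Agent.R323

open Claimed.Agent.Gmt

variable {k : ℕ}

/-- `g = |x̂ + a|²`. -/
noncomputable def ixG (a x : E k) : ℝ := 1 + ‖a‖ ^ 2 + 2 * ixX a x

/-- the components of `T_a(x/|x|)`. -/
noncomputable def ixV (a : E k) (α : Fin k) (x : E k) : ℝ :=
  a α + (1 - ‖a‖ ^ 2) * (ixX (eb α) x + a α) / ixG a x

theorem ixc_X_abs_le (a x : E k) : |ixX a x| ≤ ‖a‖ := by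
  unfold ixX
  rcases eq_or_ne x 0 with rfl | hx
  · simp
  · have h0 : 0 < ‖x‖ := norm_pos_iff.2 hx
    rw [abs_div, abs_of_pos h0, div_le_iff₀ h0]
    exact abs_real_inner_le_norm a x

theorem ixG_pos {a : E k} (ha : ‖a‖ < 1) (x : E k) : 0 < ixG a x := by
  have h := abs_le.1 (ixc_X_abs_le a x)
  unfold ixG
  nlinarith [h.1, sq_nonneg (1 - ‖a‖), norm_nonneg a]

theorem ixc_X_eb (α : Fin k) {x : E k} (hx : ‖x‖ = 1) : ixX (eb α) x = x α := by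
  unfold ixX
  rw [hx, div_one, real_inner_comm, gmtSim_inner_eb]

theorem ixc_X_unit (a : E k) {x : E k} (hx : ‖x‖ = 1) : ixX a x = ⟪a, x⟫ := by
  unfold ixX
  rw [hx, div_one]

theorem ixc_G_unit (a : E k) {x : E k} (hx : ‖x‖ = 1) : ixG a x = ‖x + a‖ ^ 2 := by
  unfold ixG
  rw [ixc_X_unit a hx, norm_add_sq_real, hx, real_inner_comm]
  ring

theorem ixV_eq_mob {a : E k} (α : Fin k) {x : E k} (hx : ‖x‖ = 1) : ixV a α x = ixMob a x α := by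
  unfold ixV ixMob
  rw [ixc_X_eb α hx, ixc_G_unit a hx]
  simp only [PiLp.add_apply, PiLp.smul_apply, smul_eq_mul]
  ring

theorem ixFun_G {U : Set (E k)} {u : E k → ℝ} (hT : IxTube U u) (a : E k) : IxFun U (ixG a) :=
  (IxFun.const (1 + ‖a‖ ^ 2)).add ((ixFun_X hT a).smul 2)

theorem ixc_inv_smooth : ContDiffOn ℝ ∞ (fun t : ℝ => t⁻¹) (Ioi 0) :=
  contDiffOn_inv ℝ |>.mono fun t ht => (ne_of_gt ht : t ≠ 0)

theorem ixFun_Ginv {U : Set (E k)} {u : E k → ℝ} (hT : IxTube U u) {a : E k} (ha : ‖a‖ < 1) : IxFun U (fun x => (ixG a x)⁻¹) :=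
  IxFun.comp ixc_inv_smooth (ixFun_G hT a) fun x _ => ixG_pos ha x

theorem ixc_V_eq (a : E k) (α : Fin k) :
    ixV a α = fun y => a α + (1 - ‖a‖ ^ 2) * ((ixX (eb α) y + a α) * (ixG a y)⁻¹) := by
  funext y
  unfold ixV
  ring

theorem ixFun_V {U : Set (E k)} {u : E k → ℝ} (hT : IxTube U u) {a : E k} (ha : ‖a‖ < 1) (α : Fin k) :
    IxFun U (ixV a α) := by
  rw [ixc_V_eq]
  exact (IxFun.const (a α)).add ((((ixFun_X hT (eb α)).add (IxFun.const (a α))).mul (ixFun_Ginv hT ha)).smul _)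

theorem ixc_X_smul (a : E k) {x : E k} {t : ℝ} (ht : 0 < t) : ixX a (t • x) = ixX a x := by
  unfold ixX
  rw [inner_smul_right, norm_smul, Real.norm_eq_abs, abs_of_pos ht]
  rcases eq_or_ne ‖x‖ 0 with h | h
  · simp [h]
  · field_simp

theorem ix_sum_V_sq {a : E k} (ha : ‖a‖ < 1) {x : E k} (hx : x ≠ 0) : ∑ α, ixV a α x ^ 2 = 1 := by
  have h0 : 0 < ‖x‖ := norm_pos_iff.2 hx
  have h1 : ‖‖x‖⁻¹ • x‖ = 1 := by rw [norm_smul, norm_inv, norm_norm, inv_mul_cancel₀ h0.ne']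
  have e : ∀ α, ixV a α x = ixMob a (‖x‖⁻¹ • x) α := by
    intro α
    rw [← ixV_eq_mob α h1]
    unfold ixV ixG
    rw [ixc_X_smul _ (inv_pos.2 h0), ixc_X_smul _ (inv_pos.2 h0)]
  have h2 := ixMob_norm ha h1
  have h3 : ‖ixMob a (‖x‖⁻¹ • x)‖ ^ 2 = ∑ α, ixMob a (‖x‖⁻¹ • x) α ^ 2 := by
    rw [EuclideanSpace.norm_sq_eq]
    simp only [Real.norm_eq_abs, sq_abs]
  simp only [e]
  rw [← h3, h2, one_pow]

section tg

variable {U : Set (E k)} {u : E k → ℝ}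

/-- `Tg(g, φ) = 2 Tg(x_a, φ)` -/
theorem ixc_tg_G (hT : IxTube U u) (a : E k) (φ : E k → ℝ) {x : E k} (hx : x ∈ U) : ixTg u (ixG a) φ x = 2 * ixTg u (ixX a) φ x := by
  have e : ixG a = fun y => (1 + ‖a‖ ^ 2) + 2 * ixX a y := rfl
  rw [e, ixTg_add_left hT (IxFun.const _) ((ixFun_X hT a).smul 2) φ hx, ixTg_const_left, zero_add, ixTg_smul_left hT 2 (ixFun_X hT a) φ hx]

/-- `Tg(1/g, φ) = - 2 Tg(x_a, φ) / g²` -/
theorem ixc_tg_Ginv (hT : IxTube U u) {a : E k} (ha : ‖a‖ < 1) (φ : E k → ℝ) {x : E k} (hx : x ∈ U) :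
    ixTg u (fun y => (ixG a y)⁻¹) φ x = -(ixG a x ^ 2)⁻¹ * (2 * ixTg u (ixX a) φ x) := by
  rw [ixTg_comp_left hT isOpen_Ioi ixc_inv_smooth (ixFun_G hT a) (fun y _ => ixG_pos ha y) φ hx, ixc_tg_G hT a φ hx]
  congr 1
  simp

/-- `Tg(v_α, φ)` -/
theorem ixc_tg_V (hT : IxTube U u) {a : E k} (ha : ‖a‖ < 1) (α : Fin k) (φ : E k → ℝ) {x : E k} (hx : x ∈ U) :
    ixTg u (ixV a α) φ x = (1 - ‖a‖ ^ 2) * ((ixX (eb α) x + a α) * (-(ixG a x ^ 2)⁻¹ * (2 * ixTg u (ixX a) φ x))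
      + (ixG a x)⁻¹ * ixTg u (ixX (eb α)) φ x) := by
  have hw : IxFun U (fun y => ixX (eb α) y + a α) := (ixFun_X hT (eb α)).add (IxFun.const (a α))
  rw [ixc_V_eq, ixTg_add_left hT (IxFun.const _) ((hw.mul (ixFun_Ginv hT ha)).smul _) φ hx, ixTg_const_left, zero_add,
    ixTg_smul_left hT _ (hw.mul (ixFun_Ginv hT ha)) φ hx, ixTg_mul_left hT hw (ixFun_Ginv hT ha) φ hx, ixc_tg_Ginv hT ha φ hx,
    ixTg_add_left hT (ixFun_X hT (eb α)) (IxFun.const (a α)) φ hx, ixTg_const_left, add_zero]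

end tg

theorem ix_sum_tg_V {m : ℕ} {U : Set (E (m + 2))} {u : E (m + 2) → ℝ} (hT : IxTube U u) {a : E (m + 2)} (ha : ‖a‖ < 1)
    {x : E (m + 2)} (hx : x ∈ ixLink U u) :
    ∑ α, ixTg u (ixV a α) (ixV a α) x = (m : ℝ) * ((1 - ‖a‖ ^ 2) / ixG a x) ^ 2 := by
  have hxU : x ∈ U := hx.1
  have hx1 : ‖x‖ = 1 := hx.2.2
  have hg : 0 < ixG a x := ixG_pos ha x
  set N := gradient u x with hN
  have hN1 : ‖N‖ = 1 := hT.eik x hxU
  have hxN : ⟪x, N⟫ = 0 := ix_inner_self_grad hT ⟨hx.1, hx.2.1⟩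
  set g := ixG a x with hgdef
  set A := ‖a‖ ^ 2 with hA
  set p := ⟪a, x⟫ with hp
  set q := ⟪a, N⟫ with hq
  -- the three basic values
  have n1 : ∀ α, ixN u (eb α) x = N α := by
    intro α
    unfold ixN
    rw [real_inner_comm, gmtSim_inner_eb]
  have t1 : ∀ α, ixTg u (ixX (eb α)) (ixX (eb α)) x = 1 - x α ^ 2 - N α ^ 2 := by
    intro α
    have e1 : ⟪(eb α : E (m + 2)), eb α⟫ = 1 := by
      rw [gmtSim_inner_eb]
      simp [eb]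
    rw [ixTg_X_X hT _ _ hx, ixc_X_eb α hx1, n1, e1]
    ring
  have t2 : ∀ α, ixTg u (ixX a) (ixX (eb α)) x = a α - p * x α - q * N α := by
    intro α
    rw [ixTg_X_X hT _ _ hx, ixc_X_eb α hx1, ixc_X_unit a hx1, gmtSim_inner_eb, n1]
    rfl
  have t3 : ixTg u (ixX a) (ixX a) x = A - p ^ 2 - q ^ 2 := by
    rw [ixTg_X_X hT _ _ hx, ixc_X_unit a hx1, real_inner_self_eq_norm_sq]
    unfold ixN
    ring
  have hgp : g = 1 + A + 2 * p := by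
    rw [hgdef]
    unfold ixG
    rw [ixc_X_unit a hx1]
  -- one term
  have term : ∀ α, ixTg u (ixV a α) (ixV a α) x = (1 - A) ^ 2 * ((g⁻¹) ^ 2 * (1 - x α ^ 2 - N α ^ 2)
      - 4 * (g⁻¹) ^ 3 * ((x α + a α) * (a α - p * x α - q * N α)) + 4 * (g⁻¹) ^ 4 * (x α + a α) ^ 2 * (A - p ^ 2 - q ^ 2)) := by
    intro α
    rw [ixc_tg_V hT ha α _ hxU, ixTg_comm u (ixX a) (ixV a α), ixTg_comm u (ixX (eb α)) (ixV a α), ixc_tg_V hT ha α _ hxU, ixc_tg_V hT ha α _ hxU,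
      t3, t1 α, ixTg_comm u (ixX (eb α)) (ixX a), t2 α, ixc_X_eb α hx1]
    simp only [← hgdef, ← hA]
    field_simp
    ring
  simp only [term]
  -- the sums
  have s1 : ∑ α, x α ^ 2 = 1 := by
    have := EuclideanSpace.norm_sq_eq x
    simp only [Real.norm_eq_abs, sq_abs] at this
    rw [← this, hx1, one_pow]
  have s2 : ∑ α, N α ^ 2 = 1 := by
    have := EuclideanSpace.norm_sq_eq N
    simp only [Real.norm_eq_abs, sq_abs] at this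
    rw [← this, hN1, one_pow]
  have s3 : ∑ α, a α ^ 2 = A := by
    have := EuclideanSpace.norm_sq_eq a
    simp only [Real.norm_eq_abs, sq_abs] at this
    rw [← this]
  have s4 : ∑ α, a α * x α = p := (gmtSim_inner_eq_sum a x).symm
  have s5 : ∑ α, a α * N α = q := (gmtSim_inner_eq_sum a N).symm
  have s6 : ∑ α, x α * N α = 0 := by rw [← gmtSim_inner_eq_sum, hxN]
  have S1 : ∑ α : Fin (m + 2), (1 - x α ^ 2 - N α ^ 2) = (m : ℝ) := by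
    rw [Finset.sum_sub_distrib, Finset.sum_sub_distrib, s1, s2]
    simp
    ring
  have S2 : ∑ α, (x α + a α) * (a α - p * x α - q * N α) = A - p ^ 2 - q ^ 2 := by
    have : ∀ α, (x α + a α) * (a α - p * x α - q * N α)
        = a α * x α - p * x α ^ 2 - q * (x α * N α) + a α ^ 2 - p * (a α * x α) - q * (a α * N α) := fun α => by ring
    simp only [this, Finset.sum_add_distrib, Finset.sum_sub_distrib, ← Finset.mul_sum, s1, s3, s4, s5, s6]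
    ring
  have S3 : ∑ α, (x α + a α) ^ 2 = g := by
    have : ∀ α, (x α + a α) ^ 2 = x α ^ 2 + 2 * (a α * x α) + a α ^ 2 := fun α => by ring
    simp only [this, Finset.sum_add_distrib, ← Finset.mul_sum, s1, s3, s4]
    rw [hgp]
    ring
  rw [← Finset.mul_sum, Finset.sum_add_distrib, Finset.sum_sub_distrib, ← Finset.mul_sum, ← Finset.mul_sum, S1, S2]
  have S3' : ∑ α, 4 * g⁻¹ ^ 4 * (x α + a α) ^ 2 * (A - p ^ 2 - q ^ 2) = 4 * g⁻¹ ^ 4 * g * (A - p ^ 2 - q ^ 2) := by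
    rw [← Finset.sum_mul, ← Finset.mul_sum, S3]
  rw [S3']
  field_simp
  ring

end Claimed.Agent.R323
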