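import Claimed.Agent.R323.Ix.ConfA

/-!
# Row 323, block F, leaf L-IX-CONF-B: the conformal test functions, AREA (last item below).      Architect: helper154.

`A = |a|² < 1`, `g = ixG a = 1 + A + 2 x_a = |x̂ + a|²` (`x̂ = x/|x|`, `g ≥ (1-|a|)² > 0`), `v_α = ixV a α = a_α + (1-A)(x̂_α + a_α)/g = (T_a x̂)_α`, `β = (1-A)/g`.
* `Σ v_α² = 1`.
* `Σ_α Tg(v_α,v_α) = m β²` on `Σ`:  with `w_α = x̂_α + a_α`:  `Tg(w_α/g,w_α/g) = Tg(w_α,w_α)/g² - 2 w_α Tg(w_α,g)/g³ + w_α² Tg(g,g)/g⁴`;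
   `Σ Tg(x̂_α,x̂_α) = k - 2 = m`, `Σ w_α Tg(x̂_α,g) = Tg(g,g)/2`, `Σ w_α² = g`  (all from `ixTg_X_X`, `|x̂| = |N| = 1`, `<x̂,N> = 0`).
* AREA: `L g = -m(g - 1 - A)`, `Tg(g,g) = 4(A - x_a² - n_a²)`, `(1-A)² = (2(1+A) - g) g - Tg(g,g) - 4 n_a²`;  `∫ L(log g) = 0` gives `∫ Tg(g,g)/g² = -m|Σ| + m(1+A)∫1/g`, which is `≥ 0`;
   so `∫β² = (m-1)|Σ| - (m-2)(1+A)∫1/g - 4∫n_a²/g² ≤ |Σ| - 4∫n_a²/g²`  (`m ≥ 2`).
-/

set_option autoImplicit false
open scoped ContDiff ENNReal RealInnerProductSpace Topology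
open MeasureTheory Metric Set Filter

namespace Claimed.Agent.R323

open Claimed.Agent.Gmt

theorem ixc_log_smooth : ContDiffOn ℝ ∞ Real.log (Ioi 0) :=
  Real.contDiffOn_log.mono fun t ht => (ne_of_gt ht : t ≠ 0)

/-- `Tg(g,g) = 4 (A - x_a² - n_a²)` on the link -/
theorem ixc_tg_GG {k : ℕ} {U : Set (E k)} {u : E k → ℝ} (hT : IxTube U u) (a : E k) {x : E k} (hx : x ∈ ixLink U u) :
    ixTg u (ixG a) (ixG a) x = 4 * (‖a‖ ^ 2 - ixX a x ^ 2 - ixN u a x ^ 2) := by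
  rw [ixc_tg_G hT a _ hx.1, ixTg_comm, ixc_tg_G hT a _ hx.1, ixTg_X_X hT a a hx, real_inner_self_eq_norm_sq]
  ring

/-- `L g = - 2 m x_a` on the link -/
theorem ixc_lap_G {m : ℕ} {U : Set (E (m + 2))} {u : E (m + 2) → ℝ} (hT : IxTube U u) (a : E (m + 2)) {x : E (m + 2)} (hx : x ∈ ixLink U u) :
    ixLap u (ixG a) x = -(2 * (m : ℝ) * ixX a x) := by
  have e : ixG a = fun y => (1 + ‖a‖ ^ 2) + 2 * ixX a y := rfl
  rw [e, ixLap_add hT (IxFun.const _) ((ixFun_X hT a).smul 2) hx.1, ixLap_const, zero_add, ixLap_smul hT 2 (ixFun_X hT a) hx.1, ixLap_X hT a hx]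
  ring

/-- `L log g = - m + m (1 + A) / g - Tg(g,g) / g²` on the link -/
theorem ixc_lap_logG {m : ℕ} {U : Set (E (m + 2))} {u : E (m + 2) → ℝ} (hT : IxTube U u) {a : E (m + 2)} (ha : ‖a‖ < 1) {x : E (m + 2)}
    (hx : x ∈ ixLink U u) :
    ixLap u (fun y => Real.log (ixG a y)) x
      = -(m : ℝ) + (m : ℝ) * (1 + ‖a‖ ^ 2) * (ixG a x)⁻¹ - ixTg u (ixG a) (ixG a) x * (ixG a x)⁻¹ ^ 2 := by
  have hg : 0 < ixG a x := ixG_pos ha x
  rw [ixLap_comp hT isOpen_Ioi ixc_log_smooth (ixFun_G hT a) (fun y _ => ixG_pos ha y) hx.1, ixc_lap_G hT a hx, Real.deriv_log']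
  have e2 : deriv (fun t : ℝ => t⁻¹) (ixG a x) = -(ixG a x ^ 2)⁻¹ := by simp
  rw [e2]
  have e3 : 2 * ixX a x = ixG a x - 1 - ‖a‖ ^ 2 := by
    unfold ixG
    ring
  have e4 : (ixG a x)⁻¹ * -(2 * (m : ℝ) * ixX a x) = -(m : ℝ) * ((ixG a x)⁻¹ * (2 * ixX a x)) := by ring
  rw [e4, e3]
  field_simp
  ring

theorem ix_conf_area {m : ℕ} (hm : 2 ≤ m) {U : Set (E (m + 2))} {u : E (m + 2) → ℝ} {σ : Measure (E (m + 2))}
    (hG : IxGeom U u σ) {a : E (m + 2)} (ha : ‖a‖ < 1) :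
    ∫ x, ((1 - ‖a‖ ^ 2) / ixG a x) ^ 2 ∂σ + 4 * ∫ x, (ixN u a x / ixG a x) ^ 2 ∂σ ≤ σ.real univ := by
  have hT : IxTube U u := hG.toIxTube
  have := hG.fin
  have fG := ixFun_G hT a
  have fI := ixFun_Ginv hT ha
  have fN := ixFun_N hT a
  have fT : IxFun U (fun x => ixTg u (ixG a) (ixG a) x * (ixG a x)⁻¹ ^ 2) := (ixFun_tg hT fG fG).mul (fI.pow 2)
  have fL : IxFun U (fun y => Real.log (ixG a y)) := IxFun.comp ixc_log_smooth fG fun y _ => ixG_pos ha y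
  set A := ‖a‖ ^ 2 with hA
  set S := σ.real univ with hS
  set J := ∫ x, (ixG a x)⁻¹ ∂σ with hJ
  set IT := ∫ x, ixTg u (ixG a) (ixG a) x * (ixG a x)⁻¹ ^ 2 ∂σ with hIT
  have iI : Integrable (fun x => (ixG a x)⁻¹) σ := fI.integrable hG
  have iT : Integrable (fun x => ixTg u (ixG a) (ixG a) x * (ixG a x)⁻¹ ^ 2) σ := fT.integrable hG
  have hIT0 : 0 ≤ IT := by
    have := ix_integral_mono hG (IxFun.const 0) fT fun x hx => mul_nonneg (ixTg_self_nonneg hT _ hx.1) (sq_nonneg _)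
    rw [integral_const, smul_zero] at this
    exact this
  -- the linear functional
  have lin : ∀ c1 c2 c3 : ℝ, ∫ x, (c1 + c2 * (ixG a x)⁻¹ - c3 * (ixTg u (ixG a) (ixG a) x * (ixG a x)⁻¹ ^ 2)) ∂σ = c1 * S + c2 * J - c3 * IT := by
    intro c1 c2 c3
    have h1 : Integrable (fun x => c1 + c2 * (ixG a x)⁻¹) σ := (integrable_const c1).add (iI.const_mul c2)
    rw [integral_sub h1 (iT.const_mul c3), integral_add (integrable_const c1) (iI.const_mul c2),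
      integral_const, integral_const_mul, integral_const_mul, smul_eq_mul, mul_comm S c1]
  -- `∫ L log g = 0`
  have E1 : -(m : ℝ) * S + (m : ℝ) * (1 + A) * J - 1 * IT = 0 := by
    rw [← lin, ← ix_integral_lap hG fL]
    refine ix_integral_congr hG fun x hx => ?_
    rw [ixc_lap_logG hT ha hx]
    ring
  -- the left side
  have f1 : IxFun U (fun x => ((1 - A) / ixG a x) ^ 2) := by
    have : (fun x => ((1 - A) / ixG a x) ^ 2) = fun x => ((1 - A) * (ixG a x)⁻¹) ^ 2 := by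
      funext x
      rw [div_eq_mul_inv]
    rw [this]
    exact (fI.smul _).pow 2
  have f2 : IxFun U (fun x => (ixN u a x / ixG a x) ^ 2) := by
    have : (fun x => (ixN u a x / ixG a x) ^ 2) = fun x => (ixN u a x * (ixG a x)⁻¹) ^ 2 := by
      funext x
      rw [div_eq_mul_inv]
    rw [this]
    exact (fN.mul fI).pow 2
  have E2 : ∫ x, ((1 - A) / ixG a x) ^ 2 ∂σ + 4 * ∫ x, (ixN u a x / ixG a x) ^ 2 ∂σ = -1 * S + 2 * (1 + A) * J - 1 * IT := by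
    rw [← lin, ← integral_const_mul, ← integral_add (f1.integrable hG) ((f2.integrable hG).const_mul 4)]
    refine ix_integral_congr hG fun x hx => ?_
    have hg : 0 < ixG a x := ixG_pos ha x
    rw [ixc_tg_GG hT a hx]
    have e3 : ixX a x = (ixG a x - 1 - A) / 2 := by
      unfold ixG
      ring
    rw [e3]
    field_simp
    ring
  rw [E2]
  have hm' : (2 : ℝ) ≤ m := by exact_mod_cast hm
  have hm0 : (0 : ℝ) < m := by linarith
  have key : (m : ℝ) * (-1 * S + 2 * (1 + A) * J - 1 * IT) ≤ (m : ℝ) * S := by nlinarith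
  exact le_of_mul_le_mul_left key hm0

end Claimed.Agent.R323
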