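import Claimed.Agent.R323.Kit.Tube
import Claimed.Agent.R323.Ix.Calc

/-!
# Row 323, block F, leaf L-IX-GEO-A: bridge GMT → abstract language, part A: the tube, the link, fullness.      Architect: helper154.

`hS : MinCone k S`, `u = gmtSimSd S`, `(U, hU, hcon)` from `kit_tube hS`.
* `ix_geo_tube`: all fields of `IxTube` are fields of `GmtSimCone`/`GmtSimTube` or `gmtSim_sd_smul`; `cpt`: `ix_geo_link` + `gmtBd S` closed (`isClosed_gmtBd`-type lemma in Lib/Gmt) + sphere compact.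
* `ix_geo_full`: if `e ≠ 0` and `Σ ⊆ e^⊥` then `gmtBd S ⊆ e^⊥` (`gmtSim_bd_smul`); the open half spaces `{<x,e> < 0}`, `{<x,e> > 0}` are convex, disjoint from `gmtBd S`:
   `gmtSim_trivial_of_connected` on both; the hyperplane is Lebesgue null; `S` null or conull contradicts `0 ∈ gmtBd S`; otherwise `S =ᵐ gmtHalf 0 (±e/|e|)`: `IsHalf S`.
-/

set_option autoImplicit false
open scoped ContDiff ENNReal RealInnerProductSpace Topology
open MeasureTheory Metric Set Filter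

namespace Claimed.Agent.R323

open Claimed.Agent.Gmt

variable {k : ℕ} {S U : Set (E k)}

theorem ix_geo_cone (hS : MinCone k S) (hU : GmtSimCone S U (gmtSimSd S)) :
    ixCone U (gmtSimSd S) = gmtBd S \ {0} := by
  refine Set.ext fun x => ⟨fun hx => ?_, fun hx => ?_⟩
  · refine ⟨(hU.zero_iff x hx.1).1 hx.2, fun h0 => ?_⟩
    have h0' : x = 0 := h0
    exact hU.zero (h0' ▸ hx.1)
  · have hxU : x ∈ U := hU.bd x hx.1 hx.2
    exact ⟨hxU, (hU.zero_iff x hxU).2 hx.1⟩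

theorem ix_geo_link (hS : MinCone k S) (hU : GmtSimCone S U (gmtSimSd S)) :
    ixLink U (gmtSimSd S) = gmtBd S ∩ sphere 0 1 := by
  refine Set.ext fun x => ⟨fun hx => ?_, fun hx => ?_⟩
  · exact ⟨(hU.zero_iff x hx.1).1 hx.2.1, mem_sphere_zero_iff_norm.2 hx.2.2⟩
  · have hn : ‖x‖ = 1 := mem_sphere_zero_iff_norm.1 hx.2
    have hx0 : x ≠ 0 := fun h0 => by
      rw [h0, norm_zero] at hn
      exact zero_ne_one hn
    have hxU : x ∈ U := hU.bd x hx.1 hx0
    exact ⟨hxU, (hU.zero_iff x hxU).2 hx.1, hn⟩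

theorem ix_geo_tube (hS : MinCone k S) (hU : GmtSimCone S U (gmtSimSd S))
    (hcon : ∀ x ∈ U, ∀ t : ℝ, 0 < t → t • x ∈ U) : IxTube U (gmtSimSd S) where
  opn := hU.opn
  zero := hU.zero
  conic := hcon
  smooth := hU.smooth
  eik := hU.eik
  hom := fun _ ht x => gmtSim_sd_smul hS.cone ht x
  harm := hU.harm
  proj := hU.proj
  grad_proj := hU.grad_proj
  cpt := by
    rw [ix_geo_link hS hU]
    exact (isCompact_sphere (0 : E k) 1).inter_left (isClosed_gmtBd S)

/-- a set which fills the half space `{<y,e> < 0}` and misses `{<y,e> > 0}` is a half space. -/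
theorem ix_geo_half {e : E k} (he : e ≠ 0) (h1 : volume ({y : E k | ⟪y, e⟫ < 0} \ S) = 0)
    (h2 : volume (S ∩ {y : E k | 0 < ⟪y, e⟫}) = 0) : IsHalf S := by
  have hn : 0 < ‖e‖ := norm_pos_iff.2 he
  refine ⟨‖e‖⁻¹ • e, by rw [norm_smul, norm_inv, norm_norm, inv_mul_cancel₀ hn.ne'], ?_⟩
  have hH : gmtHalf 0 (‖e‖⁻¹ • e) = {y : E k | ⟪y, e⟫ < 0} := by
    refine Set.ext fun y => ?_
    rw [gmtSim_mem_half, real_inner_smul_right]
    exact ⟨fun h => by
        by_contra hc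
        exact absurd h (not_lt.2 (mul_nonneg (inv_nonneg.2 hn.le) (not_lt.1 hc))),
      fun h => mul_neg_of_pos_of_neg (inv_pos.2 hn) h⟩
  rw [hH, ae_eq_set]
  refine ⟨?_, h1⟩
  have hsub : S \ {y : E k | ⟪y, e⟫ < 0} ⊆ (S ∩ {y : E k | 0 < ⟪y, e⟫}) ∪ {y : E k | ⟪y, e⟫ = 0} := by
    intro y hy
    rcases lt_trichotomy ⟪y, e⟫ 0 with h | h | h
    · exact absurd h hy.2
    · exact Or.inr h
    · exact Or.inl ⟨hy.1, h⟩
  exact measure_mono_null hsub (measure_union_null h2 (gmt_volume_hyperplane he 0))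

theorem ix_geo_full (hS : MinCone k S) (hnf : ¬ IsHalf S) (hU : GmtSimCone S U (gmtSimSd S)) :
    ∀ e : E k, (∀ x ∈ ixLink U (gmtSimSd S), ⟪e, x⟫ = 0) → e = 0 := by
  intro e hlink
  by_contra he
  rw [ix_geo_link hS hU] at hlink
  -- the whole boundary lies in the hyperplane
  have hbd : ∀ x ∈ gmtBd S, ⟪x, e⟫ = 0 := by
    intro x hx
    by_cases hx0 : x = 0
    · rw [hx0, inner_zero_left]
    · have hn : 0 < ‖x‖ := norm_pos_iff.2 hx0
      have h1 : ‖x‖⁻¹ • x ∈ gmtBd S := (gmtSim_bd_smul hS.cone (inv_pos.2 hn) x).2 hx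
      have h2 : ‖x‖⁻¹ • x ∈ sphere (0 : E k) 1 := by
        rw [mem_sphere_zero_iff_norm, norm_smul, norm_inv, norm_norm, inv_mul_cancel₀ hn.ne']
      have h3 := hlink _ ⟨h1, h2⟩
      rw [real_inner_smul_right] at h3
      rw [real_inner_comm]
      exact (mul_eq_zero.1 h3).resolve_left (inv_pos.2 hn).ne'
  have hcm : IsPreconnected {y : E k | ⟪y, e⟫ < 0} := by
    refine Convex.isPreconnected ?_
    have hl : IsLinearMap ℝ fun y : E k => ⟪y, e⟫ :=
      ⟨fun a b => inner_add_left a b e, fun c a => real_inner_smul_left a e c⟩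
    exact convex_halfSpace_lt hl 0
  have hcp : IsPreconnected {y : E k | 0 < ⟪y, e⟫} := by
    refine Convex.isPreconnected ?_
    have hl : IsLinearMap ℝ fun y : E k => ⟪y, e⟫ :=
      ⟨fun a b => inner_add_left a b e, fun c a => real_inner_smul_left a e c⟩
    exact convex_halfSpace_gt hl 0
  have hdm : Disjoint {y : E k | ⟪y, e⟫ < 0} (gmtBd S) :=
    Set.disjoint_left.2 fun y hy hyb => by
      have h : ⟪y, e⟫ < 0 := hy
      rw [hbd y hyb] at h
      exact lt_irrefl _ h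
  have hdp : Disjoint {y : E k | 0 < ⟪y, e⟫} (gmtBd S) :=
    Set.disjoint_left.2 fun y hy hyb => by
      have h : 0 < ⟪y, e⟫ := hy
      rw [hbd y hyb] at h
      exact lt_irrefl _ h
  have hm := gmtSim_trivial_of_connected hS.meas (gmtSim_isOpen_lt e 0) hcm hdm
  have hp := gmtSim_trivial_of_connected hS.meas (gmtSim_isOpen_gt e 0) hcp hdp
  have hH0 : volume {y : E k | ⟪y, e⟫ = 0} = 0 := gmt_volume_hyperplane he 0
  obtain ⟨hv1, hv2⟩ := hS.vert 1 one_pos
  rcases hm with hm | hm <;> rcases hp with hp | hp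
  · -- `S` is null
    have hsub : S ∩ ball 0 1 ⊆ (S ∩ {y : E k | ⟪y, e⟫ < 0}) ∪ (S ∩ {y : E k | 0 < ⟪y, e⟫}) ∪ {y : E k | ⟪y, e⟫ = 0} := by
      intro y hy
      rcases lt_trichotomy ⟪y, e⟫ 0 with h | h | h
      · exact Or.inl (Or.inl ⟨hy.1, h⟩)
      · exact Or.inr h
      · exact Or.inl (Or.inr ⟨hy.1, h⟩)
    exact hv1.ne' (measure_mono_null hsub (measure_union_null (measure_union_null hm hp) hH0))
  · -- `S` is the half space `{<y,e> > 0}`
    refine hnf (ix_geo_half (e := -e) (neg_ne_zero.2 he) ?_ ?_)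
    · have e1 : {y : E k | ⟪y, -e⟫ < 0} = {y : E k | 0 < ⟪y, e⟫} :=
        Set.ext fun y => by
          show ⟪y, -e⟫ < 0 ↔ 0 < ⟪y, e⟫
          rw [inner_neg_right, neg_lt_zero]
      rw [e1]
      exact hp
    · have e1 : {y : E k | 0 < ⟪y, -e⟫} = {y : E k | ⟪y, e⟫ < 0} :=
        Set.ext fun y => by
          show 0 < ⟪y, -e⟫ ↔ ⟪y, e⟫ < 0
          rw [inner_neg_right, neg_pos]
      rw [e1]
      exact hm
  · exact hnf (ix_geo_half he hm hp)
  · -- `S` is conull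
    have hsub : ball 0 1 \ S ⊆ ({y : E k | ⟪y, e⟫ < 0} \ S) ∪ ({y : E k | 0 < ⟪y, e⟫} \ S) ∪ {y : E k | ⟪y, e⟫ = 0} := by
      intro y hy
      rcases lt_trichotomy ⟪y, e⟫ 0 with h | h | h
      · exact Or.inl (Or.inl ⟨h, hy.2⟩)
      · exact Or.inr h
      · exact Or.inl (Or.inr ⟨h, hy.2⟩)
    exact hv2.ne' (measure_mono_null hsub (measure_union_null (measure_union_null hm hp) hH0))

end Claimed.Agent.R323
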