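import Claimed.Agent.R323.Ix.GeoA
import Claimed.Agent.R323.Kit.LinkMu

/-!
# Row 323, block F, leaf L-IX-GEO-B: bridge GMT → abstract language, part B: the measure `σ = ixSig S`.      Architect: helper154.
GLUE (helper99): everything is cited from `Kit/LinkMu.lean` (`ixSig = kitSg`); the real proofs live there.

`σ = (k-1) · (x ↦ x/|x|)_# (μ_S restricted to B_1)`, `μ_S = gmtMu S`.   Facts of Lib/Gmt: `gmtMu_compl_gmtBd` (`μ_S` is carried by `gmtBd S`), `gmtMu_compact_ne_top`, `gmtMu_open`, `gmtP_eq_zero_const`.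
* `μ_S {0} = 0`: scaling `gmtSim_scaling`/`gmtMu_gmtDil`: `μ_S(B_r) = r^{k-1} μ_S(B_1) → 0` (`k ≥ 2`).
* `ix_geo_integral`: `integral_map` (the map is measurable; `f` is continuous on `U`, hence a.e. strongly measurable for measures carried by `Σ` resp. `C`), then `f(x/|x|) = f(x)` for `x ∈ C = gmtBd S \ 0 ⊆ U`.
* `ix_geo_pos`: the preimage of `ball x r` is open, contains `x/2 ∈ gmtBd S ∩ B_1`; an open set `W` meeting `gmtBd S` has `μ_S W = gmtP S W > 0` (otherwise `gmtP_eq_zero_const` on a small ball contradicts the definition of `gmtBd`).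
-/

set_option autoImplicit false
open scoped ContDiff ENNReal RealInnerProductSpace Topology
open MeasureTheory Metric Set Filter

namespace Claimed.Agent.R323

open Claimed.Agent.Gmt

variable {k : ℕ} {S U : Set (E k)}

/-- the volume measure of the link. -/
noncomputable def ixSig (S : Set (E k)) : Measure (E k) :=
  (ENNReal.ofReal ((k : ℝ) - 1) • (gmtMu S).restrict (ball 0 1)).map (fun x => ‖x‖⁻¹ • x)

theorem ix_sig_eq (S : Set (E k)) : ixSig S = kitSg S := by
  unfold ixSig kitSg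
  rw [Measure.map_smul]
  rfl

theorem IxFun.kitFun {f : E k → ℝ} (hf : IxFun U f) : KitFun U f := ⟨hf.smooth, hf.hom⟩

theorem KitFun.ixFun {f : E k → ℝ} (hf : KitFun U f) : IxFun U f := ⟨hf.smooth, hf.hom⟩

theorem ix_link_eq (hS : MinCone k S) (hU : GmtSimCone S U (gmtSimSd S)) :
    ixLink U (gmtSimSd S) = kitLk S := ix_geo_link hS hU

theorem ix_geo_fin (hS : MinCone k S) : IsFiniteMeasure (ixSig S) := by
  have h1 : gmtMu S (ball 0 1) ≠ ⊤ :=
    ne_top_of_le_ne_top (gmtMu_compact_ne_top isOpen_univ hS.lf (isCompact_closedBall (0 : E k) 1) (subset_univ _))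
      (measure_mono ball_subset_closedBall)
  haveI : IsFiniteMeasure ((gmtMu S).restrict (ball 0 1)) := ⟨by
    rw [Measure.restrict_apply_univ]; exact lt_top_iff_ne_top.2 h1⟩
  haveI : IsFiniteMeasure (ENNReal.ofReal ((k : ℝ) - 1) • (gmtMu S).restrict (ball 0 1)) :=
    Measure.smul_finite _ ENNReal.ofReal_ne_top
  unfold ixSig
  infer_instance

theorem ix_geo_supp (hk : 2 ≤ k) (hS : MinCone k S) (hU : GmtSimCone S U (gmtSimSd S)) :
    ixSig S (ixLink U (gmtSimSd S))ᶜ = 0 := by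
  rw [ix_sig_eq, ix_link_eq hS hU]
  exact kit_sg_compl hk hS.lf hS.cone

theorem ix_geo_pos (hk : 2 ≤ k) (hS : MinCone k S) (hU : GmtSimCone S U (gmtSimSd S)) :
    ∀ x ∈ ixLink U (gmtSimSd S), ∀ r : ℝ, 0 < r → 0 < ixSig S (ball x r) := by
  intro x hx r hr
  rw [ix_link_eq hS hU] at hx
  rw [ix_sig_eq]
  exact kit_sg_pos hk hS hx hr

theorem ix_geo_integral (hk : 2 ≤ k) (hS : MinCone k S) (hU : GmtSimCone S U (gmtSimSd S))
    (hcon : ∀ x ∈ U, ∀ t : ℝ, 0 < t → t • x ∈ U) {f : E k → ℝ} (hf : IxFun U f) :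
    ∫ x, f x ∂(ixSig S) = ((k : ℝ) - 1) * ∫ x in ball (0 : E k) 1, f x ∂(gmtMu S) := by
  rw [ix_sig_eq]
  exact kit_sg_integral hk hS ⟨hU, hcon⟩ hf.smooth.continuousOn hf.hom

theorem ix_geo_area (hk : 2 ≤ k) (hS : MinCone k S) : (ixSig S).real univ = linkArea S := by
  rw [ix_sig_eq, Measure.real, kit_sg_univ hk hS.lf, ENNReal.toReal_ofReal]
  unfold linkArea
  have : (1 : ℝ) ≤ (k : ℝ) := by exact_mod_cast (by omega : 1 ≤ k)
  exact mul_nonneg (by linarith) ENNReal.toReal_nonneg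

end Claimed.Agent.R323
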