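import Claimed.Agent.R323.Nu.Main

/-!
# Row 323, block F, package TAIL: a `MinCone` whose boundary lies in a (rotated) Clifford quadric IS a Clifford cone.      (helper257; prefix `ixt_`)

EXIT  `ix_tail`:  `MinCone (m+2) S`, `1 ≤ j < m`, `O` an isometry, `(m-j) |(Ox)'|² = j |(Ox)''|²` on `gmtBd S`   ⟹   `cliffMin m ≤ linkArea S`.

Language of `Nu/Birad`, `Nu/Cone`:  `nuQ p x = ∑_{p i} x_i²`,  `nuCone p α β = {β nuQ p < α nuQ ¬p}`.
PLAN.  `C = nuCone p α β`, `C' = {α nuQ ¬p < β nuQ p}`, `Z = {β nuQ p = α nuQ ¬p}`.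
 (T1) `C` is preconnected if there are two indices with `¬ p`   (`ixt_conn`);  the same for `C'` (`ixt_conn'`).
 (T3) `Z` is a Lebesgue null set  (`ixt_null`).
 (T4) `gmtBd S ⊆ Z`, `0 ∈ gmtBd S`  ⟹  `S = C` or `S = Cᶜ` a.e.  (`ixt_dich`: `gmtSim_trivial_of_connected` on `C`, `C'`).
 (T5) the perimeter in `ball 0 1` is invariant under a.e. equality, complements and rotations.
-/

set_option autoImplicit false
open scoped ContDiff ENNReal NNReal RealInnerProductSpace Topology
open MeasureTheory Metric Set Filter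

namespace Claimed.Agent.R323

open Claimed.Agent.Gmt

variable {n : ℕ}

/-! ### (T3) the quadric is a null set -/

/-- a measurable set which meets every line of direction `e` in at most one point is a null set.
`Measure.addHaar_eq_zero_of_disjoint_translates` with `u k = (1/(k+1)) • e`. -/
theorem ixt_null_of_line {s : Set (E n)} (hs : MeasurableSet s) (e : E n)
    (h : ∀ x ∈ s, ∀ t : ℝ, t ≠ 0 → x + t • e ∉ s) : volume s = 0 := by
  refine Measure.addHaar_eq_zero_of_disjoint_translates volume (fun k : ℕ => (1 / ((k : ℝ) + 1)) • e) ?_ ?_ hs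
  · refine (isBounded_iff_forall_norm_le.2 ⟨‖e‖, ?_⟩)
    rintro _ ⟨k, rfl⟩
    rw [norm_smul]
    have h1 : ‖(1 / ((k : ℝ) + 1))‖ ≤ 1 := by
      rw [Real.norm_of_nonneg (by positivity), div_le_one (by positivity)]
      have : (0 : ℝ) ≤ k := Nat.cast_nonneg k
      linarith
    exact mul_le_of_le_one_left (norm_nonneg _) h1
  · intro k l hkl
    rw [Function.onFun, Set.disjoint_left]
    rintro y hy1 hy2
    rw [Set.singleton_add, Set.mem_image] at hy1 hy2
    obtain ⟨x, hx, rfl⟩ := hy1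
    obtain ⟨x', hx', e'⟩ := hy2
    have hne : 1 / ((k : ℝ) + 1) - 1 / ((l : ℝ) + 1) ≠ 0 := by
      intro h0
      apply hkl
      have hk : ((k : ℝ) + 1) ≠ 0 := by positivity
      have hl : ((l : ℝ) + 1) ≠ 0 := by positivity
      have h1 : 1 / ((k : ℝ) + 1) = 1 / ((l : ℝ) + 1) := by linarith
      rw [div_eq_div_iff hk hl] at h1
      have : (k : ℝ) = l := by linarith
      exact_mod_cast this
    apply h x hx _ hne
    have : x + (1 / ((k : ℝ) + 1) - 1 / ((l : ℝ) + 1)) • e = x' := by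
      rw [sub_smul]
      have e2 : x' = (1 / ((k : ℝ) + 1)) • e + x - (1 / ((l : ℝ) + 1)) • e := by
        rw [← e']
        abel
      rw [e2]
      abel
    rw [this]
    exact hx'

theorem ixt_sq_add (i j : Fin n) (x : E n) (t : ℝ) :
    (x + t • eb i) j ^ 2 = x j ^ 2 + if j = i then 2 * t * x i + t ^ 2 else 0 := by
  by_cases hj : j = i
  · subst hj
    simp [eb]
    ring
  · simp [eb, hj]

/-- `nuQ p (x + t e_i) = nuQ p x + 2 t x_i + t²` if `p i`. -/
theorem ixt_Q_add (p : Fin n → Prop) [DecidablePred p] {i : Fin n} (hi : p i) (x : E n) (t : ℝ) :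
    nuQ p (x + t • eb i) = nuQ p x + 2 * t * x i + t ^ 2 := by
  unfold nuQ
  simp only [ixt_sq_add]
  rw [Finset.sum_add_distrib, Finset.sum_ite_eq', if_pos (by simp [hi])]
  ring

/-- `nuQ p (x + t e_i) = nuQ p x` if `¬ p i`. -/
theorem ixt_Q_add' (p : Fin n → Prop) [DecidablePred p] {i : Fin n} (hi : ¬ p i) (x : E n) (t : ℝ) :
    nuQ p (x + t • eb i) = nuQ p x := by
  unfold nuQ
  simp only [ixt_sq_add]
  rw [Finset.sum_add_distrib, Finset.sum_ite_eq', if_neg (by simp [hi]), add_zero]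

/-- (T3).  Split `Z` into the parts `x_i > 0`, `x_i < 0`, `x_i = 0` (`p i`); each meets the lines of direction `e_i` at most once (`ixt_Q_add`, `ixt_Q_add'`). -/
theorem ixt_null (p : Fin n → Prop) [DecidablePred p] {i : Fin n} (hi : p i) {α β : ℝ} (hβ : β ≠ 0) :
    volume {x : E n | β * nuQ p x = α * nuQ (fun i => ¬ p i) x} = 0 := by
  set Z : Set (E n) := {x : E n | β * nuQ p x = α * nuQ (fun i => ¬ p i) x} with hZ
  have hZm : MeasurableSet Z :=
    (isClosed_eq (continuous_const.mul (nuQ_continuous p)) (continuous_const.mul (nuQ_continuous _))).measurableSet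
  have hci : Continuous fun x : E n => x i := by fun_prop
  have key : ∀ x ∈ Z, ∀ t : ℝ, t ≠ 0 → x + t • eb i ∈ Z → t = -2 * x i := by
    intro x hx t ht hxt
    have h1 : β * nuQ p x = α * nuQ (fun i => ¬ p i) x := hx
    have h2 : β * nuQ p (x + t • eb i) = α * nuQ (fun i => ¬ p i) (x + t • eb i) := hxt
    rw [ixt_Q_add p hi, ixt_Q_add' (fun i => ¬ p i) (by simpa using hi)] at h2
    have h3 : β * (t * (2 * x i + t)) = 0 := by linarith
    rcases mul_eq_zero.1 h3 with h4 | h4
    · exact absurd h4 hβ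
    · rcases mul_eq_zero.1 h4 with h5 | h5
      · exact absurd h5 ht
      · linarith
  have hcoord : ∀ (x : E n) (t : ℝ), (x + t • eb i) i = x i + t := by
    intro x t
    simp [eb]
  have h1 : volume (Z ∩ {x | 0 < x i}) = 0 := by
    refine ixt_null_of_line (hZm.inter (measurableSet_lt measurable_const hci.measurable)) (eb i) ?_
    rintro x ⟨hx, hx0⟩ t ht ⟨hxt, hxt0⟩
    have := key x hx t ht hxt
    have h5 : 0 < (x + t • eb i) i := hxt0
    have h6 : 0 < x i := hx0
    rw [hcoord] at h5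
    linarith
  have h2 : volume (Z ∩ {x | x i < 0}) = 0 := by
    refine ixt_null_of_line (hZm.inter (measurableSet_lt hci.measurable measurable_const)) (eb i) ?_
    rintro x ⟨hx, hx0⟩ t ht ⟨hxt, hxt0⟩
    have := key x hx t ht hxt
    have h5 : (x + t • eb i) i < 0 := hxt0
    have h6 : x i < 0 := hx0
    rw [hcoord] at h5
    linarith
  have h3 : volume (Z ∩ {x | x i = 0}) = 0 := by
    refine ixt_null_of_line (hZm.inter (measurableSet_eq_fun hci.measurable measurable_const)) (eb i) ?_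
    rintro x ⟨hx, hx0⟩ t ht ⟨hxt, -⟩
    have := key x hx t ht hxt
    have h6 : x i = 0 := hx0
    rw [h6] at this
    apply ht
    linarith
  have hsub : Z ⊆ (Z ∩ {x | 0 < x i}) ∪ (Z ∩ {x | x i < 0}) ∪ (Z ∩ {x | x i = 0}) := by
    intro x hx
    rcases lt_trichotomy (x i) 0 with h | h | h
    · exact Or.inl (Or.inr ⟨hx, h⟩)
    · exact Or.inr ⟨hx, h⟩
    · exact Or.inl (Or.inl ⟨hx, h⟩)
  exact measure_mono_null hsub (measure_union_null (measure_union_null h1 h2) h3)

/-! ### (T1) connectedness -/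

noncomputable def ixtJ (p : Fin n → Prop) [DecidablePred p] (z : EuclideanSpace ℝ {i // ¬ p i}) : E n :=
  WithLp.toLp 2 (fun i => if h : ¬ p i then z ⟨i, h⟩ else 0)

theorem ixtJ_apply (p : Fin n → Prop) [DecidablePred p] (z : EuclideanSpace ℝ {i // ¬ p i}) (i : Fin n) :
    ixtJ p z i = if h : ¬ p i then z ⟨i, h⟩ else 0 := rfl

theorem ixtJ_continuous (p : Fin n → Prop) [DecidablePred p] : Continuous (ixtJ p) := by
  unfold ixtJ
  refine (PiLp.continuous_toLp 2 _).comp (continuous_pi fun i => ?_)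
  by_cases h : ¬ p i
  · simp only [h, not_false_eq_true, dite_true]
    fun_prop
  · simp only [h, dite_false]
    exact continuous_const

/-- the punctured coordinate subspace `{x ≠ 0, x_i = 0 for p i}` is preconnected if it has dimension `≥ 2`.
(image of `{0}ᶜ ⊆ EuclideanSpace ℝ {i // ¬ p i}` under the extension by zero; `isConnected_compl_singleton_of_one_lt_rank`, `finrank_euclideanSpace`;  model: `gmtSimFl_conn`.) -/
theorem ixt_conn_axis (p : Fin n → Prop) [DecidablePred p] (h2 : 2 ≤ Fintype.card {i // ¬ p i}) :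
    IsPreconnected {x : E n | x ≠ 0 ∧ ∀ i, p i → x i = 0} := by
  have hrank : 1 < Module.rank ℝ (EuclideanSpace ℝ {i // ¬ p i}) := by
    rw [← Module.finrank_eq_rank, finrank_euclideanSpace]
    have : 1 < Fintype.card {i // ¬ p i} := by omega
    exact_mod_cast this
  have hc := (isConnected_compl_singleton_of_one_lt_rank hrank (0 : EuclideanSpace ℝ {i // ¬ p i})).isPreconnected
  have himg : {x : E n | x ≠ 0 ∧ ∀ i, p i → x i = 0} = ixtJ p '' ({0}ᶜ : Set (EuclideanSpace ℝ {i // ¬ p i})) := by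
    ext x
    constructor
    · rintro ⟨h1, h3⟩
      refine ⟨WithLp.toLp 2 (fun i => x i.1), ?_, ?_⟩
      · intro h0
        apply h1
        ext i
        by_cases hi : p i
        · simpa using h3 i hi
        · have := congrArg (fun z : EuclideanSpace ℝ {i // ¬ p i} => z ⟨i, hi⟩) h0
          simpa using this
      · ext i
        rw [ixtJ_apply]
        by_cases hi : p i
        · simp [hi, h3 i hi]
        · simp [hi]
    · rintro ⟨z, hz, rfl⟩
      refine ⟨?_, ?_⟩
      · intro h0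
        apply hz
        show z = 0
        ext i
        have := congrArg (fun y : E n => y i.1) h0
        simp only [ixtJ_apply] at this
        simpa [i.2] using this
      · intro i hi
        rw [ixtJ_apply]
        simp [hi]
  rw [himg]
  exact hc.image _ (ixtJ_continuous p).continuousOn

theorem ixt_Q_pos_of_axis (p : Fin n → Prop) [DecidablePred p] {x : E n} (hx : x ≠ 0) (h : ∀ i, p i → x i = 0) :
    nuQ p x = 0 ∧ 0 < nuQ (fun i => ¬ p i) x := by
  constructor
  · unfold nuQ
    refine Finset.sum_eq_zero fun i hi => ?_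
    rw [h i (Finset.mem_filter.1 hi).2]
    norm_num
  · obtain ⟨i, hi⟩ : ∃ i, x i ≠ 0 := by
      by_contra hcon
      push Not at hcon
      apply hx
      ext i
      simpa using hcon i
    have hpi : ¬ p i := fun hp => hi (h i hp)
    unfold nuQ
    refine Finset.sum_pos' (fun _ _ => sq_nonneg _) ⟨i, by simp [hpi], by positivity⟩

/-- (T1).  `x ∈ C` is joined inside `C` to `x - nuPr p x` (segment `x - t • nuPr p x`, `0 ≤ t ≤ 1`: `nuQ p` decreases, `nuQ ¬p` is constant), which lies in the punctured axis `⊆ C`.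
`isPreconnected_of_forall_pair` + `IsPreconnected.union`. -/
theorem ixt_conn (p : Fin n → Prop) [DecidablePred p] (h2 : 2 ≤ Fintype.card {i // ¬ p i}) {α β : ℝ}
    (hα : 0 < α) (hβ : 0 < β) : IsPreconnected (nuCone p α β) := by
  set A : Set (E n) := {x : E n | x ≠ 0 ∧ ∀ i, p i → x i = 0} with hA
  have hAc := ixt_conn_axis p h2
  have hAsub : A ⊆ nuCone p α β := by
    rintro x ⟨hx, h⟩
    obtain ⟨h1, h3⟩ := ixt_Q_pos_of_axis p hx h
    show β * nuQ p x < α * nuQ (fun i => ¬ p i) x
    rw [h1, mul_zero]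
    positivity
  -- a base point
  obtain ⟨i₀⟩ : Nonempty {i // ¬ p i} := by
    rw [← Fintype.card_pos_iff]
    omega
  have ha : eb i₀.1 ∈ A := by
    refine ⟨?_, ?_⟩
    · intro h0
      have := congrArg (fun y : E n => y i₀.1) h0
      simp [eb] at this
    · intro i hi
      have : i ≠ i₀.1 := fun h => i₀.2 (h ▸ hi)
      simp [eb, this]
  refine isPreconnected_of_forall (eb i₀.1) fun y hy => ?_
  have hy' : β * nuQ p y < α * nuQ (fun i => ¬ p i) y := hy
  set y₀ : E n := y - nuPr p y with hy₀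
  have hy₀i : ∀ i, y₀ i = if p i then 0 else y i := by
    intro i
    have : y₀ i = y i - nuPr p y i := rfl
    rw [this, nu_pr_apply]
    split_ifs <;> ring
  have hQy : 0 < nuQ (fun i => ¬ p i) y := by
    have := mul_nonneg hβ.le (nuQ_nonneg p y)
    by_contra hcon
    have h0 : nuQ (fun i => ¬ p i) y ≤ 0 := not_lt.1 hcon
    nlinarith
  have hy₀A : y₀ ∈ A := by
    refine ⟨?_, fun i hi => by rw [hy₀i, if_pos hi]⟩
    intro h0
    have : nuQ (fun i => ¬ p i) y = 0 := by
      unfold nuQ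
      refine Finset.sum_eq_zero fun i hi => ?_
      have hpi : ¬ p i := (Finset.mem_filter.1 hi).2
      have h1 := hy₀i i
      rw [if_neg hpi, h0] at h1
      rw [← h1]
      simp
    linarith
  have hseg : segment ℝ y y₀ ⊆ nuCone p α β := by
    rintro z ⟨a, b, ha0, hb0, hab, rfl⟩
    have hz : ∀ i, (a • y + b • y₀) i = if p i then a * y i else y i := by
      intro i
      have : (a • y + b • y₀) i = a * y i + b * y₀ i := rfl
      rw [this, hy₀i]
      split_ifs
      · ring
      · rw [← add_mul, hab, one_mul]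
    have h1 : nuQ p (a • y + b • y₀) = a ^ 2 * nuQ p y := by
      unfold nuQ
      rw [Finset.mul_sum]
      refine Finset.sum_congr rfl fun i hi => ?_
      rw [hz, if_pos (Finset.mem_filter.1 hi).2]
      ring
    have h3 : nuQ (fun i => ¬ p i) (a • y + b • y₀) = nuQ (fun i => ¬ p i) y := by
      unfold nuQ
      refine Finset.sum_congr rfl fun i hi => ?_
      rw [hz, if_neg (Finset.mem_filter.1 hi).2]
    show β * nuQ p (a • y + b • y₀) < α * nuQ (fun i => ¬ p i) (a • y + b • y₀)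
    rw [h1, h3]
    have ha1 : a ≤ 1 := by linarith
    have ha2 : a ^ 2 ≤ 1 := by nlinarith
    have := mul_nonneg hβ.le (nuQ_nonneg p y)
    nlinarith
  refine ⟨A ∪ segment ℝ y y₀, union_subset hAsub hseg, Or.inl ha, Or.inr (left_mem_segment ℝ y y₀), ?_⟩
  exact IsPreconnected.union y₀ hy₀A (right_mem_segment ℝ y y₀) hAc (convex_segment y y₀).isPreconnected

theorem ixt_Q_not_not (p : Fin n → Prop) [DecidablePred p] (x : E n) : nuQ (fun i => ¬ ¬ p i) x = nuQ p x := by
  unfold nuQ
  refine Finset.sum_congr ?_ fun _ _ => rfl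
  ext i
  simp

/-- the other side. -/
theorem ixt_conn' (p : Fin n → Prop) [DecidablePred p] (h2 : 2 ≤ Fintype.card {i // p i}) {α β : ℝ}
    (hα : 0 < α) (hβ : 0 < β) :
    IsPreconnected {x : E n | α * nuQ (fun i => ¬ p i) x < β * nuQ p x} := by
  have h2' : 2 ≤ Fintype.card {i // ¬ ¬ p i} := by
    rw [Fintype.card_congr (Equiv.subtypeEquivRight (fun i => (not_not : ¬ ¬ p i ↔ p i)))]
    exact h2
  have h := ixt_conn (fun i => ¬ p i) h2' hβ hα
  have e : nuCone (fun i => ¬ p i) β α = {x : E n | α * nuQ (fun i => ¬ p i) x < β * nuQ p x} := by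
    ext x
    show α * nuQ (fun i => ¬ p i) x < β * nuQ (fun i => ¬ ¬ p i) x ↔ _
    rw [ixt_Q_not_not]
    rfl
  rwa [e] at h

/-! ### (T4) the dichotomy -/

theorem ixt_dich (p : Fin n → Prop) [DecidablePred p] (h2 : 2 ≤ Fintype.card {i // p i})
    (h2' : 2 ≤ Fintype.card {i // ¬ p i}) {α β : ℝ} (hα : 0 < α) (hβ : 0 < β) {S : Set (E n)}
    (hS : MeasurableSet S) (h0 : (0 : E n) ∈ gmtBd S)
    (hZ : ∀ x ∈ gmtBd S, β * nuQ p x = α * nuQ (fun i => ¬ p i) x) :
    S =ᵐ[volume] nuCone p α β ∨ S =ᵐ[volume] (nuCone p α β)ᶜ := by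
  set C : Set (E n) := nuCone p α β with hC
  set C' : Set (E n) := {x : E n | α * nuQ (fun i => ¬ p i) x < β * nuQ p x} with hC'
  set Z : Set (E n) := {x : E n | β * nuQ p x = α * nuQ (fun i => ¬ p i) x} with hZd
  obtain ⟨i₀⟩ : Nonempty {i // p i} := by
    rw [← Fintype.card_pos_iff]
    omega
  have hZ0 : volume Z = 0 := ixt_null p i₀.2 hβ.ne'
  have hCo : IsOpen C := nuCone_isOpen _ _ _
  have hC'o : IsOpen C' := isOpen_lt (continuous_const.mul (nuQ_continuous _)) (continuous_const.mul (nuQ_continuous p))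
  have hd : Disjoint C (gmtBd S) := by
    rw [Set.disjoint_left]
    intro x hx hxb
    have h1 : β * nuQ p x < α * nuQ (fun i => ¬ p i) x := hx
    have := hZ x hxb
    linarith
  have hd' : Disjoint C' (gmtBd S) := by
    rw [Set.disjoint_left]
    intro x hx hxb
    have h1 : α * nuQ (fun i => ¬ p i) x < β * nuQ p x := hx
    have := hZ x hxb
    linarith
  have hcov : ∀ x : E n, x ∈ C ∨ x ∈ C' ∨ x ∈ Z := by
    intro x
    rcases lt_trichotomy (β * nuQ p x) (α * nuQ (fun i => ¬ p i) x) with h | h | h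
    · exact Or.inl h
    · exact Or.inr (Or.inr h)
    · exact Or.inr (Or.inl h)
  have hCC' : ∀ x, x ∈ C → x ∉ C' := by
    intro x hx hx'
    have h1 : β * nuQ p x < α * nuQ (fun i => ¬ p i) x := hx
    have h3 : α * nuQ (fun i => ¬ p i) x < β * nuQ p x := hx'
    linarith
  obtain ⟨hb1, hb2⟩ := h0 1 one_pos
  rcases gmtSim_trivial_of_connected hS hCo (ixt_conn p h2' hα hβ) hd with a | a <;>
    rcases gmtSim_trivial_of_connected hS hC'o (ixt_conn' p h2 hα hβ) hd' with b | b
  · exfalso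
    have : volume (S ∩ ball 0 1) = 0 := by
      refine measure_mono_null (t := (S ∩ C) ∪ (S ∩ C') ∪ Z) ?_ (measure_union_null (measure_union_null a b) hZ0)
      rintro x ⟨hx, -⟩
      rcases hcov x with h | h | h
      · exact Or.inl (Or.inl ⟨hx, h⟩)
      · exact Or.inl (Or.inr ⟨hx, h⟩)
      · exact Or.inr h
    rw [this] at hb1
    exact lt_irrefl _ hb1
  · right
    refine ae_eq_set.2 ⟨?_, ?_⟩
    · refine measure_mono_null ?_ a
      rintro x ⟨hx, hxc⟩
      exact ⟨hx, not_not.1 hxc⟩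
    · refine measure_mono_null (t := (C' \ S) ∪ Z) ?_ (measure_union_null b hZ0)
      rintro x ⟨hxc, hx⟩
      rcases hcov x with h | h | h
      · exact absurd h hxc
      · exact Or.inl ⟨h, hx⟩
      · exact Or.inr h
  · left
    refine ae_eq_set.2 ⟨?_, ?_⟩
    · refine measure_mono_null (t := (S ∩ C') ∪ Z) ?_ (measure_union_null b hZ0)
      rintro x ⟨hx, hxc⟩
      rcases hcov x with h | h | h
      · exact absurd h hxc
      · exact Or.inl ⟨hx, h⟩
      · exact Or.inr h
    · exact a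
  · exfalso
    have : volume (ball 0 1 \ S) = 0 := by
      refine measure_mono_null (t := (C \ S) ∪ (C' \ S) ∪ Z) ?_ (measure_union_null (measure_union_null a b) hZ0)
      rintro x ⟨-, hx⟩
      rcases hcov x with h | h | h
      · exact Or.inl (Or.inl ⟨h, hx⟩)
      · exact Or.inl (Or.inr ⟨h, hx⟩)
      · exact Or.inr h
    rw [this] at hb2
    exact lt_irrefl _ hb2

/-! ### (T5) invariance of the link area -/

theorem ixt_area_congr {S S' : Set (E n)} (hS : MeasurableSet S) (hS' : MeasurableSet S')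
    (h : S =ᵐ[volume] S') : linkArea S = linkArea S' := by
  unfold linkArea
  rw [gmtMu_open _ isOpen_ball, gmtMu_open _ isOpen_ball,
    gmtP_congr (U := ball 0 1) hS hS' (h.inter (ae_eq_refl _))]

theorem ixt_area_compl {S : Set (E n)} (hS : MeasurableSet S) : linkArea Sᶜ = linkArea S := by
  unfold linkArea
  rw [gmtMu_compl hS]

/-- `gmtPer_gmtBlow` with `T = O`, `z = 0`, `r = 1`, `gmtBlowA_eu`; `gmtRot O (ball 0 1) = ball 0 1`. -/
theorem ixt_area_rot (O : E n ≃ₗᵢ[ℝ] E n) {S : Set (E n)} (hS : MeasurableSet S) :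
    linkArea (gmtRot O S) = linkArea S := by
  unfold linkArea
  rw [gmtMu_open _ isOpen_ball, gmtMu_open _ isOpen_ball]
  have h := gmtPer_gmtBlow O.toContinuousLinearEquiv 0 one_pos (fun _ => gmtEu n) hS (ball 0 1)
  rw [gmtBlowA_eu, one_pow, ENNReal.ofReal_one, one_mul] at h
  have hb : gmtBlow O.toContinuousLinearEquiv 0 1 (ball (0 : E n) 1) = ball 0 1 := by
    ext y
    have := mem_gmtRot O (ball (0 : E n) 1) y
    unfold gmtRot at this
    rw [this]
    simp
  rw [hb] at h
  unfold gmtP gmtRot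
  rw [h]

/-! ### the exit -/

theorem ix_tail (m : ℕ) {S : Set (E (m + 2))} (hS : MinCone (m + 2) S) {j : ℕ} (hj1 : 1 ≤ j) (hjm : j < m)
    (O : E (m + 2) ≃ₗᵢ[ℝ] E (m + 2))
    (h : ∀ x ∈ gmtBd S, ((m : ℝ) - j) * (∑ i : Fin (m + 2) with i.val ≤ j, O x i ^ 2) =
      (j : ℝ) * ∑ i : Fin (m + 2) with j < i.val, O x i ^ 2) :
    cliffMin m ≤ linkArea S := by
  have hα : (0 : ℝ) < j := by exact_mod_cast hj1
  have hβ : (0 : ℝ) < (m : ℝ) - j := by
    have : (j : ℝ) < m := by exact_mod_cast hjm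
    linarith
  set S' := gmtRot O S with hS'
  have hS'm : MeasurableSet S' := measurableSet_gmtRot O hS.meas
  have hbd : ∀ y, y ∈ gmtBd S' ↔ O.symm y ∈ gmtBd S := by
    intro y
    rw [hS', gmtRot, gmtBd_gmtBlow _ _ one_pos]
    exact mem_gmtRot O (gmtBd S) y
  have h0 : (0 : E (m + 2)) ∈ gmtBd S' := by
    rw [hbd, map_zero]
    exact hS.vert
  have hZ : ∀ x ∈ gmtBd S', ((m : ℝ) - j) * nuQ (fun i : Fin (m + 2) => i.val ≤ j) x =
      (j : ℝ) * nuQ (fun i : Fin (m + 2) => ¬ i.val ≤ j) x := by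
    intro x hx
    have := h _ ((hbd x).1 hx)
    rw [O.apply_symm_apply] at this
    unfold nuQ
    simp only [not_le]
    exact this
  have hc1 : 2 ≤ Fintype.card {i : Fin (m + 2) // i.val ≤ j} := by
    rw [nuc_card_le m j hjm]; omega
  have hc2 : 2 ≤ Fintype.card {i : Fin (m + 2) // ¬ i.val ≤ j} := by
    rw [nuc_card_not_le m j hjm]; omega
  have hCm : MeasurableSet (nuCone (fun i : Fin (m + 2) => i.val ≤ j) (j : ℝ) ((m : ℝ) - j)) :=
    (nuCone_isOpen _ _ _).measurableSet
  have harea : linkArea S = linkArea (cliffCone m j) := by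
    rw [← ixt_area_rot O hS.meas, nuc_cone_eq]
    rcases ixt_dich _ hc1 hc2 hα hβ hS'm h0 hZ with h1 | h1
    · exact ixt_area_congr hS'm hCm h1
    · rw [ixt_area_congr hS'm hCm.compl h1, ixt_area_compl hCm]
  rw [harea]
  unfold cliffMin
  refine csInf_le ⟨0, ?_⟩ ⟨j, ⟨hj1, hjm⟩, rfl⟩
  rintro _ ⟨i, -, rfl⟩
  show 0 ≤ linkArea (cliffCone m i)
  unfold linkArea
  have : (0 : ℝ) ≤ ((m + 2 : ℕ) : ℝ) - 1 := by push_cast; linarith [(Nat.cast_nonneg m : (0 : ℝ) ≤ m)]
  exact mul_nonneg this ENNReal.toReal_nonneg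

end Claimed.Agent.R323
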