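import Claimed.Agent.R323.Kit.Tube
import Claimed.Agent.R323.Ix.Tail

/-!
# Row 323, block F, leaf L-IX-GEO-E: the Clifford tail in the GMT language.      Architect: helper154.

`q(x) = (m-j) Σ_{i ≤ j} (Ox)_i² - j Σ_{i > j} (Ox)_i²`.   Hypothesis: `q = 0` on `gmtBd S ∩ sphere`, hence on `gmtBd S` (`gmtSim_bd_smul`, `q` is 2-homogeneous).
`V₋ = {q < 0} = {x | O x ∈ cliffCone m j}`, `V₊ = {q > 0}`: open, disjoint from `gmtBd S`, CONNECTED (`j+1 ≥ 2` and `m+1-j ≥ 2` coordinates: e.g. path connected: `V₊ ≅ {(a,b) : (m-j)|a|² > j|b|²}`: contract `b` to `0`, then `ℝ^{j+1} \ 0` is connected).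
`gmtSim_trivial_of_connected` on `V₋`, `V₊`; `{q = 0}` is Lebesgue null (e.g. it is a cone with empty interior... simplest: for fixed other coordinates the equation in `(Ox)_0` has ≤ 2 solutions: Fubini; or `Measure.addHaar` of the zero set of a nonzero polynomial/analytic function; or: `{q=0}` is closed, and by scaling in the first block `x ↦ (ta,b)` the sets `{q∘D_t = 0}`, `t ∈ (1,2)`, are disjoint off `{a=0,b=0}` with measure `t^{-(j+1)}|{q=0}|` locally).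
`S` null or conull contradicts `0 ∈ gmtBd S`.  So `S =ᵐ V₋` or `S =ᵐ V₊ =ᵐ V₋ᶜ`: `gmtMu S = gmtMu V₋` (`gmtMu_restrict_congr`, `gmtMu_compl`).  `V₋ = gmtRot O.symm (cliffCone m j)`; rotation invariance of `gmtMu` on `ball 0 1`
(perimeter is invariant under isometries: see `gmtBlow`/`gmt_blow_*` in Lib/Gmt, and R323/Rg/Al0a.lean).   Finally `csInf_le` (`linkArea ≥ 0` bounds the set below).
-/

set_option autoImplicit false
open scoped ContDiff ENNReal RealInnerProductSpace Topology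
open MeasureTheory Metric Set Filter

namespace Claimed.Agent.R323

open Claimed.Agent.Gmt

theorem ix_geo_tail {m : ℕ} (hm : 2 ≤ m) {S : Set (E (m + 2))} (hS : MinCone (m + 2) S) {j : ℕ} (hj1 : 1 ≤ j) (hjm : j < m)
    (O : E (m + 2) ≃ₗᵢ[ℝ] E (m + 2))
    (h : ∀ x ∈ gmtBd S ∩ sphere (0 : E (m + 2)) 1, ((m : ℝ) - j) * (∑ i : Fin (m + 2) with i.val ≤ j, O x i ^ 2) =
        (j : ℝ) * ∑ i : Fin (m + 2) with j < i.val, O x i ^ 2) :
    cliffMin m ≤ linkArea S := by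
  refine ix_tail m hS hj1 hjm O fun x hx => ?_
  by_cases hx0 : x = 0
  · subst hx0
    simp
  have hn : 0 < ‖x‖ := norm_pos_iff.2 hx0
  have hy : ‖x‖⁻¹ • x ∈ gmtBd S ∩ sphere (0 : E (m + 2)) 1 := by
    refine ⟨(gmtSim_bd_smul hS.cone (inv_pos.2 hn) x).2 hx, ?_⟩
    rw [mem_sphere_zero_iff_norm, norm_smul, norm_inv, norm_norm, inv_mul_cancel₀ hn.ne']
  have h1 := h _ hy
  have e : ∀ i : Fin (m + 2), O (‖x‖⁻¹ • x) i ^ 2 = (‖x‖⁻¹) ^ 2 * O x i ^ 2 := by
    intro i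
    rw [map_smul, PiLp.smul_apply, smul_eq_mul, mul_pow]
  simp only [e, ← Finset.mul_sum] at h1
  have hp : (0 : ℝ) < (‖x‖⁻¹) ^ 2 := by positivity
  have h2 : (‖x‖⁻¹) ^ 2 * (((m : ℝ) - j) * (∑ i : Fin (m + 2) with i.val ≤ j, O x i ^ 2)) =
      (‖x‖⁻¹) ^ 2 * ((j : ℝ) * ∑ i : Fin (m + 2) with j < i.val, O x i ^ 2) := by
    linarith
  exact mul_left_cancel₀ hp.ne' h2

end Claimed.Agent.R323
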