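import Claimed.Agent.R323.Ix.Calc
import Claimed.Agent.R323.Ix.NInd

/-!
# Row 323, block F, leaf L-IX-LOGIC-A: no extra index direction ⟹ `Q` has index one (`IxOne`).      Architect: helper154.     (notes F_h154.md sec. 1 (A))
`J g = Δg + (m+P) g`: `J 1 = m + P`, `J x_b = P x_b`, `J n_a = m n_a` on `Σ` (`ixLap_X`, `ixLap_N`), `B(f,g) = ∫ f J g` (`ixB_eq`), `B` symmetric.
* `ix_B_span`: `B(ψ,ψ) = B(v,v) + 2B(v,n_a) + B(n_a,n_a) = Q(v,v) + m∫v² + 2m∫v n_a + m∫n_a²`.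
* `ix_exists_param`: the linear map `ℝ × ℝ × E (m+2) → ℝ × (Fin (m+2) → ℝ)`, `(c₁,c₂,a) ↦ (∫ψ(m+P), (∫ψ P x_β)_β)` has a kernel (`LinearMap.exists_ne_zero...`/`finrank` count `m+4 > m+3`); `x_b = Σ b_β x_β`.
* `ix_one_of_not_extra`: if `(∫Pφ)² < Q(φ,φ)∫P` then `Q(c₁+c₂φ) > 0` for `(c₁,c₂) ≠ 0` (`ix_Q_span`, discriminant; note `∫P ≥ 0`, and then `∫P > 0`), take the parameters of `ix_exists_param`:
  `B(ψ,ψ) = Q(v,v) + m∫ψ² > 0`: if `(c₁,c₂) ≠ 0` by the first term; otherwise `a ≠ 0`, `ψ = n_a`, `∫n_a² > 0` by `ix_normal_indep` + `ix_eq_zero_of_integral` (uses `m ≥ 1`).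
-/

set_option autoImplicit false
open scoped ContDiff ENNReal RealInnerProductSpace Topology
open MeasureTheory Metric Set Filter

namespace Claimed.Agent.R323

open Claimed.Agent.Gmt

variable {m : ℕ} {U : Set (E (m + 2))} {u : E (m + 2) → ℝ} {σ : Measure (E (m + 2))}

/-! ## helpers -/

/-- `Q(c, g) = c ∫ P g` -/
theorem ixla_Q_const (u : E (m + 2) → ℝ) (σ : Measure (E (m + 2))) (c : ℝ) (g : E (m + 2) → ℝ) :
    ixQ u σ (fun _ => c) g = c * ∫ x, ixP u x * g x ∂σ := by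
  unfold ixQ
  rw [← integral_const_mul]
  refine integral_congr_ae (Eventually.of_forall fun x => ?_)
  simp only [ixTg_const_left]
  ring

/-- `Q(f, n_a) = 0` -/
theorem ixla_Q_N (hG : IxGeom U u σ) {f : E (m + 2) → ℝ} (hf : IxFun U f) (a : E (m + 2)) : ixQ u σ f (ixN u a) = 0 := by
  rw [ixQ_eq hG hf (ixFun_N hG.toIxTube a),
    ix_integral_congr hG (g := fun _ => 0) (fun x hx => by rw [ixLap_N hG.toIxTube a hx]; ring)]
  simp

theorem ixla_B_add_left (hG : IxGeom U u σ) {f f' g : E (m + 2) → ℝ} (hf : IxFun U f) (hf' : IxFun U f') (hg : IxFun U g) :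
    ixB m u σ (fun x => f x + f' x) g = ixB m u σ f g + ixB m u σ f' g := by
  rw [ixB_eq_Q m hG (hf.add hf') hg, ixB_eq_Q m hG hf hg, ixB_eq_Q m hG hf' hg, ixQ_add_left hG hf hf' hg]
  have h : ∫ x, (f x + f' x) * g x ∂σ = ∫ x, f x * g x ∂σ + ∫ x, f' x * g x ∂σ := by
    rw [← integral_add ((hf.mul hg).integrable hG) ((hf'.mul hg).integrable hG)]
    refine integral_congr_ae (Eventually.of_forall fun x => ?_)
    simp only
    ring
  rw [h]
  ring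

theorem ixla_B_smul_left (hG : IxGeom U u σ) (c : ℝ) {f g : E (m + 2) → ℝ} (hf : IxFun U f) (hg : IxFun U g) :
    ixB m u σ (fun x => c * f x) g = c * ixB m u σ f g := by
  rw [ixB_eq_Q m hG (hf.smul c) hg, ixB_eq_Q m hG hf hg, ixQ_smul_left hG c hf hg]
  have h : ∫ x, c * f x * g x ∂σ = c * ∫ x, f x * g x ∂σ := by
    rw [← integral_const_mul]
    refine integral_congr_ae (Eventually.of_forall fun x => ?_)
    simp only
    ring
  rw [h]
  ring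

/-- the test functions `ψ = c₁ + c₂ φ + <a,N>` -/
theorem ixla_psi (hG : IxGeom U u σ) {φ : E (m + 2) → ℝ} (hφ : IxFun U φ) (c₁ c₂ : ℝ) (a : E (m + 2)) :
    IxFun U (fun x => c₁ + c₂ * φ x + ixN u a x) :=
  ((IxFun.const c₁).add (hφ.smul c₂)).add (ixFun_N hG.toIxTube a)

/-! ## the leaf -/

/-- (A): `Q(c₁ + c₂φ) = c₁² ∫P + 2 c₁ c₂ ∫Pφ + c₂² Q(φ,φ)`. -/
theorem ix_Q_span (hG : IxGeom U u σ) {φ : E (m + 2) → ℝ} (hφ : IxFun U φ) (c₁ c₂ : ℝ) :
    ixQ u σ (fun x => c₁ + c₂ * φ x) (fun x => c₁ + c₂ * φ x) =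
      c₁ ^ 2 * ∫ x, ixP u x ∂σ + 2 * c₁ * c₂ * ∫ x, ixP u x * φ x ∂σ + c₂ ^ 2 * ixQ u σ φ φ := by
  have hc : IxFun U (fun _ : E (m + 2) => c₁) := IxFun.const c₁
  have hcφ : IxFun U (fun x => c₂ * φ x) := hφ.smul c₂
  have hv : IxFun U (fun x => c₁ + c₂ * φ x) := hc.add hcφ
  have h1 : ∀ g, IxFun U g → ixQ u σ (fun x => c₁ + c₂ * φ x) g = c₁ * ∫ x, ixP u x * g x ∂σ + c₂ * ixQ u σ φ g := by
    intro g hg
    rw [ixQ_add_left hG hc hcφ hg, ixQ_smul_left hG c₂ hφ hg, ixla_Q_const]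
  have h2 : ∫ x, ixP u x * (c₁ + c₂ * φ x) ∂σ = c₁ * ∫ x, ixP u x ∂σ + c₂ * ∫ x, ixP u x * φ x ∂σ := by
    have hP := (ixFun_P hG.toIxTube).integrable hG
    have hPφ := ((ixFun_P hG.toIxTube).mul hφ).integrable hG
    rw [← integral_const_mul, ← integral_const_mul, ← integral_add (hP.const_mul _) (hPφ.const_mul _)]
    refine integral_congr_ae (Eventually.of_forall fun x => ?_)
    simp only
    ring
  rw [h1 _ hv, ixQ_comm u σ φ, h1 _ hφ, h2]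
  ring

/-- (A): for `ψ = c₁ + c₂ φ + <a,N>`:  `B(ψ,ψ) = Q(v,v) + m ∫ψ²`, `v = c₁ + c₂ φ`. -/
theorem ix_B_span (hG : IxGeom U u σ) {φ : E (m + 2) → ℝ} (hφ : IxFun U φ) (c₁ c₂ : ℝ) (a : E (m + 2)) :
    ixB m u σ (fun x => c₁ + c₂ * φ x + ixN u a x) (fun x => c₁ + c₂ * φ x + ixN u a x) =
      ixQ u σ (fun x => c₁ + c₂ * φ x) (fun x => c₁ + c₂ * φ x) + (m : ℝ) * ∫ x, (c₁ + c₂ * φ x + ixN u a x) ^ 2 ∂σ := by
  have hv : IxFun U (fun x => c₁ + c₂ * φ x) := (IxFun.const c₁).add (hφ.smul c₂)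
  have hN := ixFun_N hG.toIxTube a
  have hψ := ixla_psi hG hφ c₁ c₂ a
  have h1 : ∀ g, IxFun U g → ixQ u σ (fun x => c₁ + c₂ * φ x + ixN u a x) g = ixQ u σ (fun x => c₁ + c₂ * φ x) g := by
    intro g hg
    rw [ixQ_add_left hG hv hN hg, ixQ_comm u σ (ixN u a) g, ixla_Q_N hG hg a, add_zero]
  rw [ixB_eq_Q m hG hψ hψ, h1 _ hψ, ixQ_comm, h1 _ hv]
  congr 2
  refine integral_congr_ae (Eventually.of_forall fun x => ?_)
  simp only
  ring

/-- (A): dimension count: `m + 3` linear conditions on the `(m+4)`-dimensional parameter space. -/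
theorem ix_exists_param (hG : IxGeom U u σ) {φ : E (m + 2) → ℝ} (hφ : IxFun U φ) :
    ∃ (c₁ c₂ : ℝ) (a : E (m + 2)), (c₁, c₂, a) ≠ 0 ∧
      ixB m u σ (fun x => c₁ + c₂ * φ x + ixN u a x) (fun _ => 1) = 0 ∧
      ∀ b : E (m + 2), ixB m u σ (fun x => c₁ + c₂ * φ x + ixN u a x) (ixX b) = 0 := by
  have hψ : ∀ p : ℝ × ℝ × E (m + 2), IxFun U (fun x => p.1 + p.2.1 * φ x + ixN u p.2.2 x) := fun p => ixla_psi hG hφ _ _ _
  have hadd : ∀ (p q : ℝ × ℝ × E (m + 2)) (g : E (m + 2) → ℝ), IxFun U g →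
      ixB m u σ (fun x => (p + q).1 + (p + q).2.1 * φ x + ixN u (p + q).2.2 x) g
        = ixB m u σ (fun x => p.1 + p.2.1 * φ x + ixN u p.2.2 x) g + ixB m u σ (fun x => q.1 + q.2.1 * φ x + ixN u q.2.2 x) g := by
    intro p q g hg
    rw [← ixla_B_add_left hG (hψ p) (hψ q) hg]
    congr 1
    funext x
    simp only [ixN, Prod.fst_add, Prod.snd_add, inner_add_left]
    ring
  have hsmul : ∀ (c : ℝ) (p : ℝ × ℝ × E (m + 2)) (g : E (m + 2) → ℝ), IxFun U g →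
      ixB m u σ (fun x => (c • p).1 + (c • p).2.1 * φ x + ixN u (c • p).2.2 x) g
        = c • ixB m u σ (fun x => p.1 + p.2.1 * φ x + ixN u p.2.2 x) g := by
    intro c p g hg
    rw [smul_eq_mul, ← ixla_B_smul_left hG c (hψ p) hg]
    congr 1
    funext x
    simp only [ixN, Prod.smul_fst, Prod.smul_snd, inner_smul_left, smul_eq_mul]
    simp
    ring
  have hX := ixFun_X hG.toIxTube
  obtain ⟨L₁, hL₁⟩ : ∃ L : (ℝ × ℝ × E (m + 2)) →ₗ[ℝ] ℝ,
      ∀ p, L p = ixB m u σ (fun x => p.1 + p.2.1 * φ x + ixN u p.2.2 x) (fun _ => 1) :=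
    ⟨{ toFun := fun p => ixB m u σ (fun x => p.1 + p.2.1 * φ x + ixN u p.2.2 x) (fun _ => 1)
       map_add' := fun p q => hadd p q _ (IxFun.const 1)
       map_smul' := fun c p => hsmul c p _ (IxFun.const 1) }, fun _ => rfl⟩
  obtain ⟨L₂, hL₂⟩ : ∃ L : (ℝ × ℝ × E (m + 2)) →ₗ[ℝ] E (m + 2) →ₗ[ℝ] ℝ,
      ∀ p b, L p b = ixB m u σ (fun x => p.1 + p.2.1 * φ x + ixN u p.2.2 x) (ixX b) := by
    refine ⟨LinearMap.mk₂ ℝ (fun p b => ixB m u σ (fun x => p.1 + p.2.1 * φ x + ixN u p.2.2 x) (ixX b))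
      (fun p q b => hadd p q _ (hX b)) (fun c p b => hsmul c p _ (hX b)) ?_ ?_, fun _ _ => rfl⟩
    · intro p b b'
      have e : ixX (b + b') = fun x => ixX b x + ixX b' x := by
        funext x
        simp only [ixX, inner_add_left, add_div]
      rw [e, ixB_comm, ixla_B_add_left hG (hX b) (hX b') (hψ p), ixB_comm m u σ (ixX b), ixB_comm m u σ (ixX b')]
    · intro c p b
      have e : ixX (c • b) = fun x => c * ixX b x := by
        funext x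
        simp only [ixX, inner_smul_left, mul_div_assoc]
        simp
      rw [e, ixB_comm, ixla_B_smul_left hG c (hX b) (hψ p), ixB_comm m u σ (ixX b), smul_eq_mul]
  have hker : LinearMap.ker (L₁.prod L₂) ≠ ⊥ := by
    apply LinearMap.ker_ne_bot_of_finrank_lt
    simp only [Module.finrank_prod, Module.finrank_linearMap, finrank_euclideanSpace, Module.finrank_self, Fintype.card_fin]
    omega
  obtain ⟨p, hp, hp0⟩ := (Submodule.ne_bot_iff _).1 hker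
  rw [LinearMap.mem_ker, LinearMap.prod_apply] at hp
  have hp : L₁ p = 0 ∧ L₂ p = 0 := Prod.mk_eq_zero.1 hp
  refine ⟨p.1, p.2.1, p.2.2, hp0, ?_, fun b => ?_⟩
  · rw [← hL₁ p]
    exact hp.1
  · rw [← hL₂ p b, hp.2]
    rfl

/-- (A) ⟹ (B). -/
theorem ix_one_of_not_extra (hm : 1 ≤ m) (hG : IxGeom U u σ) (hne : ¬ IxExtra m U u σ) : IxOne U u σ := by
  intro φ hφ
  by_contra hcon
  rw [not_le] at hcon
  apply hne
  obtain ⟨A, hA⟩ : ∃ A, A = ∫ x, ixP u x ∂σ := ⟨_, rfl⟩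
  obtain ⟨B, hB⟩ : ∃ B, B = ∫ x, ixP u x * φ x ∂σ := ⟨_, rfl⟩
  obtain ⟨C, hC⟩ : ∃ C, C = ixQ u σ φ φ := ⟨_, rfl⟩
  rw [← hA, ← hB, ← hC] at hcon
  have hA0 : 0 ≤ A := by
    rw [hA]
    exact integral_nonneg fun x => ixP_nonneg u x
  have hApos : 0 < A := by
    rcases hA0.lt_or_eq with h | h
    · exact h
    · rw [← h, mul_zero] at hcon
      exact absurd hcon (not_lt.2 (sq_nonneg B))
  obtain ⟨c₁, c₂, a, hp0, h1, h2⟩ := ix_exists_param hG hφ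
  refine ⟨fun x => c₁ + c₂ * φ x + ixN u a x, ixla_psi hG hφ c₁ c₂ a, h1, h2, ?_⟩
  rw [ix_B_span hG hφ, ix_Q_span hG hφ, ← hA, ← hB, ← hC]
  have hsq : 0 ≤ ∫ x, (c₁ + c₂ * φ x + ixN u a x) ^ 2 ∂σ := integral_nonneg fun x => sq_nonneg _
  have hmR : (1 : ℝ) ≤ (m : ℝ) := by exact_mod_cast hm
  by_cases hc : c₁ = 0 ∧ c₂ = 0
  · obtain ⟨rfl, rfl⟩ := hc
    have ha : a ≠ 0 := by
      intro h
      apply hp0
      rw [h]
      rfl
    have hpos : 0 < ∫ x, ((0 : ℝ) + 0 * φ x + ixN u a x) ^ 2 ∂σ := by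
      rcases hsq.lt_or_eq with h | h
      · exact h
      · exfalso
        apply ha
        have h3 := ix_eq_zero_of_integral hG ((ixla_psi hG hφ 0 0 a).pow 2) (fun x _ => sq_nonneg _) h.symm
        refine ix_normal_indep hG.toIxTube hG.full fun x hx => ?_
        have h4 := h3 x hx
        simp only [zero_mul, zero_add] at h4
        exact pow_eq_zero_iff (two_ne_zero) |>.1 h4
    have : 0 < (m : ℝ) * ∫ x, ((0 : ℝ) + 0 * φ x + ixN u a x) ^ 2 ∂σ := mul_pos (by linarith) hpos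
    nlinarith
  · have hq : 0 < c₁ ^ 2 * A + 2 * c₁ * c₂ * B + c₂ ^ 2 * C := by
      have hid : A * (c₁ ^ 2 * A + 2 * c₁ * c₂ * B + c₂ ^ 2 * C) = (c₁ * A + c₂ * B) ^ 2 + c₂ ^ 2 * (C * A - B ^ 2) := by ring
      have hpos : 0 < (c₁ * A + c₂ * B) ^ 2 + c₂ ^ 2 * (C * A - B ^ 2) := by
        by_cases hc2 : c₂ = 0
        · have hc1 : c₁ ≠ 0 := fun h => hc ⟨h, hc2⟩
          rw [hc2]
          have : 0 < (c₁ * A) ^ 2 := by positivity
          nlinarith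
        · have h5 : 0 < c₂ ^ 2 * (C * A - B ^ 2) := mul_pos (by positivity) (by linarith)
          nlinarith [sq_nonneg (c₁ * A + c₂ * B)]
      rw [← hid] at hpos
      exact (pos_iff_pos_of_mul_pos hpos).1 hApos
    have : 0 ≤ (m : ℝ) * ∫ x, (c₁ + c₂ * φ x + ixN u a x) ^ 2 ∂σ := mul_nonneg (by linarith) hsq
    linarith

end Claimed.Agent.R323
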