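import Claimed.Agent.R323.Ix.Avg
import Claimed.Agent.R323.Ix.Hersch
import Claimed.Agent.R323.Ix.Conf
import Claimed.Agent.R323.Ix.NInd
import Claimed.Agent.R323.Ix.Atom

/-!
# Row 323, block F, leaf L-IX-LOGIC-B: `Q` has index one ⟹ `|A|² = m`.      Architect: helper154.     (notes F_h154.md sec. 1 (C)-(G))
* `ix_balanced`: `ν = σ.withDensity (ofReal ∘ P)` is finite, carried by the sphere, without atoms (`ix_atom`), nonzero (`ix_avg`: `∫P ≥ m|Σ| > 0`); `ix_hersch` gives `a`; `∫ (T_a x)_α dν = ∫ P v_α dσ` (`ixV_eq_mob`).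
   `IxOne` for `v_α`: `Q(v_α,v_α)∫P ≤ 0`, so `Q(v_α,v_α) ≤ 0`; sum over `α`: `∫P·Σv_α² - ∫ΣTg(v_α,v_α) = ∫P - m∫β² ≤ 0` (`ix_sum_V_sq`, `ix_sum_tg_V`).
* `ix_P_eq`: `m|Σ| ≤ ∫P ≤ m∫β² ≤ m|Σ| - 4m∫(n_a/g)²` (`ix_avg`, `ix_balanced`, `ix_conf_area`) ⟹ `n_a = 0` on `Σ` ⟹ `a = 0` (`ix_normal_indep`) ⟹ `v_α = x_α` on `Σ`, `∫P x_α = 0`, `Q(x_α,x_α) ≤ 0`,
   `Σ_α Q(x_α,x_α) = ∫P - m|Σ| ≥ 0` ⟹ `Q(x_α,x_α) = 0`.   `IxOne` for `x_α + tψ`: `2tQ(x_α,ψ)∫P + t²(Q(ψ,ψ)∫P - (∫Pψ)²) ≤ 0` for all `t` ⟹ `Q(x_α,ψ) = 0`; `Q(ψ,x_α) = ∫ψ(P-m)x_α` (`ixQ_eq`, `ixLap_X`).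
   `ψ = (P-m)x_α`, sum over `α` (`Σx_α² = 1`): `∫(P-m)² = 0` ⟹ `P = m` on `Σ` (`ix_eq_zero_of_integral`).
-/

set_option autoImplicit false
open scoped ContDiff ENNReal RealInnerProductSpace Topology
open MeasureTheory Metric Set Filter

namespace Claimed.Agent.R323

open Claimed.Agent.Gmt

variable {m : ℕ} {U : Set (E (m + 2))} {u : E (m + 2) → ℝ} {σ : Measure (E (m + 2))}

/-- `β²` is a function on the link. -/
theorem ixlb_fun_beta (hT : IxTube U u) {a : E (m + 2)} (ha : ‖a‖ < 1) :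
    IxFun U (fun x => ((1 - ‖a‖ ^ 2) / ixG a x) ^ 2) := by
  have h1 : IxFun U (fun x => (fun s : ℝ => (1 - ‖a‖ ^ 2) / s) (ixG a x)) := by
    refine IxFun.comp (V := Set.Ioi 0) ?_ (ixFun_G hT a) (fun x _ => ixG_pos ha x)
    exact contDiffOn_const.div contDiffOn_id (fun s hs => ne_of_gt hs)
  exact h1.pow 2

/-- `(n_a/g)²` is a function on the link. -/
theorem ixlb_fun_ng (hT : IxTube U u) {a : E (m + 2)} (ha : ‖a‖ < 1) :
    IxFun U (fun x => (ixN u a x / ixG a x) ^ 2) := by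
  have h1 : IxFun U (fun x => (fun s : ℝ => s⁻¹) (ixG a x)) := by
    refine IxFun.comp (V := Set.Ioi 0) ?_ (ixFun_G hT a) (fun x _ => ixG_pos ha x)
    exact contDiffOn_id.inv (fun s hs => ne_of_gt hs)
  have h2 := ((ixFun_N hT a).mul h1).pow 2
  simpa only [div_eq_mul_inv] using h2

/-- `Σ_α Q(v_α,v_α) = ∫P - m∫β²`. -/
theorem ixlb_sum_Q (hG : IxGeom U u σ) {a : E (m + 2)} (ha : ‖a‖ < 1) :
    ∑ α, ixQ u σ (ixV a α) (ixV a α) =
      ∫ x, ixP u x ∂σ - (m : ℝ) * ∫ x, ((1 - ‖a‖ ^ 2) / ixG a x) ^ 2 ∂σ := by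
  have hT : IxTube U u := hG.toIxTube
  have hV : ∀ α, IxFun U (ixV a α) := fun α => ixFun_V hT ha α
  have hfun : ∀ α, IxFun U (fun x => -(ixTg u (ixV a α) (ixV a α) x) + ixP u x * (ixV a α x * ixV a α x)) :=
    fun α => ((ixFun_tg hT (hV α) (hV α)).neg).add ((ixFun_P hT).mul ((hV α).mul (hV α)))
  unfold ixQ
  rw [← integral_finsetSum _ (fun α _ => (hfun α).integrable hG), ← integral_const_mul,
    ← integral_sub ((ixFun_P hT).integrable hG) (((ixlb_fun_beta hT ha).smul (m : ℝ)).integrable hG)]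
  refine ix_integral_congr hG fun x hx => ?_
  have hx0 : x ≠ 0 := by
    intro h
    have := hx.2.2
    rw [h, norm_zero] at this
    exact zero_ne_one this
  have h1 : ∑ α, ixV a α x * ixV a α x = 1 := by
    simpa only [sq] using ix_sum_V_sq ha hx0
  rw [Finset.sum_add_distrib, Finset.sum_neg_distrib, ix_sum_tg_V hT ha hx, ← Finset.mul_sum, h1]
  ring

/-- `∫P > 0`. -/
theorem ixlb_intP_pos (hm : 1 ≤ m) (hG : IxGeom U u σ) : 0 < ∫ x, ixP u x ∂σ := by
  have hvol : 0 < σ.real univ := ix_vol_pos (by omega) hG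
  have h := ix_avg hm hG
  have hm' : (0 : ℝ) < m := by exact_mod_cast (by omega : 0 < m)
  exact lt_of_lt_of_le (mul_pos hm' hvol) h

/-- a quadratic inequality forces the linear coefficient to vanish. -/
theorem ixlb_lin_zero {B K : ℝ} (h : ∀ t : ℝ, 2 * t * B ≤ t ^ 2 * K) : B = 0 := by
  by_contra hB
  have hs : 0 < |K| + 1 := by positivity
  have h1 := h (B / (|K| + 1))
  have hB2 : 0 < B ^ 2 := by positivity
  have h2 : 2 * (B / (|K| + 1)) * B = 2 * B ^ 2 / (|K| + 1) := by ring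
  have h3 : (B / (|K| + 1)) ^ 2 * K = B ^ 2 * K / (|K| + 1) ^ 2 := by
    rw [div_pow]
    ring
  rw [h2, h3, div_le_div_iff₀ hs (by positivity)] at h1
  have h4 : K ≤ |K| := le_abs_self K
  have h5 := mul_pos (mul_pos hB2 hs) (by linarith : 0 < 2 * (|K| + 1) - K)
  nlinarith

/-- if `Q(f,f) = 0` and `∫Pf = 0`, then `Q(f,ψ) = 0` for all `ψ`. -/
theorem ixlb_null (hm : 1 ≤ m) (hG : IxGeom U u σ) (h1 : IxOne U u σ) {f ψ : E (m + 2) → ℝ} (hf : IxFun U f)
    (hψ : IxFun U ψ) (hQ : ixQ u σ f f = 0) (hP : ∫ x, ixP u x * f x ∂σ = 0) : ixQ u σ f ψ = 0 := by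
  have hT : IxTube U u := hG.toIxTube
  have hI := ixlb_intP_pos hm hG
  have key : ∀ t : ℝ, 2 * t * (ixQ u σ f ψ * ∫ x, ixP u x ∂σ) ≤
      t ^ 2 * ((∫ x, ixP u x * ψ x ∂σ) ^ 2 - ixQ u σ ψ ψ * ∫ x, ixP u x ∂σ) := by
    intro t
    have htψ : IxFun U (fun x => t * ψ x) := hψ.smul t
    have hφ : IxFun U (fun x => f x + t * ψ x) := hf.add htψ
    have h := h1 _ hφ
    have e1 : ixQ u σ (fun x => f x + t * ψ x) (fun x => f x + t * ψ x) =
        2 * t * ixQ u σ f ψ + t ^ 2 * ixQ u σ ψ ψ := by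
      rw [ixQ_add_left hG hf htψ hφ, ixQ_smul_left hG t hψ hφ, ixQ_comm u σ f, ixQ_comm u σ ψ,
        ixQ_add_left hG hf htψ hf, ixQ_add_left hG hf htψ hψ, ixQ_smul_left hG t hψ hf,
        ixQ_smul_left hG t hψ hψ, hQ, ixQ_comm u σ ψ f]
      ring
    have e2 : ∫ x, ixP u x * (f x + t * ψ x) ∂σ = t * ∫ x, ixP u x * ψ x ∂σ := by
      have e3 : ∀ x, ixP u x * (f x + t * ψ x) = ixP u x * f x + t * (ixP u x * ψ x) := fun x => by ring
      simp only [e3]
      rw [integral_add (((ixFun_P hT).mul hf).integrable hG) ((((ixFun_P hT).mul hψ).smul t).integrable hG),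
        integral_const_mul, hP, zero_add]
    rw [e1, e2] at h
    nlinarith
  have := ixlb_lin_zero key
  rcases mul_eq_zero.1 this with h | h
  · exact h
  · exact absurd h hI.ne'

/-- (D)+(E): the balanced conformal test functions give `∫P ≤ m ∫β²`. -/
theorem ix_balanced (hm : 1 ≤ m) (hG : IxGeom U u σ) (h1 : IxOne U u σ) :
    ∃ a : E (m + 2), ‖a‖ < 1 ∧ (∀ α, ∫ x, ixP u x * ixV a α x ∂σ = 0) ∧
      ∫ x, ixP u x ∂σ ≤ (m : ℝ) * ∫ x, ((1 - ‖a‖ ^ 2) / ixG a x) ^ 2 ∂σ := by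
  have hT : IxTube U u := hG.toIxTube
  have hfin := hG.fin
  have hPi : Integrable (ixP u) σ := (ixFun_P hT).integrable hG
  have hPpos : 0 < ∫ x, ixP u x ∂σ := ixlb_intP_pos hm hG
  set ν : Measure (E (m + 2)) := σ.withDensity (fun x => ENNReal.ofReal (ixP u x)) with hν
  have hνfin : IsFiniteMeasure ν := isFiniteMeasure_withDensity_ofReal hPi.2
  have hac : ν ≪ σ := withDensity_absolutelyContinuous _ _
  have hs : ν (sphere (0 : E (m + 2)) 1)ᶜ = 0 := by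
    apply hac
    refine measure_mono_null ?_ hG.supp
    intro x hx hx'
    exact hx (mem_sphere_zero_iff_norm.2 hx'.2.2)
  have hat : ∀ x, ν {x} = 0 := fun x => hac (ix_atom hm hG x)
  have h0 : ν univ ≠ 0 := by
    rw [hν, withDensity_apply _ MeasurableSet.univ, Measure.restrict_univ,
      ← ofReal_integral_eq_lintegral_ofReal hPi (Eventually.of_forall fun x => ixP_nonneg u x)]
    exact (ENNReal.ofReal_pos.2 hPpos).ne'
  obtain ⟨a, ha, hbal⟩ := ix_hersch ν hs h0 hat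
  have hzero : ∀ α, ∫ x, ixP u x * ixV a α x ∂σ = 0 := by
    intro α
    have hmeas : Measurable (ixMob a) := by
      unfold ixMob
      fun_prop
    have hint : Integrable (ixMob a) ν := by
      refine Integrable.of_bound hmeas.aestronglyMeasurable 1 ?_
      rw [ae_iff]
      refine measure_mono_null ?_ hs
      intro x hx hx'
      exact hx (ixMob_norm ha (mem_sphere_zero_iff_norm.1 hx')).le
    have e1 : ∫ x, ixMob a x α ∂ν = 0 := by
      have := (EuclideanSpace.proj (𝕜 := ℝ) α).integral_comp_comm hint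
      simp only [EuclideanSpace.coe_proj] at this
      rw [this, hbal]
      rfl
    rw [hν, integral_withDensity_eq_integral_toReal_smul₀ hPi.1.aemeasurable.ennreal_ofReal
      (Eventually.of_forall fun x => ENNReal.ofReal_lt_top)] at e1
    rw [← e1]
    refine ix_integral_congr hG fun x hx => ?_
    rw [ENNReal.toReal_ofReal (ixP_nonneg u x), smul_eq_mul, ixV_eq_mob α hx.2.2]
  refine ⟨a, ha, hzero, ?_⟩
  have hQ : ∀ α, ixQ u σ (ixV a α) (ixV a α) ≤ 0 := by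
    intro α
    have h := h1 _ (ixFun_V hT ha α)
    rw [hzero α] at h
    by_contra hc
    push Not at hc
    nlinarith [mul_pos hc hPpos]
  have h2 := Finset.sum_nonpos (s := Finset.univ) (fun α _ => hQ α)
  rw [ixlb_sum_Q hG ha] at h2
  linarith

/-- (G). -/
theorem ix_P_eq (hm : 2 ≤ m) (hG : IxGeom U u σ) (h1 : IxOne U u σ) : ∀ x ∈ ixLink U u, ixP u x = m := by
  have hT : IxTube U u := hG.toIxTube
  have hfin := hG.fin
  have hm1 : 1 ≤ m := by omega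
  obtain ⟨a, ha, hbal, hle⟩ := ix_balanced hm1 hG h1
  have havg := ix_avg hm1 hG
  have harea := ix_conf_area hm hG ha
  have hm' : (0 : ℝ) < m := by exact_mod_cast (by omega : 0 < m)
  have hng : IxFun U (fun x => (ixN u a x / ixG a x) ^ 2) := ixlb_fun_ng hT ha
  have hint0 : 0 ≤ ∫ x, (ixN u a x / ixG a x) ^ 2 ∂σ := integral_nonneg fun x => sq_nonneg _
  have hint : ∫ x, (ixN u a x / ixG a x) ^ 2 ∂σ = 0 := by
    have h2 : σ.real univ ≤ ∫ x, ((1 - ‖a‖ ^ 2) / ixG a x) ^ 2 ∂σ :=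
      le_of_mul_le_mul_left (havg.trans hle) hm'
    linarith
  have hn0 : ∀ x ∈ ixLink U u, ixN u a x = 0 := by
    intro x hx
    have h2 := ix_eq_zero_of_integral hG hng (fun x _ => sq_nonneg _) hint x hx
    have h3 : ixN u a x / ixG a x = 0 := pow_eq_zero_iff (two_ne_zero) |>.1 h2
    rcases div_eq_zero_iff.1 h3 with h | h
    · exact h
    · exact absurd h (ixG_pos ha x).ne'
  have ha0 : a = 0 := ix_normal_indep hT hG.full hn0
  subst ha0
  have hV : ∀ α, ixV (0 : E (m + 2)) α = ixX (eb α) := by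
    intro α
    funext x
    simp [ixV, ixG, ixX]
  have hβ : ∫ x, ((1 - ‖(0 : E (m + 2))‖ ^ 2) / ixG (0 : E (m + 2)) x) ^ 2 ∂σ = σ.real univ := by
    have : ∀ x, ((1 - ‖(0 : E (m + 2))‖ ^ 2) / ixG (0 : E (m + 2)) x) ^ 2 = 1 := by
      intro x
      simp [ixG, ixX]
    simp only [this]
    simp
  have hX : ∀ α, IxFun U (ixX (eb α : E (m + 2))) := fun α => ixFun_X hT _
  have hPX : ∀ α, ∫ x, ixP u x * ixX (eb α) x ∂σ = 0 := by
    intro α
    have := hbal α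
    rwa [hV α] at this
  have hPpos : 0 < ∫ x, ixP u x ∂σ := ixlb_intP_pos hm1 hG
  have hQle : ∀ α, ixQ u σ (ixX (eb α : E (m + 2))) (ixX (eb α)) ≤ 0 := by
    intro α
    have h := h1 _ (hX α)
    rw [hPX α] at h
    by_contra hc
    push Not at hc
    nlinarith [mul_pos hc hPpos]
  have hsum : ∑ α, ixQ u σ (ixX (eb α : E (m + 2))) (ixX (eb α)) = 0 := by
    have h := ixlb_sum_Q hG ha
    simp only [hV] at h
    rw [h, hβ]
    rw [hβ] at hle
    linarith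
  have hQ0 : ∀ α, ixQ u σ (ixX (eb α : E (m + 2))) (ixX (eb α)) = 0 := fun α =>
    (Finset.sum_eq_zero_iff_of_nonpos (fun α _ => hQle α)).1 hsum α (Finset.mem_univ α)
  have hPm : IxFun U (fun x => ixP u x - (m : ℝ)) := (ixFun_P hT).sub (IxFun.const (m : ℝ))
  have hz : ∀ α, ∀ x ∈ ixLink U u, ((ixP u x - (m : ℝ)) * ixX (eb α) x) ^ 2 = 0 := by
    intro α
    have hψ : IxFun U (fun x => (ixP u x - (m : ℝ)) * ixX (eb α) x) := hPm.mul (hX α)
    have h2 := ixlb_null hm1 hG h1 (hX α) hψ (hQ0 α) (hPX α)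
    rw [ixQ_comm, ixQ_eq hG hψ (hX α)] at h2
    refine ix_eq_zero_of_integral hG (hψ.pow 2) (fun x _ => sq_nonneg _) ?_
    rw [← h2]
    refine ix_integral_congr hG fun x hx => ?_
    rw [ixLap_X hT _ hx]
    ring
  intro x hx
  have hx0 : x ≠ 0 := by
    intro h
    have := hx.2.2
    rw [h, norm_zero] at this
    exact zero_ne_one this
  have h3 : ∑ α, ixX (eb α) x ^ 2 = 1 := by
    have := ix_sum_V_sq ha hx0
    simpa only [hV] using this
  have h4 : (ixP u x - (m : ℝ)) ^ 2 = 0 := by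
    have : (ixP u x - (m : ℝ)) ^ 2 = ∑ α, ((ixP u x - (m : ℝ)) * ixX (eb α) x) ^ 2 := by
      simp only [mul_pow]
      rw [← Finset.mul_sum, h3, mul_one]
    rw [this]
    exact Finset.sum_eq_zero fun α _ => hz α x hx
  have h5 := pow_eq_zero_iff (two_ne_zero) |>.1 h4
  linarith

end Claimed.Agent.R323
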