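import Claimed.Agent.R323.Nu.Main
import Claimed.Agent.R323.Ix.Cliff
import Claimed.Agent.R323.Ix.GeoC
import Claimed.Agent.R323.Ix.GeoD
import Claimed.Agent.R323.Ix.GeoE

/-!
# Row 323, block F (average curvature, index rigidity; paper sec. 3): CONTRACT.   Architect: helper154.   Route: `origin/helper154:notes/r323/F_h154.md`.
`ix_extra` is proved here from: `kit_tube` (Kit), `ix_geo` (GeoA-C), `ix_core` (abstract core: Cliff.lean), `ix_geo_extra` (GeoD), `ix_geo_tail` (GeoE).
-/

set_option autoImplicit false
open scoped ContDiff ENNReal NNReal RealInnerProductSpace Topology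
open MeasureTheory Metric Set Filter

namespace Claimed.Agent.R323

open Claimed.Agent.Gmt

theorem ix_extra (m : ℕ) (hm : 2 ≤ m) (S : Set (E (m + 2))) (hS : MinCone (m + 2) S) (hnf : ¬ IsHalf S)
    (ha : linkArea S < cliffMin m) : ExtraIndex S := by
  obtain ⟨U, hU, hcon⟩ := kit_tube hS
  have hG := ix_geo (by omega) hS hnf hU hcon
  rcases ix_core hm hG with hx | ⟨j, hj1, hjm, O, hO⟩
  · exact ix_geo_extra hS hU hcon hx
  · exfalso
    have := ix_geo_tail hm hS hj1 hjm O (fun x hx => hO x (by rw [ix_geo_link hS hU]; exact hx))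
    linarith

end Claimed.Agent.R323
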