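import Claimed.Agent.R323.Ix.TwoGl

/-!
# Row 323, block F1, file 8c: the bound `muMin`.   (helper201; prefix `ix2l_`)
PLAN.  First `∃ μ > 0, ∀ e, ‖e‖ = 1 → ∃ y ∈ Sg, μ ≤ |⟪e, y⟫|`: the unit sphere is compact; for `e` on it `hT.full` gives `y_e`; `{e' | |⟪e,y_e⟫|/2 < |⟪e',y_e⟫|}` is an open
neighbourhood of `e`; finite subcover (`IsCompact.elim_nhds_subcover`), minimum of finitely many positive numbers (or: `IsCompact.continuous_sSup` + `IsCompact.exists_isMinOn`; or a sequence).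
Then `e = gradient u x` (`hT.eik`).
-/

set_option autoImplicit false
open scoped ContDiff ENNReal RealInnerProductSpace Topology
open MeasureTheory Metric Set Filter

namespace Claimed.Agent.R323

open Claimed.Agent.Gmt

variable {n : ℕ} {Sg U : Set (E n)} {u : E n → ℝ}

theorem ix2l_min (hT : Ix2Tube n Sg U u) :
    ∃ μ > 0, ∀ x ∈ Sg, ∃ y ∈ Sg, μ ≤ |⟪gradient u x, y⟫| :=
  ix2l_B2 hT

end Claimed.Agent.R323
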