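import Claimed.Agent.R323.Ix.TwoGlB
import Claimed.Agent.R323.Ix.TwoGlC

/-!
# Row 323, block F1, file 8d: existence of a contact.   (helper201; prefix `ix2l_`)
PLAN (no sequences, no infimum).  `a x y = |⟪N x, y⟫|`, `σ x y = 1 - ⟪x,y⟫ = ‖y-x‖²/2 ≥ 0`.  `S θ :⇔ ∀ x y ∈ Sg, a x y ≤ θ ψ x σ x y`.   `S θ → 0 < θ` (`ix2l_min`: some `a x y > 0`).
`D` = maximum over the compact `Sg ×ˢ sphere 0 1` of the continuous `(x,v) ↦ |⟪h x v, v⟫| / ψ x`, attained at `(x₁,v₁)` (the sphere is nonempty: `x ∈ Sg` has norm one).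
So `|⟪h x w, w⟫| ≤ D ψ x ‖w‖²` for all `w`.
Case `S D`: `Θ = D`, right alternative at `(x₁, v₁)`.
Case `¬ S D`: some `x' y' ∈ Sg` with `D ψ x' σ < a x' y'` (so `σ x' y' > 0`).  `θ₂ = a x' y'/(ψ x' σ x' y') > D`, `θ₁ = (D + θ₂)/2`, `p = min_Sg ψ > 0`, `ε = (θ₁ - D) p / 2`.
`ix2l_taylor ε` gives `δ`: for `‖y-x‖ < δ`: `a x y ≤ |⟪h x w,w⟫|/2 + ε‖w‖² ≤ (D ψ x + 2ε) σ ≤ θ₁ ψ x σ`.   Hence `δ ≤ ‖y' - x'‖`.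
`K = {p ∈ Sg ×ˢ Sg | δ ≤ ‖p.2 - p.1‖}` compact, nonempty; `F = a/(ψ σ)` continuous on `K`; maximum `Θ ≥ θ₂ > θ₁` at `(x₀,y₀)`.   `S Θ`; left alternative at `(x₀,y₀)`.
-/

set_option autoImplicit false
open scoped ContDiff ENNReal RealInnerProductSpace Topology
open MeasureTheory Metric Set Filter

namespace Claimed.Agent.R323

open Claimed.Agent.Gmt

variable {n : ℕ} {Sg U : Set (E n)} {u : E n → ℝ}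

theorem ix2l_contact (hT : Ix2Tube n Sg U u) (hne : Sg.Nonempty) {ψ : E n → ℝ} (hψc : ContinuousOn ψ Sg)
    (hψ : ∀ x ∈ Sg, 0 < ψ x) :
    ∃ Θ > 0, (∀ x ∈ Sg, ∀ y ∈ Sg, |⟪gradient u x, y⟫| ≤ Θ * ψ x * (1 - ⟪x, y⟫)) ∧
      ((∃ x ∈ Sg, ∃ y ∈ Sg, x ≠ y ∧ |⟪gradient u x, y⟫| = Θ * ψ x * (1 - ⟪x, y⟫)) ∨
       (∃ x ∈ Sg, ∃ v : E n, ‖v‖ = 1 ∧ |⟪gmtSimH u x v, v⟫| = Θ * ψ x)) :=
  ix2l_contact1 hT hne hψc hψ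

end Claimed.Agent.R323
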