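import Claimed.Agent.R323.Ix.TwoAlg

/-!
# Row 323, block F1, file 8e: `LS` and `GT` of `Θ e^f`.   (helper201; prefix `ix2l_`)
PLAN.  On the open set `W`: `gradient (Θ e^f) z = (Θ e^{f z}) • gradient f z` (`HasGradientAt`, chain rule), so near `x` the gradient field is this product and
`gmtSimH (Θ e^f) x a = (Θ e^{f x}) • (⟪gradient f x, a⟫ • gradient f x + gmtSimH f x a)` (`Filter.EventuallyEq.fderiv_eq`, `HasFDerivAt.smul`; `gradient f` is differentiable at `x`:
`gmtSim_contDiffOn_gradient`).   Then `gmtSimTr` of it: `∑ ⟪gradient f x, eb i⟫² = ‖gradient f x‖²` (`ix2a_sum_inner`, `gmtSim_inner_eb`).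
-/

set_option autoImplicit false
open scoped ContDiff ENNReal RealInnerProductSpace Topology
open MeasureTheory Metric Set Filter

namespace Claimed.Agent.R323

open Claimed.Agent.Gmt

variable {n : ℕ} {W : Set (E n)} {u : E n → ℝ}

/-- the gradient of `Θ e^f`. -/
theorem ix2l_exp_grad (hW : IsOpen W) {f : E n → ℝ} (hf : ContDiffOn ℝ ∞ f W) (Θ : ℝ) {z : E n} (hz : z ∈ W) :
    HasFDerivAt (fun z => Θ * Real.exp (f z)) ((Θ * Real.exp (f z)) • fderiv ℝ f z) z ∧
    gradient (fun z => Θ * Real.exp (f z)) z = (Θ * Real.exp (f z)) • gradient f z := by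
  have h1 : HasFDerivAt f (fderiv ℝ f z) z :=
    ((hf.contDiffAt (hW.mem_nhds hz)).differentiableAt (by simp)).hasFDerivAt
  have h2 : HasFDerivAt (fun z => Θ * Real.exp (f z)) ((Θ * Real.exp (f z)) • fderiv ℝ f z) z := by
    have := h1.exp.const_mul Θ
    rwa [smul_smul] at this
  refine ⟨h2, ?_⟩
  refine ext_inner_right ℝ fun w => ?_
  rw [gmtSim_inner_gradient, h2.fderiv, inner_smul_left, gmtSim_inner_gradient]
  simp

/-- the Hessian of `Θ e^f`. -/
theorem ix2l_exp_hess (hW : IsOpen W) {f : E n → ℝ} (hf : ContDiffOn ℝ ∞ f W) (Θ : ℝ) {x : E n} (hx : x ∈ W) (a : E n) :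
    gmtSimH (fun z => Θ * Real.exp (f z)) x a
      = (Θ * Real.exp (f x)) • (⟪gradient f x, a⟫ • gradient f x + gmtSimH f x a) := by
  have hev : gradient (fun z => Θ * Real.exp (f z)) =ᶠ[𝓝 x] fun z => (Θ * Real.exp (f z)) • gradient f z := by
    filter_upwards [hW.mem_nhds hx] with z hz using (ix2l_exp_grad hW hf Θ hz).2
  have hG : HasFDerivAt (gradient f) (gmtSimH f x) x :=
    (((gmtSim_contDiffOn_gradient hW hf).contDiffAt (hW.mem_nhds hx)).differentiableAt (by simp)).hasFDerivAt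
  have h3 : HasFDerivAt (fun z => (Θ * Real.exp (f z)) • gradient f z)
      ((Θ * Real.exp (f x)) • gmtSimH f x + ((Θ * Real.exp (f x)) • fderiv ℝ f x).smulRight (gradient f x)) x :=
    ((ix2l_exp_grad hW hf Θ hx).1).smul hG
  unfold gmtSimH
  rw [hev.fderiv_eq, h3.fderiv]
  simp only [add_apply, smul_apply, ContinuousLinearMap.smulRight_apply, smul_eq_mul, ← gmtSim_inner_gradient]
  rw [smul_add, smul_smul, add_comm]
  rfl

theorem ix2l_exp (hW : IsOpen W) {f : E n → ℝ} (hf : ContDiffOn ℝ ∞ f W) (Θ : ℝ) {x : E n} (hx : x ∈ W) :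
    ix2LS u (fun z => Θ * Real.exp (f z)) x = Θ * Real.exp (f x) * (ix2LS u f x + ix2GT u f x) ∧
    ix2GT u (fun z => Θ * Real.exp (f z)) x = (Θ * Real.exp (f x)) ^ 2 * ix2GT u f x := by
  have hg := (ix2l_exp_grad hW hf Θ hx).2
  have hH := ix2l_exp_hess hW hf Θ hx
  obtain ⟨c, hc⟩ : ∃ c : ℝ, c = Θ * Real.exp (f x) := ⟨_, rfl⟩
  rw [← hc] at hg hH ⊢
  have htr : gmtSimTr (gmtSimH (fun z => Θ * Real.exp (f z)) x) = c * (‖gradient f x‖ ^ 2 + gmtSimTr (gmtSimH f x)) := by
    unfold gmtSimTr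
    simp only [hH, inner_smul_left, inner_add_left, conj_trivial]
    rw [← Finset.mul_sum, Finset.sum_add_distrib, ← real_inner_self_eq_norm_sq, ← ix2a_sum_inner]
    simp only [gmtSim_inner_eb]
  constructor
  · unfold ix2LS ix2GT
    rw [htr, hH, hH, hg]
    simp only [inner_smul_left, inner_add_left, conj_trivial]
    ring
  · unfold ix2GT
    rw [hg, norm_smul, inner_smul_left, inner_smul_left, mul_pow, Real.norm_eq_abs, sq_abs]
    simp only [conj_trivial]
    ring

end Claimed.Agent.R323
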