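import Claimed.Agent.R323.Ix.TwoDG
import Claimed.Agent.R323.Ix.TwoGlD
import Claimed.Agent.R323.Ix.TwoGlE

/-!
# Row 323, block F1, file 9: THE EXIT `ix2_main` of the two-point maximum principle.   (helper201; prefix `ix2_`)
Notes `F1F2_h201.md`, section GL.
-/

set_option autoImplicit false
open scoped ContDiff ENNReal RealInnerProductSpace Topology
open MeasureTheory Metric Set Filter

namespace Claimed.Agent.R323

open Claimed.Agent.Gmt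

variable {n : ℕ} {Sg U W : Set (E n)} {u φ : E n → ℝ}

theorem ix2_Z_nonneg (habs : ∀ x ∈ Sg, ∀ y ∈ Sg, |⟪gradient u x, y⟫| ≤ φ x * (1 - ⟪x, y⟫)) {s : ℝ} (hs : s ^ 2 = 1) :
    ∀ x ∈ Sg, ∀ y ∈ Sg, 0 ≤ ix2Z u φ s x y := by
  intro x hx y hy
  have h1 := habs x hx y hy
  have h2 : s * ⟪gradient u x, y⟫ ≤ |⟪gradient u x, y⟫| := by
    have h3 : (s - 1) * (s + 1) = 0 := by linear_combination hs
    rcases mul_eq_zero.1 h3 with h | h
    · have : s = 1 := by linarith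
      rw [this, one_mul]; exact le_abs_self _
    · have : s = -1 := by linarith
      rw [this, neg_one_mul]; exact neg_le_abs _
  unfold ix2Z
  linarith

/-- the differential inequality at a contact point of either kind. -/
theorem ix2_ineq (hT : Ix2Tube n Sg U u) (hW : IsOpen W) (hSW : Sg ⊆ W) (hφ : ContDiffOn ℝ ∞ φ W)
    (hpos : ∀ x ∈ Sg, 0 < φ x)
    (habs : ∀ x ∈ Sg, ∀ y ∈ Sg, |⟪gradient u x, y⟫| ≤ φ x * (1 - ⟪x, y⟫)) {x : E n} (hx : x ∈ Sg)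
    (hc : (∃ y ∈ Sg, x ≠ y ∧ |⟪gradient u x, y⟫| = φ x * (1 - ⟪x, y⟫)) ∨
      (∃ v : E n, ‖v‖ = 1 ∧ |⟪gmtSimH u x v, v⟫| = φ x)) :
    ix2GT u φ x / φ x ≤ ix2LS u φ x + (gmtSimA u x - ((n : ℝ) - 2)) * φ x := by
  have sgn : ∀ a : ℝ, ∃ s : ℝ, s ^ 2 = 1 ∧ s * a = |a| := by
    intro a
    rcases le_total 0 a with h | h
    · exact ⟨1, by norm_num, by rw [abs_of_nonneg h, one_mul]⟩
    · exact ⟨-1, by norm_num, by rw [abs_of_nonpos h, neg_one_mul]⟩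
  rcases hc with ⟨y, hy, hxy, he⟩ | ⟨v, hv1, he⟩
  · obtain ⟨s, hs, hsa⟩ := sgn ⟪gradient u x, y⟫
    have hs' : (-s) ^ 2 = 1 := by rw [neg_sq]; exact hs
    refine ix2p_main hT hW hSW hφ hpos hs (ix2_Z_nonneg habs hs) (ix2_Z_nonneg habs hs') hx hy hxy ?_
    unfold ix2Z
    rw [hsa, he]; ring
  · obtain ⟨s, hs, hsa⟩ := sgn ⟪gmtSimH u x v, v⟫
    have hs' : (-s) ^ 2 = 1 := by rw [neg_sq]; exact hs
    have onx := ix2t_on hT hx
    have hφx := hpos x hx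
    obtain ⟨v', hv'⟩ : ∃ v' : E n, v' = ix2Pr x (gradient u x) v := ⟨_, rfl⟩
    have hvt : Ix2Tan u x v' := by rw [hv']; exact ix2t_pr_tan hT hx v
    have hκ : ⟪gmtSimH u x v', v'⟫ = ⟪gmtSimH u x v, v⟫ := by
      rw [hv', ix2t_H_pr hT hx, ← ix2a_pr_symm,
        ix2a_pr_of_tan (ix2t_H_tan hT hx v).1 (ix2t_H_tan hT hx v).2]
    have h1 := ix2t_eb hT hx (ix2_Z_nonneg habs hs' x hx) hvt
    rw [hκ, neg_mul, hsa, he] at h1
    have h2 : ‖v'‖ ^ 2 ≤ 1 := by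
      have := ix2a_pr_norm_le onx v
      rw [hv1, ← hv'] at this
      simpa using this
    have h3 : 1 ≤ ‖v'‖ ^ 2 := by
      by_contra hlt
      push Not at hlt
      nlinarith
    have h4 : ‖v'‖ = 1 := by
      have h5 : ‖v'‖ ^ 2 = 1 := le_antisymm h2 h3
      have h6 : (‖v'‖ - 1) * (‖v'‖ + 1) = 0 := by linear_combination h5
      rcases mul_eq_zero.1 h6 with h | h
      · linarith
      · have := norm_nonneg v'
        linarith
    refine ix2g_main hT hW hSW hφ hpos hs' (ix2_Z_nonneg habs hs')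
      (by rw [neg_neg]; exact ix2_Z_nonneg habs hs) hx hvt h4 ?_
    rw [hκ, neg_mul, hsa, he]; ring

/-- **EXIT of F1.** -/
theorem ix2_main (hT : Ix2Tube n Sg U u) (hne : Sg.Nonempty) :
    ∃ Λ : ℝ, ∀ (W : Set (E n)) (f : E n → ℝ), IsOpen W → Sg ⊆ W → ContDiffOn ℝ ∞ f W →
      ∃ x₀ ∈ Sg, ((n : ℝ) - 2) - gmtSimA u x₀ ≤ ix2LS u f x₀ ∧ ∀ x ∈ Sg, f x₀ - Λ ≤ f x := by
  obtain ⟨C, hC, hC1, hC2⟩ := ix2l_max hT
  obtain ⟨μ, hμ, hμ1⟩ := ix2l_min hT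
  refine ⟨Real.log (2 * C / μ), fun W f hW hSW hf => ?_⟩
  have hψc : ContinuousOn (fun z => Real.exp (f z)) Sg :=
    (Real.continuous_exp.comp_continuousOn hf.continuousOn).mono hSW
  obtain ⟨Θ, hΘ, hS, hc⟩ := ix2l_contact hT hne hψc (fun x _ => Real.exp_pos _)
  obtain ⟨φ, hφd⟩ : ∃ φ : E n → ℝ, φ = fun z => Θ * Real.exp (f z) := ⟨_, rfl⟩
  have hφa : ∀ z, φ z = Θ * Real.exp (f z) := fun z => by rw [hφd]
  have hφ : ContDiffOn ℝ ∞ φ W := by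
    rw [hφd]; exact contDiffOn_const.mul (Real.contDiff_exp.comp_contDiffOn hf)
  have hpos : ∀ x ∈ Sg, 0 < φ x := fun x _ => by rw [hφa]; exact mul_pos hΘ (Real.exp_pos _)
  have habs : ∀ x ∈ Sg, ∀ y ∈ Sg, |⟪gradient u x, y⟫| ≤ φ x * (1 - ⟪x, y⟫) := by
    intro x hx y hy; rw [hφa]; exact hS x hx y hy
  obtain ⟨x₀, hx₀, hc'⟩ : ∃ x₀ ∈ Sg, (∃ y ∈ Sg, x₀ ≠ y ∧ |⟪gradient u x₀, y⟫| = φ x₀ * (1 - ⟪x₀, y⟫)) ∨
      (∃ v : E n, ‖v‖ = 1 ∧ |⟪gmtSimH u x₀ v, v⟫| = φ x₀) := by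
    rcases hc with ⟨x, hx, y, hy, hxy, he⟩ | ⟨x, hx, v, hv, he⟩
    · exact ⟨x, hx, Or.inl ⟨y, hy, hxy, by rw [hφa]; exact he⟩⟩
    · exact ⟨x, hx, Or.inr ⟨v, hv, by rw [hφa]; exact he⟩⟩
  have hφ0 := hpos x₀ hx₀
  refine ⟨x₀, hx₀, ?_, ?_⟩
  · have h1 := ix2_ineq hT hW hSW hφ hpos habs hx₀ hc'
    obtain ⟨e1, e2⟩ := ix2l_exp (u := u) hW hf Θ (hSW hx₀)
    rw [← hφd, ← hφa] at e1 e2
    rw [e1, e2] at h1
    have h2 : φ x₀ ^ 2 * ix2GT u f x₀ / φ x₀ = φ x₀ * ix2GT u f x₀ := by field_simp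
    rw [h2] at h1
    have h3 : 0 ≤ φ x₀ * (ix2LS u f x₀ + gmtSimA u x₀ - ((n : ℝ) - 2)) := by linarith
    have h4 := nonneg_of_mul_nonneg_right h3 hφ0
    linarith
  · have hup : φ x₀ ≤ C := by
      rcases hc' with ⟨y, hy, hxy, he⟩ | ⟨v, hv, he⟩
      · have hσ := ix2a_sig_pos (ix2t_on hT hx₀).x1 (ix2t_on hT hy).x1 hxy
        have := hC1 x₀ hx₀ y hy
        rw [he] at this
        exact le_of_mul_le_mul_right this hσ
      · have := hC2 x₀ hx₀ v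
        rw [he, hv] at this
        simpa using this
    intro x hx
    obtain ⟨y, hy, hy1⟩ := hμ1 x hx
    have hlo : μ ≤ 2 * φ x := by
      have h1 := habs x hx y hy
      have h2 : -1 ≤ ⟪x, y⟫ := by
        have := abs_real_inner_le_norm x y
        rw [(ix2t_on hT hx).x1, (ix2t_on hT hy).x1] at this
        have := (abs_le.1 this).1
        linarith
      have h3 := hpos x hx
      nlinarith
    rw [hφa] at hup hlo
    have h5 : f x₀ - f x ≤ Real.log (2 * C / μ) := by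
      rw [Real.le_log_iff_exp_le (by positivity), Real.exp_sub, div_le_div_iff₀ (Real.exp_pos _) hμ]
      have e0 := Real.exp_pos (f x₀)
      have e1 := Real.exp_pos (f x)
      have h6 : Real.exp (f x₀) * μ ≤ Real.exp (f x₀) * (2 * (Θ * Real.exp (f x))) :=
        mul_le_mul_of_nonneg_left hlo e0.le
      have h7 : (Θ * Real.exp (f x₀)) * (2 * Real.exp (f x)) ≤ C * (2 * Real.exp (f x)) :=
        mul_le_mul_of_nonneg_right hup (by positivity)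
      linarith
    linarith

end Claimed.Agent.R323
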