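import Claimed.Agent.R323.Ix.TwoDefs

/-!
# Row 323, block F1, file 3: LINEAR ALGEBRA.   (helper201; prefix `ix2a_`)

`x, ν` orthonormal in `E n`, `P = ix2Pr x ν` the projection onto `{x, ν}^⊥`.   Traces over `{x,ν}^⊥` are written as sums over `P (eb i)`: no basis of the subspace is ever chosen.
-/

set_option autoImplicit false
open scoped ContDiff ENNReal RealInnerProductSpace Topology
open MeasureTheory Metric Set Filter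

namespace Claimed.Agent.R323

open Claimed.Agent.Gmt

variable {n : ℕ}

/-- orthonormal pair. -/
structure Ix2ON (x ν : E n) : Prop where
  x1 : ‖x‖ = 1
  n1 : ‖ν‖ = 1
  xn : ⟪x, ν⟫ = 0

section basic

variable {x ν : E n}

theorem Ix2ON.xx (h : Ix2ON x ν) : ⟪x, x⟫ = 1 := by rw [real_inner_self_eq_norm_sq, h.x1]; norm_num
theorem Ix2ON.nn (h : Ix2ON x ν) : ⟪ν, ν⟫ = 1 := by rw [real_inner_self_eq_norm_sq, h.n1]; norm_num
theorem Ix2ON.nx (h : Ix2ON x ν) : ⟪ν, x⟫ = 0 := by rw [real_inner_comm]; exact h.xn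

theorem ix2a_pr_add (x ν a b : E n) : ix2Pr x ν (a + b) = ix2Pr x ν a + ix2Pr x ν b := by
  simp only [ix2Pr, inner_add_left, add_smul]; abel

theorem ix2a_pr_smul (x ν : E n) (r : ℝ) (a : E n) : ix2Pr x ν (r • a) = r • ix2Pr x ν a := by
  simp only [ix2Pr, inner_smul_left, smul_sub, smul_smul]; simp

theorem ix2a_pr_neg (x ν a : E n) : ix2Pr x ν (-a) = - ix2Pr x ν a := by
  have := ix2a_pr_smul x ν (-1) a
  simpa using this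

theorem ix2a_pr_sub (x ν a b : E n) : ix2Pr x ν (a - b) = ix2Pr x ν a - ix2Pr x ν b := by
  rw [sub_eq_add_neg, ix2a_pr_add, ix2a_pr_neg, ← sub_eq_add_neg]

theorem ix2a_pr_sum {ι : Type*} (s : Finset ι) (x ν : E n) (f : ι → E n) :
    ix2Pr x ν (∑ i ∈ s, f i) = ∑ i ∈ s, ix2Pr x ν (f i) := by
  classical
  induction s using Finset.induction_on with
  | empty => simp [ix2Pr]
  | insert a s ha ih => rw [Finset.sum_insert ha, Finset.sum_insert ha, ix2a_pr_add, ih]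

theorem ix2a_pr_x (h : Ix2ON x ν) (w : E n) : ⟪ix2Pr x ν w, x⟫ = 0 := by
  simp only [ix2Pr, inner_sub_left, inner_smul_left, h.xx, h.nx]; simp

theorem ix2a_pr_n (h : Ix2ON x ν) (w : E n) : ⟪ix2Pr x ν w, ν⟫ = 0 := by
  simp only [ix2Pr, inner_sub_left, inner_smul_left, h.nn, h.xn]; simp

theorem ix2a_pr_of_tan {e : E n} (h1 : ⟪e, x⟫ = 0) (h2 : ⟪e, ν⟫ = 0) : ix2Pr x ν e = e := by
  simp [ix2Pr, h1, h2]

theorem ix2a_pr_self_x (h : Ix2ON x ν) : ix2Pr x ν x = 0 := by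
  simp [ix2Pr, h.xn, h.x1]

theorem ix2a_pr_self_n (h : Ix2ON x ν) : ix2Pr x ν ν = 0 := by
  simp [ix2Pr, h.nx, h.n1]

theorem ix2a_pr_pr (h : Ix2ON x ν) (w : E n) : ix2Pr x ν (ix2Pr x ν w) = ix2Pr x ν w :=
  ix2a_pr_of_tan (ix2a_pr_x h w) (ix2a_pr_n h w)

theorem ix2a_decomp (x ν w : E n) : w = ix2Pr x ν w + ⟪w, ν⟫ • ν + ⟪w, x⟫ • x := by
  simp only [ix2Pr]; abel

theorem ix2a_pr_symm (x ν a b : E n) : ⟪ix2Pr x ν a, b⟫ = ⟪a, ix2Pr x ν b⟫ := by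
  simp only [ix2Pr, inner_sub_left, inner_sub_right, inner_smul_left, inner_smul_right]
  simp only [real_inner_comm, RCLike.conj_to_real]
  ring

theorem ix2a_pr_inner (h : Ix2ON x ν) (a b : E n) : ⟪ix2Pr x ν a, ix2Pr x ν b⟫ = ⟪ix2Pr x ν a, b⟫ := by
  rw [← ix2a_pr_symm, ix2a_pr_pr h]

theorem ix2a_pr_norm_sq (h : Ix2ON x ν) (w : E n) :
    ‖ix2Pr x ν w‖ ^ 2 = ‖w‖ ^ 2 - ⟪w, ν⟫ ^ 2 - ⟪w, x⟫ ^ 2 := by
  rw [← real_inner_self_eq_norm_sq, ix2a_pr_inner h, ← real_inner_self_eq_norm_sq]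
  simp only [ix2Pr, inner_sub_left, inner_smul_left, RCLike.conj_to_real]
  rw [real_inner_comm w ν, real_inner_comm w x]
  ring

theorem ix2a_pr_norm_le (h : Ix2ON x ν) (w : E n) : ‖ix2Pr x ν w‖ ^ 2 ≤ ‖w‖ ^ 2 := by
  rw [ix2a_pr_norm_sq h]
  nlinarith [sq_nonneg ⟪w, ν⟫, sq_nonneg ⟪w, x⟫]

/-- a linear functional which vanishes on the tangent space. -/
theorem ix2a_multiplier (x ν : E n) (ℓ : E n →L[ℝ] ℝ) (hℓ : ∀ w, ℓ (ix2Pr x ν w) = 0) (w : E n) :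
    ℓ w = ⟪w, ν⟫ * ℓ ν + ⟪w, x⟫ * ℓ x := by
  conv_lhs => rw [ix2a_decomp x ν w]
  simp [hℓ]

end basic

/-! ### sums over the coordinate vectors -/

theorem ix2a_sum_coord (L : E n →L[ℝ] ℝ) (a : E n) : ∑ i, a i * L (eb i) = L a := by
  conv_rhs => rw [← gmt_sum_eb a]
  simp [map_sum]

theorem ix2a_sum_inner (a b : E n) : ∑ i, a i * b i = ⟪a, b⟫ := (gmtSim_inner_eq_sum a b).symm

section tr

variable {x ν : E n}

/-- `∑_i ⟪P e_i, a⟫ P e_i = P a`. -/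
theorem ix2a_parseval (h : Ix2ON x ν) (a : E n) :
    ∑ i, ⟪ix2Pr x ν (eb i), a⟫ • ix2Pr x ν (eb i) = ix2Pr x ν a := by
  have e1 : ∀ i : Fin n, ⟪ix2Pr x ν (eb i), a⟫ • ix2Pr x ν (eb i) = ix2Pr x ν ((ix2Pr x ν a) i • eb i) := by
    intro i
    rw [ix2a_pr_smul, ix2a_pr_symm, real_inner_comm, gmtSim_inner_eb]
  simp only [e1]
  rw [← ix2a_pr_sum, gmt_sum_eb, ix2a_pr_pr h]

/-- `∑_i ⟪P e_i, a⟫ L (P e_i) = L (P a)`. -/
theorem ix2a_parseval_L (h : Ix2ON x ν) (L : E n →L[ℝ] ℝ) (a : E n) :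
    ∑ i, ⟪ix2Pr x ν (eb i), a⟫ * L (ix2Pr x ν (eb i)) = L (ix2Pr x ν a) := by
  rw [← ix2a_parseval h a, map_sum]
  simp

/-- **(TR)** the trace over `{x, ν}^⊥`. -/
theorem ix2a_tr (h : Ix2ON x ν) (A : E n →L[ℝ] E n) :
    ∑ i, ⟪A (ix2Pr x ν (eb i)), ix2Pr x ν (eb i)⟫ = gmtSimTr A - ⟪A ν, ν⟫ - ⟪A x, x⟫ := by
  have e1 : ∀ i : Fin n, ⟪A (ix2Pr x ν (eb i)), ix2Pr x ν (eb i)⟫ =
      ⟪A (eb i), eb i⟫ - ν i * ((innerSL ℝ ν).comp A) (eb i) - x i * ((innerSL ℝ x).comp A) (eb i)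
        - ν i * (innerSL ℝ (A ν)) (eb i) + ν i * ν i * ⟪A ν, ν⟫ + ν i * x i * ⟪A ν, x⟫
        - x i * (innerSL ℝ (A x)) (eb i) + x i * ν i * ⟪A x, ν⟫ + x i * x i * ⟪A x, x⟫ := by
    intro i
    have hn : ⟪(eb i : E n), ν⟫ = ν i := by rw [real_inner_comm, gmtSim_inner_eb]
    have hx : ⟪(eb i : E n), x⟫ = x i := by rw [real_inner_comm, gmtSim_inner_eb]
    simp only [ix2Pr, map_sub, map_smul, inner_sub_left, inner_sub_right, inner_smul_left,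
      inner_smul_right, hn, hx, RCLike.conj_to_real, ContinuousLinearMap.comp_apply, innerSL_apply_apply]
    rw [real_inner_comm (A (eb i)) ν, real_inner_comm (A (eb i)) x]
    ring
  simp only [e1, Finset.sum_add_distrib, Finset.sum_sub_distrib, ← Finset.sum_mul, ix2a_sum_coord,
    ix2a_sum_inner, h.nn, h.xx, h.nx, h.xn]
  simp only [ContinuousLinearMap.comp_apply, innerSL_apply_apply, gmtSimTr]
  rw [real_inner_comm (A ν) ν, real_inner_comm (A x) x]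
  ring

theorem ix2a_tr_one (h : Ix2ON x ν) : ∑ i : Fin n, ‖ix2Pr x ν (eb i)‖ ^ 2 = (n : ℝ) - 2 := by
  have h1 := ix2a_tr h (ContinuousLinearMap.id ℝ (E n))
  simp only [ContinuousLinearMap.id_apply, real_inner_self_eq_norm_sq, gmtSimTr, h.n1, h.x1] at h1
  rw [h1]
  simp [eb]
  ring

/-- Hilbert-Schmidt norm dominates the operator norm. -/
theorem ix2a_hs (h : Ix2ON x ν) (M : E n →L[ℝ] E n) {v : E n} (hv : ‖v‖ = 1) (hvx : ⟪v, x⟫ = 0) (hvn : ⟪v, ν⟫ = 0) :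
    ‖M v‖ ^ 2 ≤ ∑ i, ‖M (ix2Pr x ν (eb i))‖ ^ 2 := by
  have hPv : ix2Pr x ν v = v := ix2a_pr_of_tan hvx hvn
  have e1 : M v = ∑ i, ⟪ix2Pr x ν (eb i), v⟫ • M (ix2Pr x ν (eb i)) := by
    conv_lhs => rw [← hPv, ← ix2a_parseval h v]
    simp [map_sum]
  have e2 : ∑ i, ⟪ix2Pr x ν (eb i), v⟫ ^ 2 = 1 := by
    have := ix2a_parseval_L h (innerSL ℝ v) v
    simp only [innerSL_apply_apply, hPv, real_inner_self_eq_norm_sq, hv] at this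
    rw [← (by norm_num : (1 : ℝ) ^ 2 = 1), ← this]
    refine Finset.sum_congr rfl fun i _ => ?_
    rw [real_inner_comm v, sq]
  have e3 : ‖M v‖ ≤ ∑ i, |⟪ix2Pr x ν (eb i), v⟫| * ‖M (ix2Pr x ν (eb i))‖ := by
    rw [e1]
    refine (norm_sum_le _ _).trans (le_of_eq ?_)
    refine Finset.sum_congr rfl fun i _ => ?_
    rw [norm_smul, Real.norm_eq_abs]
  have e4 := Finset.sum_mul_sq_le_sq_mul_sq Finset.univ (fun i => |⟪ix2Pr x ν (eb i), v⟫|)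
    (fun i => ‖M (ix2Pr x ν (eb i))‖)
  simp only [sq_abs, e2, one_mul] at e4
  calc ‖M v‖ ^ 2 ≤ (∑ i, |⟪ix2Pr x ν (eb i), v⟫| * ‖M (ix2Pr x ν (eb i))‖) ^ 2 :=
        pow_le_pow_left₀ (norm_nonneg _) e3 2
    _ ≤ _ := e4

end tr

/-! ### positive semidefinite operators -/

section psd

variable {B : E n →L[ℝ] E n}

/-- Cauchy-Schwarz for the form `⟪B ·, ·⟫`. -/
theorem ix2a_cs (hs : ∀ a b, ⟪B a, b⟫ = ⟪a, B b⟫) (h0 : ∀ a, 0 ≤ ⟪B a, a⟫) (a b : E n) :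
    ⟪B a, b⟫ ^ 2 ≤ ⟪B a, a⟫ * ⟪B b, b⟫ := by
  have h1 : ∀ t : ℝ, 0 ≤ ⟪B b, b⟫ * (t * t) + 2 * ⟪B a, b⟫ * t + ⟪B a, a⟫ := by
    intro t
    have := h0 (a + t • b)
    simp only [map_add, map_smul, inner_add_left, inner_add_right, inner_smul_left, inner_smul_right,
      RCLike.conj_to_real] at this
    rw [hs b a, real_inner_comm (B a) b] at this
    nlinarith
  have h2 := discrim_le_zero h1
  unfold discrim at h2
  nlinarith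

theorem ix2a_ker (hs : ∀ a b, ⟪B a, b⟫ = ⟪a, B b⟫) (h0 : ∀ a, 0 ≤ ⟪B a, a⟫) {v : E n} (hv : ⟪B v, v⟫ = 0) :
    B v = 0 := by
  have h1 := ix2a_cs hs h0 v (B v)
  rw [hv, zero_mul, real_inner_self_eq_norm_sq] at h1
  have h2 : ‖B v‖ ^ 2 = 0 := by nlinarith [sq_nonneg (‖B v‖ ^ 2), sq_nonneg ‖B v‖]
  exact norm_eq_zero.1 (pow_eq_zero_iff (two_ne_zero)|>.1 h2)

/-- **(CS)** `0 ≤ B ≤ κ` implies `|B d|² ≤ κ ⟪B d, d⟫`. -/
theorem ix2a_sq_le (hs : ∀ a b, ⟪B a, b⟫ = ⟪a, B b⟫) (h0 : ∀ a, 0 ≤ ⟪B a, a⟫) {κ : ℝ}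
    (h1 : ∀ a, ⟪B a, a⟫ ≤ κ * ‖a‖ ^ 2) (d : E n) : ‖B d‖ ^ 2 ≤ κ * ⟪B d, d⟫ := by
  by_cases hz : B d = 0
  · simp [hz]
  have hpos : 0 < ‖B d‖ ^ 2 := by positivity
  have h2 := ix2a_cs hs h0 d (B d)
  rw [real_inner_self_eq_norm_sq] at h2
  have h3 := h1 (B d)
  have h4 : (‖B d‖ ^ 2) ^ 2 ≤ ⟪B d, d⟫ * (κ * ‖B d‖ ^ 2) :=
    h2.trans (mul_le_mul_of_nonneg_left h3 (h0 d))
  have h5 : ‖B d‖ ^ 2 * ‖B d‖ ^ 2 ≤ (κ * ⟪B d, d⟫) * ‖B d‖ ^ 2 := by nlinarith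
  exact le_of_mul_le_mul_right h5 hpos

end psd

/-! ### the reflection exchanging two unit vectors -/

/-- the reflection in `(x - y)^⊥` (for unit vectors `x ≠ y`: `|x - y|² = 2 (1 - ⟪x,y⟫)`). -/
noncomputable def ix2R (x y : E n) : E n →L[ℝ] E n :=
  ContinuousLinearMap.id ℝ (E n) - (1 - ⟪x, y⟫)⁻¹ • (innerSL ℝ (x - y)).smulRight (x - y)

theorem ix2R_eqns_cite : True := by
  have := @ix2R.eq_1
  trivial

section refl

variable {x y : E n}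

theorem ix2a_R_apply (x y w : E n) : ix2R x y w = w - ((1 - ⟪x, y⟫)⁻¹ * ⟪x - y, w⟫) • (x - y) := by
  simp [ix2R, smul_smul, inner_sub_left]

theorem ix2a_sig_pos (hx : ‖x‖ = 1) (hy : ‖y‖ = 1) (hxy : x ≠ y) : 0 < 1 - ⟪x, y⟫ := by
  have h1 : 0 < ‖x - y‖ ^ 2 := by
    have : x - y ≠ 0 := sub_ne_zero.2 hxy
    positivity
  rw [norm_sub_sq_real, hx, hy] at h1
  linarith

theorem ix2a_norm_sub (hx : ‖x‖ = 1) (hy : ‖y‖ = 1) : ⟪x - y, x - y⟫ = 2 * (1 - ⟪x, y⟫) := by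
  rw [real_inner_self_eq_norm_sq, norm_sub_sq_real, hx, hy]; ring

theorem ix2a_R_symm (x y a b : E n) : ⟪ix2R x y a, b⟫ = ⟪a, ix2R x y b⟫ := by
  simp only [ix2a_R_apply, inner_sub_left, inner_sub_right, inner_smul_left, inner_smul_right,
    RCLike.conj_to_real]
  rw [real_inner_comm x a, real_inner_comm y a]
  ring

theorem ix2a_R_R (hx : ‖x‖ = 1) (hy : ‖y‖ = 1) (hxy : x ≠ y) (a : E n) : ix2R x y (ix2R x y a) = a := by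
  have hσ := ix2a_sig_pos hx hy hxy
  have h2 := ix2a_norm_sub hx hy
  rw [ix2a_R_apply x y (ix2R x y a), ix2a_R_apply x y a]
  simp only [inner_sub_right, inner_smul_right, h2]
  rw [sub_sub, ← add_smul]
  have : (1 - ⟪x, y⟫)⁻¹ * ⟪x - y, a⟫ + (1 - ⟪x, y⟫)⁻¹ * (⟪x - y, a⟫ - (1 - ⟪x, y⟫)⁻¹ * ⟪x - y, a⟫ * (2 * (1 - ⟪x, y⟫))) = 0 := by
    field_simp
    ring
  rw [this, zero_smul, sub_zero]

theorem ix2a_R_inner (hx : ‖x‖ = 1) (hy : ‖y‖ = 1) (hxy : x ≠ y) (a b : E n) :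
    ⟪ix2R x y a, ix2R x y b⟫ = ⟪a, b⟫ := by
  rw [ix2a_R_symm, ix2a_R_R hx hy hxy]

theorem ix2a_R_x (hx : ‖x‖ = 1) (hy : ‖y‖ = 1) (hxy : x ≠ y) : ix2R x y x = y := by
  have hσ := ix2a_sig_pos hx hy hxy
  rw [ix2a_R_apply]
  have : (1 - ⟪x, y⟫)⁻¹ * ⟪x - y, x⟫ = 1 := by
    rw [inner_sub_left, real_inner_self_eq_norm_sq, hx, real_inner_comm x y]
    field_simp
  rw [this, one_smul]
  abel

theorem ix2a_R_y (hx : ‖x‖ = 1) (hy : ‖y‖ = 1) (hxy : x ≠ y) : ix2R x y y = x := by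
  have h := ix2a_R_R hx hy hxy x
  rwa [ix2a_R_x hx hy hxy] at h

/-- conjugation by the reflection does not change the trace. -/
theorem ix2a_R_tr (hx : ‖x‖ = 1) (hy : ‖y‖ = 1) (hxy : x ≠ y) (A : E n →L[ℝ] E n) :
    gmtSimTr ((ix2R x y).comp (A.comp (ix2R x y))) = gmtSimTr A := by
  rw [gmtSim_tr_eq_trace, gmtSim_tr_eq_trace]
  have e1 : (((ix2R x y).comp (A.comp (ix2R x y)) : E n →L[ℝ] E n) : E n →ₗ[ℝ] E n)
      = (ix2R x y : E n →ₗ[ℝ] E n) * ((A : E n →ₗ[ℝ] E n) * (ix2R x y : E n →ₗ[ℝ] E n)) := rfl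
  rw [e1, LinearMap.trace_mul_comm, mul_assoc]
  have e2 : (ix2R x y : E n →ₗ[ℝ] E n) * (ix2R x y : E n →ₗ[ℝ] E n) = 1 := by
    ext a : 1
    exact ix2a_R_R hx hy hxy a
  rw [e2, mul_one]

end refl

end Claimed.Agent.R323
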