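import Mathlib

/-!
# Row 323, block F1, file 1: ONE-VARIABLE CALCULUS along globally smooth curves.   (helper201; prefix `ix2c_`; Mathlib only)

All curves `c : ℝ → X` are `ContDiff ℝ ∞` on the whole line, so `deriv c`, `deriv (deriv c)`, ... are again smooth functions and every rule is an equality of functions.
* `ix2c_comp1`, `ix2c_comp2` : chain rule of order 1, 2 for `F ∘ c`, `F` smooth on an open set containing the curve.
* `ix2c_inner1/2/3`, `ix2c_mul2`, `ix2c_clm2` : Leibniz rules.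
* `ix2c_min2`, `ix2c_min3` : necessary conditions at a minimum (orders 2 and 3).
-/

set_option autoImplicit false
open scoped ContDiff RealInnerProductSpace Topology
open Set Filter

namespace Claimed.Agent.R323

section gen

variable {X Y : Type*} [NormedAddCommGroup X] [NormedSpace ℝ X] [NormedAddCommGroup Y] [NormedSpace ℝ Y]

theorem ix2c_deriv_smooth {c : ℝ → X} (hc : ContDiff ℝ ∞ c) : ContDiff ℝ ∞ (deriv c) :=
  (contDiff_infty_iff_deriv.1 hc).2

theorem ix2c_hasDerivAt {c : ℝ → X} (hc : ContDiff ℝ ∞ c) (t : ℝ) : HasDerivAt c (deriv c t) t :=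
  (hc.differentiable (by simp) t).hasDerivAt

/-- smoothness of `F ∘ c`. -/
theorem ix2c_comp_smooth {W : Set X} {F : X → Y} (hF : ContDiffOn ℝ ∞ F W)
    {c : ℝ → X} (hc : ContDiff ℝ ∞ c) (hcW : ∀ t, c t ∈ W) : ContDiff ℝ ∞ (fun t => F (c t)) :=
  hF.comp_contDiff hc hcW

/-- chain rule, order 1. -/
theorem ix2c_comp1 {W : Set X} (hW : IsOpen W) {F : X → Y} (hF : ContDiffOn ℝ ∞ F W)
    {c : ℝ → X} (hc : ContDiff ℝ ∞ c) (hcW : ∀ t, c t ∈ W) :
    deriv (fun t => F (c t)) = fun t => fderiv ℝ F (c t) (deriv c t) := by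
  funext t
  have h1 : HasFDerivAt F (fderiv ℝ F (c t)) (c t) :=
    ((hF.contDiffAt (hW.mem_nhds (hcW t))).differentiableAt (by simp)).hasFDerivAt
  exact (h1.comp_hasDerivAt t (ix2c_hasDerivAt hc t)).deriv

/-- Leibniz rule for the application of an operator valued curve. -/
theorem ix2c_clm1 {L : ℝ → X →L[ℝ] Y} {v : ℝ → X} (hL : ContDiff ℝ ∞ L) (hv : ContDiff ℝ ∞ v) :
    deriv (fun t => L t (v t)) = fun t => deriv L t (v t) + L t (deriv v t) := by
  funext t
  exact ((ix2c_hasDerivAt hL t).clm_apply (ix2c_hasDerivAt hv t)).deriv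

/-- chain rule, order 2. -/
theorem ix2c_comp2 {W : Set X} (hW : IsOpen W) {F : X → Y} (hF : ContDiffOn ℝ ∞ F W)
    {c : ℝ → X} (hc : ContDiff ℝ ∞ c) (hcW : ∀ t, c t ∈ W) :
    deriv (deriv (fun t => F (c t))) = fun t =>
      fderiv ℝ (fderiv ℝ F) (c t) (deriv c t) (deriv c t) + fderiv ℝ F (c t) (deriv (deriv c) t) := by
  have hF' : ContDiffOn ℝ ∞ (fderiv ℝ F) W := hF.fderiv_of_isOpen hW (by simp)
  rw [ix2c_comp1 hW hF hc hcW,
    ix2c_clm1 (ix2c_comp_smooth hF' hc hcW) (ix2c_deriv_smooth hc), ix2c_comp1 hW hF' hc hcW]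

theorem ix2c_add1 {f g : ℝ → X} (hf : ContDiff ℝ ∞ f) (hg : ContDiff ℝ ∞ g) :
    deriv (fun t => f t + g t) = fun t => deriv f t + deriv g t := by
  funext t
  exact ((ix2c_hasDerivAt hf t).add (ix2c_hasDerivAt hg t)).deriv

theorem ix2c_sub1 {f g : ℝ → X} (hf : ContDiff ℝ ∞ f) (hg : ContDiff ℝ ∞ g) :
    deriv (fun t => f t - g t) = fun t => deriv f t - deriv g t := by
  funext t
  exact ((ix2c_hasDerivAt hf t).sub (ix2c_hasDerivAt hg t)).deriv

theorem ix2c_const_mul1 (a : ℝ) {f : ℝ → ℝ} (hf : ContDiff ℝ ∞ f) :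
    deriv (fun t => a * f t) = fun t => a * deriv f t := by
  funext t
  exact ((ix2c_hasDerivAt hf t).const_mul a).deriv

theorem ix2c_mul1 {f g : ℝ → ℝ} (hf : ContDiff ℝ ∞ f) (hg : ContDiff ℝ ∞ g) :
    deriv (fun t => f t * g t) = fun t => deriv f t * g t + f t * deriv g t := by
  funext t
  exact ((ix2c_hasDerivAt hf t).mul (ix2c_hasDerivAt hg t)).deriv

theorem ix2c_mul2 {f g : ℝ → ℝ} (hf : ContDiff ℝ ∞ f) (hg : ContDiff ℝ ∞ g) :
    deriv (deriv (fun t => f t * g t)) = fun t =>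
      deriv (deriv f) t * g t + 2 * (deriv f t * deriv g t) + f t * deriv (deriv g) t := by
  have hf' := ix2c_deriv_smooth hf
  have hg' := ix2c_deriv_smooth hg
  rw [ix2c_mul1 hf hg, ix2c_add1 (hf'.mul hg) (hf.mul hg'), ix2c_mul1 hf' hg, ix2c_mul1 hf hg']
  funext t
  ring


theorem ix2c_clm_smooth {L : ℝ → X →L[ℝ] Y} {v : ℝ → X} (hL : ContDiff ℝ ∞ L) (hv : ContDiff ℝ ∞ v) :
    ContDiff ℝ ∞ (fun t => L t (v t)) := hL.clm_apply hv

theorem ix2c_clm2 {L : ℝ → X →L[ℝ] Y} {v : ℝ → X} (hL : ContDiff ℝ ∞ L) (hv : ContDiff ℝ ∞ v) :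
    deriv (deriv (fun t => L t (v t))) = fun t =>
      deriv (deriv L) t (v t) + (2 : ℝ) • deriv L t (deriv v t) + L t (deriv (deriv v) t) := by
  have hL' := ix2c_deriv_smooth hL
  have hv' := ix2c_deriv_smooth hv
  rw [ix2c_clm1 hL hv, ix2c_add1 (ix2c_clm_smooth hL' hv) (ix2c_clm_smooth hL hv'),
    ix2c_clm1 hL' hv, ix2c_clm1 hL hv']
  funext t
  simp only [two_smul]
  rw [add_assoc, add_assoc, add_assoc]

/-- the affine curve. -/
theorem ix2c_affine (v b : X) : ContDiff ℝ ∞ (fun t : ℝ => v + t • b) ∧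
    deriv (fun t : ℝ => v + t • b) = (fun _ => b) ∧ deriv (deriv (fun t : ℝ => v + t • b)) = fun _ => 0 := by
  have h1 : ContDiff ℝ ∞ (fun t : ℝ => v + t • b) := contDiff_const.add (contDiff_id.smul contDiff_const)
  have h2 : deriv (fun t : ℝ => v + t • b) = (fun _ => b) := by
    funext t
    have : HasDerivAt (fun t : ℝ => v + t • b) ((1 : ℝ) • b) t := ((hasDerivAt_id t).smul_const b).const_add v
    simpa using this.deriv
  refine ⟨h1, h2, ?_⟩
  rw [h2]
  funext t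
  simp

end gen

section inner

variable {X : Type*} [NormedAddCommGroup X] [InnerProductSpace ℝ X]

theorem ix2c_inner_smooth {f g : ℝ → X} (hf : ContDiff ℝ ∞ f) (hg : ContDiff ℝ ∞ g) :
    ContDiff ℝ ∞ (fun t => ⟪f t, g t⟫) := hf.inner ℝ hg

theorem ix2c_inner1 {f g : ℝ → X} (hf : ContDiff ℝ ∞ f) (hg : ContDiff ℝ ∞ g) :
    deriv (fun t => ⟪f t, g t⟫) = fun t => ⟪deriv f t, g t⟫ + ⟪f t, deriv g t⟫ := by
  funext t
  rw [((ix2c_hasDerivAt hf t).inner ℝ (ix2c_hasDerivAt hg t)).deriv, add_comm]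

theorem ix2c_inner2 {f g : ℝ → X} (hf : ContDiff ℝ ∞ f) (hg : ContDiff ℝ ∞ g) :
    deriv (deriv (fun t => ⟪f t, g t⟫)) = fun t =>
      ⟪deriv (deriv f) t, g t⟫ + 2 * ⟪deriv f t, deriv g t⟫ + ⟪f t, deriv (deriv g) t⟫ := by
  have hf' := ix2c_deriv_smooth hf
  have hg' := ix2c_deriv_smooth hg
  rw [ix2c_inner1 hf hg, ix2c_add1 (ix2c_inner_smooth hf' hg) (ix2c_inner_smooth hf hg'),
    ix2c_inner1 hf' hg, ix2c_inner1 hf hg']
  funext t
  ring

theorem ix2c_inner3 {f g : ℝ → X} (hf : ContDiff ℝ ∞ f) (hg : ContDiff ℝ ∞ g) :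
    deriv (deriv (deriv (fun t => ⟪f t, g t⟫))) = fun t =>
      ⟪deriv (deriv (deriv f)) t, g t⟫ + 3 * ⟪deriv (deriv f) t, deriv g t⟫ + 3 * ⟪deriv f t, deriv (deriv g) t⟫
        + ⟪f t, deriv (deriv (deriv g)) t⟫ := by
  have hf' := ix2c_deriv_smooth hf
  have hg' := ix2c_deriv_smooth hg
  have hf'' := ix2c_deriv_smooth hf'
  have hg'' := ix2c_deriv_smooth hg'
  rw [ix2c_inner2 hf hg,
    ix2c_add1 ((ix2c_inner_smooth hf'' hg).add (contDiff_const.mul (ix2c_inner_smooth hf' hg')))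
      (ix2c_inner_smooth hf hg''),
    ix2c_add1 (ix2c_inner_smooth hf'' hg) (contDiff_const.mul (ix2c_inner_smooth hf' hg')),
    ix2c_const_mul1 2 (ix2c_inner_smooth hf' hg'),
    ix2c_inner1 hf'' hg, ix2c_inner1 hf' hg', ix2c_inner1 hf hg'']
  funext t
  ring


theorem ix2c_inner_const1 (w : X) {c : ℝ → X} (hc : ContDiff ℝ ∞ c) :
    deriv (fun t => ⟪w, c t⟫) = fun t => ⟪w, deriv c t⟫ := by
  rw [ix2c_inner1 contDiff_const hc]
  funext t
  simp

theorem ix2c_inner_const_smooth (w : X) {c : ℝ → X} (hc : ContDiff ℝ ∞ c) :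
    ContDiff ℝ ∞ (fun t => ⟪w, c t⟫) := ix2c_inner_smooth contDiff_const hc

end inner


theorem ix2c_const_sub1 (a : ℝ) {f : ℝ → ℝ} (hf : ContDiff ℝ ∞ f) :
    deriv (fun t => a - f t) = fun t => - deriv f t := by
  funext t
  exact ((ix2c_hasDerivAt hf t).const_sub a).deriv

theorem ix2c_neg_fun1 {f : ℝ → ℝ} (hf : ContDiff ℝ ∞ f) :
    deriv (fun t => - f t) = fun t => - deriv f t := by
  funext t
  exact ((ix2c_hasDerivAt hf t).neg).deriv

/-! ### minima -/

/-- second order necessary condition. -/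
theorem ix2c_min2 {g : ℝ → ℝ} (hg : ContDiff ℝ ∞ g) (hmin : ∀ t, g 0 ≤ g t) :
    deriv g 0 = 0 ∧ 0 ≤ deriv (deriv g) 0 := by
  have h1 : deriv g 0 = 0 := (IsLocalMin.deriv_eq_zero (Filter.Eventually.of_forall hmin))
  refine ⟨h1, ?_⟩
  by_contra hneg
  push Not at hneg
  have hmax : IsLocalMax g 0 :=
    isLocalMax_of_deriv_deriv_neg hneg h1 hg.continuous.continuousAt
  have hconst : ∀ᶠ t in 𝓝 (0 : ℝ), g t = g 0 := by
    filter_upwards [hmax] with t ht
    exact le_antisymm ht (hmin t)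
  have hd : deriv g =ᶠ[𝓝 0] fun _ => 0 := by
    have h2 : ∀ᶠ t in 𝓝 (0 : ℝ), g =ᶠ[𝓝 t] fun _ => g 0 := hconst.eventually_nhds
    filter_upwards [h2] with t ht
    rw [ht.deriv_eq]
    simp
  have : deriv (deriv g) 0 = 0 := by
    rw [hd.deriv_eq]
    simp
  linarith

/-- one sided version of the third order condition. -/
theorem ix2c_min3_aux {g : ℝ → ℝ} (hg : ContDiff ℝ ∞ g) (hmin : ∀ t, 0 ≤ g t) (h0 : g 0 = 0)
    (h1 : deriv g 0 = 0) (h2 : deriv (deriv g) 0 = 0) : 0 ≤ deriv (deriv (deriv g)) 0 := by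
  by_contra hneg
  push Not at hneg
  have hg1 := ix2c_deriv_smooth hg
  have hg2 := ix2c_deriv_smooth hg1
  have hg3 := ix2c_deriv_smooth hg2
  have hev : ∀ᶠ t in 𝓝 (0 : ℝ), deriv (deriv (deriv g)) t < 0 :=
    hg3.continuous.continuousAt.eventually (gt_mem_nhds hneg)
  obtain ⟨δ, hδ, hball⟩ := Metric.eventually_nhds_iff.1 hev
  obtain ⟨r, hr⟩ : ∃ r : ℝ, r = δ / 2 := ⟨_, rfl⟩
  have hr0 : 0 < r := by rw [hr]; positivity
  have hin : ∀ t ∈ Icc (0 : ℝ) r, deriv (deriv (deriv g)) t < 0 := by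
    intro t ht
    apply hball
    rw [Real.dist_eq, sub_zero, abs_of_nonneg ht.1]
    have := ht.2
    rw [hr] at this
    linarith
  have a2 : StrictAntiOn (deriv (deriv g)) (Icc 0 r) :=
    strictAntiOn_of_deriv_neg (convex_Icc 0 r) hg2.continuous.continuousOn
      (fun t ht => hin t (interior_subset ht))
  have b2 : ∀ t ∈ Ioc (0 : ℝ) r, deriv (deriv g) t < 0 := by
    intro t ht
    have := a2 (left_mem_Icc.2 hr0.le) ⟨ht.1.le, ht.2⟩ ht.1
    rwa [h2] at this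
  have a1 : StrictAntiOn (deriv g) (Icc 0 r) :=
    strictAntiOn_of_deriv_neg (convex_Icc 0 r) hg1.continuous.continuousOn
      (fun t ht => by
        rw [interior_Icc] at ht
        exact b2 t ⟨ht.1, ht.2.le⟩)
  have b1 : ∀ t ∈ Ioc (0 : ℝ) r, deriv g t < 0 := by
    intro t ht
    have := a1 (left_mem_Icc.2 hr0.le) ⟨ht.1.le, ht.2⟩ ht.1
    rwa [h1] at this
  have a0 : StrictAntiOn g (Icc 0 r) :=
    strictAntiOn_of_deriv_neg (convex_Icc 0 r) hg.continuous.continuousOn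
      (fun t ht => by
        rw [interior_Icc] at ht
        exact b1 t ⟨ht.1, ht.2.le⟩)
  have := a0 (left_mem_Icc.2 hr0.le) (right_mem_Icc.2 hr0.le) hr0
  rw [h0] at this
  exact absurd (hmin r) (not_le.2 this)

theorem ix2c_neg1 {g : ℝ → ℝ} : deriv (fun t => g (-t)) = fun t => - deriv g (-t) := by
  funext t
  exact deriv_comp_neg g t

/-- third order necessary condition: a nonnegative smooth function with vanishing `2`-jet has vanishing third derivative. -/
theorem ix2c_min3 {g : ℝ → ℝ} (hg : ContDiff ℝ ∞ g) (hmin : ∀ t, 0 ≤ g t) (h0 : g 0 = 0)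
    (h2 : deriv (deriv g) 0 = 0) : deriv (deriv (deriv g)) 0 = 0 := by
  have h1 : deriv g 0 = 0 := (ix2c_min2 hg (fun t => by rw [h0]; exact hmin t)).1
  have hA := ix2c_min3_aux hg hmin h0 h1 h2
  have hgn : ContDiff ℝ ∞ (fun t => g (-t)) := hg.comp contDiff_neg
  have e1 : deriv (fun t => g (-t)) = fun t => - deriv g (-t) := ix2c_neg1
  have e2 : deriv (deriv (fun t => g (-t))) = fun t => deriv (deriv g) (-t) := by
    rw [e1]
    funext t
    have : deriv (fun t => - deriv g (-t)) t = - deriv (fun t => deriv g (-t)) t := deriv.fun_neg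
    rw [this, ix2c_neg1]
    simp
  have e3 : deriv (deriv (deriv (fun t => g (-t)))) = fun t => - deriv (deriv (deriv g)) (-t) := by
    rw [e2, ix2c_neg1]
  have hB := ix2c_min3_aux hgn (fun t => hmin (-t)) (by simpa using h0) (by rw [e1]; simpa using h1)
    (by rw [e2]; simpa using h2)
  rw [e3] at hB
  simp only [neg_zero] at hB
  linarith

end Claimed.Agent.R323
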