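import Claimed.Agent.R323.Ix.TwoDP

/-!
# Row 323, block F1, file 7: DIAGONAL CONTACT.   (helper201; prefix `ix2g_`)
Notes `F1F2_h201.md`, section DG.
-/

set_option autoImplicit false
open scoped ContDiff ENNReal RealInnerProductSpace Topology
open MeasureTheory Metric Set Filter

namespace Claimed.Agent.R323

open Claimed.Agent.Gmt

variable {n : ℕ} {Sg U W : Set (E n)} {u φ : E n → ℝ}

/-- the projection `ix2Pr` as a continuous linear map. -/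
noncomputable def ix2PrL (x ν : E n) : E n →L[ℝ] E n :=
  ContinuousLinearMap.id ℝ (E n) - (innerSL ℝ ν).smulRight ν - (innerSL ℝ x).smulRight x

theorem ix2PrL_eqns_cite : True := by
  have := @ix2PrL.eq_1
  trivial

theorem ix2g_PrL_apply (x ν w : E n) : ix2PrL x ν w = ix2Pr x ν w := by
  simp [ix2PrL, ix2Pr, real_inner_comm]

/-- the choice of the second component of the test direction. -/
theorem ix2g_term (hT : Ix2Tube n Sg U u) {x : E n} (hx : x ∈ Sg) {s : ℝ} (hs : s ^ 2 = 1) (hφx : 0 < φ x)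
    (hle : ∀ a, ⟪ix2B u φ s x a, a⟫ ≤ 2 * φ x * ‖a‖ ^ 2)
    {v : E n} (hv : Ix2Tan u x v) (hhv : gmtSimH u x v = (-(s * φ x)) • v)
    (e g : E n) :
    ∃ b : E n, 4 * ⟪g, e⟫ * ⟪b, v⟫ + 2 * φ x * ⟪b, b⟫
        + s * (4 * ⟪ix2T u x e v, b⟫ + 2 * ⟪gmtSimH u x b, b⟫)
      ≤ - (‖ix2Pr x (gradient u x) (⟪g, e⟫ • v + s • ix2T u x e v)‖ ^ 2 / φ x)
        - (2 * φ x ^ 3 + 2 * φ x) * ⟪v, e⟫ ^ 2 := by
  have onx := ix2t_on hT hx
  have hxU := ix2t_memU hT hx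
  obtain ⟨w, hw⟩ : ∃ w, w = ix2Pr x (gradient u x) (⟪g, e⟫ • v + s • ix2T u x e v) := ⟨_, rfl⟩
  obtain ⟨c, hc⟩ : ∃ c : ℝ, c = ⟪v, e⟫ := ⟨_, rfl⟩
  obtain ⟨ι, hι⟩ : ∃ ι : ℝ, ι = (φ x)⁻¹ := ⟨_, rfl⟩
  have hιφ : ι * φ x = 1 := by rw [hι]; field_simp
  have hwt : Ix2Tan u x w := by rw [hw]; exact ix2t_pr_tan hT hx _
  rw [← hw, ← hc]
  refine ⟨(-(ι / 2)) • w + (s * φ x * c) • gradient u x + (-c) • x, ?_⟩
  have hNv : ⟪gradient u x, v⟫ = 0 := by rw [real_inner_comm]; exact hv.2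
  have hxv : ⟪x, v⟫ = 0 := by rw [real_inner_comm]; exact hv.1
  have hNw : ⟪gradient u x, w⟫ = 0 := by rw [real_inner_comm]; exact hwt.2
  have hxw : ⟪x, w⟫ = 0 := by rw [real_inner_comm]; exact hwt.1
  have i1 : ⟪(-(ι / 2)) • w + (s * φ x * c) • gradient u x + (-c) • x, v⟫ = -(ι / 2) * ⟪w, v⟫ := by
    simp only [inner_add_left, inner_smul_left, hNv, hxv, RCLike.conj_to_real]
    ring
  have i2 : ⟪(-(ι / 2)) • w + (s * φ x * c) • gradient u x + (-c) • x,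
      (-(ι / 2)) • w + (s * φ x * c) • gradient u x + (-c) • x⟫
      = (ι / 2) ^ 2 * ‖w‖ ^ 2 + (s * φ x * c) ^ 2 + c ^ 2 := by
    simp only [inner_add_left, inner_add_right, inner_smul_left, inner_smul_right, hNw, hxw, hwt.1, hwt.2,
      onx.xx, onx.nn, onx.xn, onx.nx, RCLike.conj_to_real, real_inner_self_eq_norm_sq]
    ring
  have hhe : ⟪gmtSimH u x e, v⟫ = -(s * φ x) * c := by
    rw [ix2k_H_symm hT hxU, hhv, inner_smul_right, real_inner_comm v e, hc]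
  have j1 : ⟪ix2T u x e v, gradient u x⟫ = - φ x ^ 2 * c := by
    rw [ix2k_T_symm23 hT hxU, ix2k_T_N hT hxU, inner_neg_left, ix2k_H_symm hT hxU, hhv, inner_smul_right, hhe]
    linear_combination (- φ x ^ 2 * c) * hs
  have j2 : ⟪ix2T u x e v, x⟫ = s * φ x * c := by
    rw [ix2k_T_symm23 hT hxU, ix2k_T_x hT hxU, inner_neg_left, hhe]
    ring
  have i3 : ⟪ix2T u x e v, (-(ι / 2)) • w + (s * φ x * c) • gradient u x + (-c) • x⟫
      = -(ι / 2) * ⟪ix2T u x e v, w⟫ - s * φ x ^ 3 * c ^ 2 - s * φ x * c ^ 2 := by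
    simp only [inner_add_right, inner_smul_right, j1, j2]
    ring
  have hhb : gmtSimH u x ((-(ι / 2)) • w + (s * φ x * c) • gradient u x + (-c) • x)
      = (-(ι / 2)) • gmtSimH u x w := by
    simp only [map_add, map_smul, ix2k_H_N hT hxU, ix2k_H_x hT hxU, smul_zero, add_zero]
  have hhwt := ix2t_H_tan hT hx w
  have i4 : ⟪gmtSimH u x ((-(ι / 2)) • w + (s * φ x * c) • gradient u x + (-c) • x),
      (-(ι / 2)) • w + (s * φ x * c) • gradient u x + (-c) • x⟫ = (ι / 2) ^ 2 * ⟪gmtSimH u x w, w⟫ := by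
    rw [hhb]
    simp only [inner_add_right, inner_smul_left, inner_smul_right, hhwt.1, hhwt.2, RCLike.conj_to_real]
    ring
  have i5 : ‖w‖ ^ 2 = ⟪g, e⟫ * ⟪w, v⟫ + s * ⟪ix2T u x e v, w⟫ := by
    rw [← real_inner_self_eq_norm_sq]
    conv_lhs => rw [hw, ix2a_pr_inner onx, ← hw]
    rw [inner_add_right, inner_smul_right, inner_smul_right, real_inner_comm w (ix2T u x e v)]
  have i6 := hle w
  rw [ix2p_B_inner, real_inner_self_eq_norm_sq] at i6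
  rw [i1, i2, i3, i4]
  have i7 : ι ^ 2 * (φ x * ‖w‖ ^ 2 + s * ⟪gmtSimH u x w, w⟫) ≤ ι ^ 2 * (2 * φ x * ‖w‖ ^ 2) :=
    mul_le_mul_of_nonneg_left i6 (sq_nonneg _)
  have i8 : ‖w‖ ^ 2 / φ x = ι * ‖w‖ ^ 2 := by rw [hι]; field_simp
  rw [i8]
  have i9 : ι ^ 2 * (2 * φ x * ‖w‖ ^ 2) = 2 * ι * ‖w‖ ^ 2 := by
    linear_combination (2 * ι * ‖w‖ ^ 2) * hιφ
  rw [i9] at i7
  have e1 : 4 * ⟪g, e⟫ * (-(ι / 2) * ⟪w, v⟫) + 2 * φ x * ((ι / 2) ^ 2 * ‖w‖ ^ 2 + (s * φ x * c) ^ 2 + c ^ 2)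
      + s * (4 * (-(ι / 2) * ⟪ix2T u x e v, w⟫ - s * φ x ^ 3 * c ^ 2 - s * φ x * c ^ 2)
        + 2 * ((ι / 2) ^ 2 * ⟪gmtSimH u x w, w⟫))
      = - 2 * ι * ‖w‖ ^ 2 + ι ^ 2 * (φ x * ‖w‖ ^ 2 + s * ⟪gmtSimH u x w, w⟫) / 2
        - (2 * φ x ^ 3 + 2 * φ x) * c ^ 2 := by
    linear_combination (2 * ι) * i5 + (2 * φ x ^ 3 * c ^ 2 - 4 * φ x ^ 3 * c ^ 2 - 4 * φ x * c ^ 2) * hs
  rw [e1]
  linarith

set_option maxHeartbeats 1600000 in
/-- **(DG)** the differential inequality at a diagonal contact. -/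
theorem ix2g_main (hT : Ix2Tube n Sg U u) (hW : IsOpen W) (hSW : Sg ⊆ W) (hφ : ContDiffOn ℝ ∞ φ W)
    (hpos : ∀ x ∈ Sg, 0 < φ x) {s : ℝ} (hs : s ^ 2 = 1)
    (hZ : ∀ x ∈ Sg, ∀ y ∈ Sg, 0 ≤ ix2Z u φ s x y) (hZ' : ∀ x ∈ Sg, ∀ y ∈ Sg, 0 ≤ ix2Z u φ (-s) x y)
    {x v : E n} (hx : x ∈ Sg) (hv : Ix2Tan u x v) (hv1 : ‖v‖ = 1) (h0 : φ x + s * ⟪gmtSimH u x v, v⟫ = 0) :
    ix2GT u φ x / φ x ≤ ix2LS u φ x + (gmtSimA u x - ((n : ℝ) - 2)) * φ x := by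
  have onx := ix2t_on hT hx
  have hxU := ix2t_memU hT hx
  have hφx := hpos x hx
  have hvv : ⟪v, v⟫ = 1 := by rw [real_inner_self_eq_norm_sq, hv1]; norm_num
  have hG : ∀ x ∈ Sg, ∀ V : E n, 0 ≤ φ x * ⟪V, V⟫ + s * ⟪gmtSimH u x V, V⟫ := by
    intro x hx V
    rw [real_inner_self_eq_norm_sq]
    exact ix2t_eb' hT hx (hpos x hx).le (hZ x hx) V
  have h0' : φ x * ⟪v, v⟫ + s * ⟪gmtSimH u x v, v⟫ = 0 := by rw [hvv]; linarith
  have hBv : ix2B u φ s x v = 0 := by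
    refine ix2a_ker (ix2p_B_symm hT hx s) (ix2p_B_nonneg hT hx hφx.le (hZ x hx)) ?_
    rw [ix2p_B_inner]; exact h0'
  rw [ix2p_B_apply] at hBv
  have hhv : gmtSimH u x v = (-(s * φ x)) • v := by
    have h1 : s • (φ x • v + s • gmtSimH u x v) = 0 := by rw [hBv, smul_zero]
    rw [smul_add, smul_smul, smul_smul, ← sq, hs, one_smul] at h1
    rw [neg_smul]
    exact eq_neg_of_add_eq_zero_right h1
  have hle := ix2p_B_le hT hx hφx.le (hZ' x hx)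
  obtain ⟨g, hg⟩ : ∃ g : E n, g = gradient φ x := ⟨_, rfl⟩
  obtain ⟨e, he⟩ : ∃ e : Fin n → E n, e = fun i => ix2Pr x (gradient u x) (eb i) := ⟨_, rfl⟩
  have het : ∀ i, Ix2Tan u x (e i) := fun i => by rw [he]; exact ix2t_pr_tan hT hx _
  obtain ⟨M, hM⟩ : ∃ M : E n →L[ℝ] E n, M = (ix2PrL x (gradient u x)).comp
      ((innerSL ℝ g).smulRight v + s • (ix2T u x).flip v) := ⟨_, rfl⟩
  have hMa : ∀ a, M a = ix2Pr x (gradient u x) (⟪g, a⟫ • v + s • ix2T u x a v) := by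
    intro a
    rw [hM, ContinuousLinearMap.comp_apply, ix2g_PrL_apply]
    simp
  have hhvv : ⟪gmtSimH u x v, v⟫ = -(s * φ x) := by rw [hhv, inner_smul_left, hvv]; simp
  have term : ∀ i, 0 ≤ ⟪gmtSimH φ x (e i), e i⟫
      - ⟪gmtSimH u x (e i), e i⟫ * (⟪g, gradient u x⟫ * 1 + s * ⟪ix2T u x (gradient u x) v, v⟫)
      - ‖e i‖ ^ 2 * (⟪g, x⟫ + φ x) + s * ⟪ix2Q u x (e i) (e i) v, v⟫
      - ‖M (e i)‖ ^ 2 / φ x - (2 * φ x ^ 3 + 2 * φ x) * (⟪e i, v⟫ * (innerSL ℝ v) (e i)) := by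
    intro i
    obtain ⟨b, hb⟩ := ix2g_term hT hx hs hφx hle hv hhv (e i) g
    have so := ix2t_dg_so hT hW hSW hφ hG hx h0' (het i) b
    rw [hvv, ← hg, hhvv] at so
    rw [hMa, innerSL_apply_apply, real_inner_comm v (e i)]
    have : s * -(s * φ x) = - φ x := by linear_combination (- φ x) * hs
    rw [this] at so
    nlinarith [so, hb]
  have hsum := Finset.sum_nonneg (s := Finset.univ) fun i _ => term i
  simp only [Finset.sum_add_distrib, Finset.sum_sub_distrib, ← Finset.sum_mul, ← Finset.mul_sum,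
    ← Finset.sum_div] at hsum
  have S1 : ∑ i, ⟪gmtSimH φ x (e i), e i⟫ = gmtSimTr (gmtSimH φ x)
      - ⟪gmtSimH φ x (gradient u x), gradient u x⟫ - ⟪gmtSimH φ x x, x⟫ := by
    rw [he]; exact ix2a_tr onx _
  have S2 : ∑ i, ⟪gmtSimH u x (e i), e i⟫ = 0 := by rw [he]; exact ix2r_trH hT hx
  have S3 : ∑ i, ‖e i‖ ^ 2 = (n : ℝ) - 2 := by rw [he]; exact ix2a_tr_one onx
  have S4 : ∑ i, ⟪ix2Q u x (e i) (e i) v, v⟫ = - gmtSimA u x * ⟪gmtSimH u x v, v⟫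
      - 2 * ⟪gmtSimH u x (gmtSimH u x v), gmtSimH u x v⟫ - 2 * ⟪gmtSimH u x v, v⟫ := by
    rw [he]; exact ix2r_T4 hT hx hv
  have S5 : ∑ i, ⟪e i, v⟫ * (innerSL ℝ v) (e i) = 1 := by
    rw [he, ix2a_parseval_L onx, ix2a_pr_of_tan hv.1 hv.2, innerSL_apply_apply, hvv]
  have S6 : ‖M v‖ ^ 2 ≤ ∑ i, ‖M (e i)‖ ^ 2 := by rw [he]; exact ix2a_hs onx M hv1 hv.1 hv.2
  have hhhv : ⟪gmtSimH u x (gmtSimH u x v), gmtSimH u x v⟫ = -(s * φ x) ^ 3 := by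
    rw [hhv, map_smul, hhv, inner_smul_left, inner_smul_left, inner_smul_right, hvv]
    simp only [RCLike.conj_to_real]
    ring
  rw [S1, S2, S3, S4, S5, hhhv, hhvv] at hsum
  -- `M v = - P ∇φ`
  have hto := ix2t_to hT hx (hZ x hx) hv hBv
  have fov := ix2t_dg_fo hT hW hSW hφ hG hx h0' hv
  rw [hvv, hto, ← hg] at fov
  have hgv : ⟪g, v⟫ = 0 := by linarith
  have hMv : M v = - ix2Pr x (gradient u x) g := by
    rw [hMa, hgv, zero_smul, zero_add, ← ix2a_pr_neg]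
    refine ext_inner_right ℝ fun a => ?_
    rw [ix2a_pr_symm, ix2a_pr_symm]
    have f1 := ix2t_dg_fo hT hW hSW hφ hG hx h0' (ix2t_pr_tan hT hx a)
    rw [hvv, ← hg, ix2k_T_symm12 hT hxU, ix2k_T_symm23 hT hxU] at f1
    rw [inner_smul_left, inner_neg_left]
    simp only [RCLike.conj_to_real]
    linarith
  have hGT : ‖M v‖ ^ 2 = ix2GT u φ x := by
    rw [hMv, norm_neg, ix2a_pr_norm_sq onx, hg]
    rfl
  rw [hGT] at S6
  have S7 : ix2GT u φ x / φ x ≤ (∑ i, ‖M (e i)‖ ^ 2) / φ x := div_le_div_of_nonneg_right S6 hφx.le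
  refine S7.trans ?_
  unfold ix2LS
  rw [← hg]
  have e1 : s * (-gmtSimA u x * -(s * φ x) - 2 * -(s * φ x) ^ 3 - 2 * -(s * φ x))
      = gmtSimA u x * φ x + 2 * φ x ^ 3 + 2 * φ x := by
    have hs4 : s ^ 4 = 1 := by
      have : s ^ 4 = (s ^ 2) ^ 2 := by ring
      rw [this, hs]; norm_num
    linear_combination (gmtSimA u x * φ x + 2 * φ x) * hs + (2 * φ x ^ 3) * hs4
  rw [e1] at hsum
  linarith

end Claimed.Agent.R323
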