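import Claimed.Agent.R323.Ix.TwoTr

/-!
# Row 323, block F1, file 6: CONTACT AT TWO DISTINCT POINTS.   (helper201; prefix `ix2p_`)
Notes `F1F2_h201.md`, section DP.
-/

set_option autoImplicit false
open scoped ContDiff ENNReal RealInnerProductSpace Topology
open MeasureTheory Metric Set Filter

namespace Claimed.Agent.R323

open Claimed.Agent.Gmt

variable {n : ℕ} {Sg U W : Set (E n)} {u φ : E n → ℝ}

/-- the operator `B = φ(x) + s h_x`. -/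
noncomputable def ix2B (u φ : E n → ℝ) (s : ℝ) (x : E n) : E n →L[ℝ] E n :=
  φ x • ContinuousLinearMap.id ℝ (E n) + s • gmtSimH u x

theorem ix2B_eqns_cite : True := by
  have := @ix2B.eq_1
  trivial

theorem ix2p_B_apply (u φ : E n → ℝ) (s : ℝ) (x a : E n) : ix2B u φ s x a = φ x • a + s • gmtSimH u x a := by
  simp [ix2B]

theorem ix2p_B_inner (u φ : E n → ℝ) (s : ℝ) (x a b : E n) :
    ⟪ix2B u φ s x a, b⟫ = φ x * ⟪a, b⟫ + s * ⟪gmtSimH u x a, b⟫ := by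
  rw [ix2p_B_apply, inner_add_left, inner_smul_left, inner_smul_left]; rfl

theorem ix2p_B_symm (hT : Ix2Tube n Sg U u) {x : E n} (hx : x ∈ Sg) (s : ℝ) (a b : E n) :
    ⟪ix2B u φ s x a, b⟫ = ⟪a, ix2B u φ s x b⟫ := by
  rw [ix2p_B_inner, real_inner_comm (ix2B u φ s x b) a, ix2p_B_inner, ix2k_H_symm hT (ix2t_memU hT hx),
    real_inner_comm a b, real_inner_comm a (gmtSimH u x b)]

/-- `0 ≤ B`. -/
theorem ix2p_B_nonneg (hT : Ix2Tube n Sg U u) {s : ℝ} {x : E n} (hx : x ∈ Sg) (hφ0 : 0 ≤ φ x)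
    (hZ : ∀ y ∈ Sg, 0 ≤ ix2Z u φ s x y) (a : E n) : 0 ≤ ⟪ix2B u φ s x a, a⟫ := by
  rw [ix2p_B_inner, real_inner_self_eq_norm_sq]
  exact ix2t_eb' hT hx hφ0 hZ a

/-- `B ≤ 2 φ`. -/
theorem ix2p_B_le (hT : Ix2Tube n Sg U u) {s : ℝ} {x : E n} (hx : x ∈ Sg) (hφ0 : 0 ≤ φ x)
    (hZ : ∀ y ∈ Sg, 0 ≤ ix2Z u φ (-s) x y) (a : E n) : ⟪ix2B u φ s x a, a⟫ ≤ 2 * φ x * ‖a‖ ^ 2 := by
  rw [ix2p_B_inner, real_inner_self_eq_norm_sq]
  have := ix2t_eb' hT hx hφ0 hZ a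
  linarith

/-- geometry of a contact: the reflection maps the tangent space at `x` onto the tangent space at `y`, and `h_y (R N_x) = 0`. -/
theorem ix2p_refl (hT : Ix2Tube n Sg U u) (hW : IsOpen W) (hSW : Sg ⊆ W) (hφ : ContDiffOn ℝ ∞ φ W) {s : ℝ}
    (hs : s ^ 2 = 1) (hZ : ∀ x ∈ Sg, ∀ y ∈ Sg, 0 ≤ ix2Z u φ s x y) {x y : E n} (hx : x ∈ Sg) (hy : y ∈ Sg)
    (hxy : x ≠ y) (h0 : ix2Z u φ s x y = 0) :
    (∀ e, Ix2Tan u x e → Ix2Tan u y (ix2R x y e)) ∧ gmtSimH u y (ix2R x y (gradient u x)) = 0 := by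
  have onx := ix2t_on hT hx
  have ony := ix2t_on hT hy
  have hσ := ix2a_sig_pos onx.x1 ony.x1 hxy
  have hs0 : s ≠ 0 := by
    intro h; rw [h] at hs; norm_num at hs
  have hz : φ x * (1 - ⟪x, y⟫) - s * ⟪gradient u x, y⟫ = 0 := h0
  -- `s R N = s N + φ (x - y)`
  have hRN : s • ix2R x y (gradient u x) = s • gradient u x + φ x • (x - y) := by
    rw [ix2a_R_apply, smul_sub, smul_smul, sub_eq_add_neg, ← neg_smul]
    congr 2
    rw [inner_sub_left, onx.xn, real_inner_comm (gradient u x) y]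
    have : s * ⟪gradient u x, y⟫ = φ x * (1 - ⟪x, y⟫) := by linarith
    field_simp
    linarith
  -- `R N` is orthogonal to the tangent space at `y`
  have hA : ∀ e', Ix2Tan u y e' → ⟪ix2R x y (gradient u x), e'⟫ = 0 := by
    intro e' he'
    have h1 := ix2t_dp_fo_y hT hW hSW hφ hZ hx hy h0 he'
    have h2 : ⟪s • ix2R x y (gradient u x), e'⟫ = 0 := by
      rw [hRN, inner_add_left, inner_smul_left, inner_smul_left, inner_sub_left, real_inner_comm e' y, he'.1]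
      simp only [RCLike.conj_to_real]
      linarith
    rw [inner_smul_left] at h2
    exact (mul_eq_zero.1 h2).resolve_left hs0
  have hP : ix2Pr y (gradient u y) (ix2R x y (gradient u x)) = 0 := by
    rw [← inner_self_eq_zero (𝕜 := ℝ), ix2a_pr_symm]
    exact hA _ (ix2t_pr_tan hT hy _)
  have hBy : ⟪ix2R x y (gradient u x), y⟫ = 0 := by
    rw [ix2a_R_symm, ix2a_R_y onx.x1 ony.x1 hxy, onx.nx]
  have hdec : ix2R x y (gradient u x) = ⟪ix2R x y (gradient u x), gradient u y⟫ • gradient u y := by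
    conv_lhs => rw [ix2a_decomp y (gradient u y) (ix2R x y (gradient u x)), hP, hBy]
    simp
  have hκ : ⟪ix2R x y (gradient u x), gradient u y⟫ ≠ 0 := by
    intro h
    rw [h, zero_smul] at hdec
    have h1 := ix2a_R_inner onx.x1 ony.x1 hxy (gradient u x) (gradient u x)
    rw [hdec, onx.nn] at h1
    simp at h1
  constructor
  · intro e he
    constructor
    · rw [ix2a_R_symm, ix2a_R_y onx.x1 ony.x1 hxy]; exact he.1
    · have h1 := ix2a_R_inner onx.x1 ony.x1 hxy e (gradient u x)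
      rw [he.2, hdec, inner_smul_right] at h1
      exact (mul_eq_zero.1 h1).resolve_left hκ
  · rw [← ix2t_H_pr hT hy, hP, map_zero]

set_option maxHeartbeats 1600000 in
/-- **(DP)** the differential inequality at a contact of two distinct points. -/
theorem ix2p_main (hT : Ix2Tube n Sg U u) (hW : IsOpen W) (hSW : Sg ⊆ W) (hφ : ContDiffOn ℝ ∞ φ W)
    (hpos : ∀ x ∈ Sg, 0 < φ x) {s : ℝ} (hs : s ^ 2 = 1)
    (hZ : ∀ x ∈ Sg, ∀ y ∈ Sg, 0 ≤ ix2Z u φ s x y) (hZ' : ∀ x ∈ Sg, ∀ y ∈ Sg, 0 ≤ ix2Z u φ (-s) x y)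
    {x y : E n} (hx : x ∈ Sg) (hy : y ∈ Sg) (hxy : x ≠ y) (h0 : ix2Z u φ s x y = 0) :
    ix2GT u φ x / φ x ≤ ix2LS u φ x + (gmtSimA u x - ((n : ℝ) - 2)) * φ x := by
  have onx := ix2t_on hT hx
  have ony := ix2t_on hT hy
  have hxU := ix2t_memU hT hx
  have hyU := ix2t_memU hT hy
  have hσ := ix2a_sig_pos onx.x1 ony.x1 hxy
  have hφx := hpos x hx
  have hz : φ x * (1 - ⟪x, y⟫) - s * ⟪gradient u x, y⟫ = 0 := h0
  obtain ⟨hRtan, hRN⟩ := ix2p_refl hT hW hSW hφ hs hZ hx hy hxy h0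
  obtain ⟨σ, hσd⟩ : ∃ σ : ℝ, σ = 1 - ⟪x, y⟫ := ⟨_, rfl⟩
  rw [← hσd] at hσ hz
  obtain ⟨e, he⟩ : ∃ e : Fin n → E n, e = fun i => ix2Pr x (gradient u x) (eb i) := ⟨_, rfl⟩
  have het : ∀ i, Ix2Tan u x (e i) := fun i => by rw [he]; exact ix2t_pr_tan hT hx _
  obtain ⟨K, hK⟩ : ∃ K : E n →L[ℝ] E n, K = (ix2R x y).comp ((gmtSimH u y).comp (ix2R x y)) := ⟨_, rfl⟩
  -- termwise form of the second order condition
  have term : ∀ i, 0 ≤ ⟪gmtSimH φ x (e i), e i⟫ * σ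
      - ⟪gmtSimH u x (e i), e i⟫ * (⟪gradient φ x, gradient u x⟫ * σ - φ x * ⟪gradient u x, y⟫)
      - ‖e i‖ ^ 2 * (⟪gradient φ x, x⟫ * σ - φ x * ⟪x, y⟫)
      - 4 * (⟪e i, y⟫ * (innerSL ℝ (gradient φ x)) (e i))
      - 2 * φ x * (‖e i‖ ^ 2 - σ⁻¹ * (⟪e i, y⟫ * (innerSL ℝ y) (e i)))
      - s * ⟪ix2T u x (e i) (e i), y⟫
      - 2 * s * (⟪gmtSimH u x (e i), e i⟫ - σ⁻¹ * (⟪e i, y⟫ * ((innerSL ℝ y).comp (gmtSimH u x)) (e i)))
      + ⟪K (e i), e i⟫ * (φ x * ⟪x, gradient u y⟫ + s * ⟪gradient u x, gradient u y⟫)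
      + ‖e i‖ ^ 2 * φ x := by
    intro i
    have so := ix2t_dp_so hT hW hSW hφ hZ hx hy h0 (het i) (hRtan _ (het i))
    have t1 : ⟪x, ix2R x y (e i)⟫ = ⟪e i, y⟫ := by
      rw [← ix2a_R_symm, ix2a_R_x onx.x1 ony.x1 hxy, real_inner_comm]
    have hxe : ⟪x - y, e i⟫ = - ⟪e i, y⟫ := by
      rw [inner_sub_left, real_inner_comm (e i) x, (het i).1, real_inner_comm (e i) y]; ring
    have t2 : ⟪e i, ix2R x y (e i)⟫ = ‖e i‖ ^ 2 - σ⁻¹ * (⟪e i, y⟫ * ⟪y, e i⟫) := by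
      rw [ix2a_R_apply, inner_sub_right, inner_smul_right, real_inner_self_eq_norm_sq, ← hσd,
        real_inner_comm (x - y) (e i), hxe, real_inner_comm (e i) y]
      ring
    have hhx : ⟪gmtSimH u x (e i), x⟫ = 0 := (ix2t_H_tan hT hx (e i)).1
    have t3 : ⟪gmtSimH u x (e i), ix2R x y (e i)⟫ = ⟪gmtSimH u x (e i), e i⟫
        - σ⁻¹ * (⟪e i, y⟫ * ⟪y, gmtSimH u x (e i)⟫) := by
      rw [ix2a_R_apply, inner_sub_right, inner_smul_right, ← hσd, hxe, inner_sub_right, hhx,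
        real_inner_comm (gmtSimH u x (e i)) y]
      ring
    have t4 : ‖ix2R x y (e i)‖ ^ 2 = ‖e i‖ ^ 2 := by
      rw [← real_inner_self_eq_norm_sq, ix2a_R_inner onx.x1 ony.x1 hxy, real_inner_self_eq_norm_sq]
    have t5 : ⟪gmtSimH u y (ix2R x y (e i)), ix2R x y (e i)⟫ = ⟪K (e i), e i⟫ := by
      rw [hK, ContinuousLinearMap.comp_apply, ContinuousLinearMap.comp_apply, ix2a_R_symm]
    rw [t1, t2, t3, t4, t5, ← hσd] at so
    simp only [innerSL_apply_apply, ContinuousLinearMap.comp_apply]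
    linarith
  have hsum := Finset.sum_nonneg (s := Finset.univ) fun i _ => term i
  simp only [Finset.sum_add_distrib, Finset.sum_sub_distrib, ← Finset.sum_mul, ← Finset.mul_sum] at hsum
  -- the sums
  have S1 : ∑ i, ⟪gmtSimH φ x (e i), e i⟫ = gmtSimTr (gmtSimH φ x)
      - ⟪gmtSimH φ x (gradient u x), gradient u x⟫ - ⟪gmtSimH φ x x, x⟫ := by
    rw [he]; exact ix2a_tr onx _
  have S2 : ∑ i, ⟪gmtSimH u x (e i), e i⟫ = 0 := by rw [he]; exact ix2r_trH hT hx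
  have S3 : ∑ i, ‖e i‖ ^ 2 = (n : ℝ) - 2 := by rw [he]; exact ix2a_tr_one onx
  have S4 : ∑ i, ⟪e i, y⟫ * (innerSL ℝ (gradient φ x)) (e i)
      = (innerSL ℝ (gradient φ x)) (ix2Pr x (gradient u x) y) := by
    rw [he]; exact ix2a_parseval_L onx _ y
  have S5 : ∑ i, ⟪e i, y⟫ * (innerSL ℝ y) (e i) = (innerSL ℝ y) (ix2Pr x (gradient u x) y) := by
    rw [he]; exact ix2a_parseval_L onx _ y
  have S6 : ∑ i, ⟪ix2T u x (e i) (e i), y⟫ = - gmtSimA u x * ⟪gradient u x, y⟫ := by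
    rw [he]; exact ix2r_T3 hT hx y
  have S7 : ∑ i, ⟪e i, y⟫ * ((innerSL ℝ y).comp (gmtSimH u x)) (e i)
      = ((innerSL ℝ y).comp (gmtSimH u x)) (ix2Pr x (gradient u x) y) := by
    rw [he]; exact ix2a_parseval_L onx _ y
  have S8 : ∑ i, ⟪K (e i), e i⟫ = 0 := by
    rw [he, ix2a_tr onx, hK, ix2a_R_tr onx.x1 ony.x1 hxy]
    simp only [ContinuousLinearMap.comp_apply]
    rw [hRN, ix2a_R_x onx.x1 ony.x1 hxy, ix2k_H_x hT hyU]
    have : gmtSimTr (gmtSimH u y) = 0 := by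
      have h := hT.harm y hyU ((hT.mem_iff y).1 hy).2.1
      rw [gmtSim_div_eq_tr] at h
      exact h
    simp [this]
  rw [S1, S2, S3, S4, S5, S6, S7, S8] at hsum
  simp only [innerSL_apply_apply, ContinuousLinearMap.comp_apply] at hsum
  -- the vector `d = P y`
  obtain ⟨d, hd⟩ : ∃ d : E n, d = ix2Pr x (gradient u x) y := ⟨_, rfl⟩
  rw [← hd] at hsum
  have hdt : Ix2Tan u x d := by rw [hd]; exact ix2t_pr_tan hT hx y
  have d1 : ⟪y, d⟫ = ‖d‖ ^ 2 := by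
    rw [hd, real_inner_comm, ← ix2a_pr_inner onx, real_inner_self_eq_norm_sq]
  have hhd : gmtSimH u x d = gmtSimH u x y := by rw [hd]; exact ix2t_H_pr hT hx y
  have d2 : ⟪y, gmtSimH u x d⟫ = ⟪gmtSimH u x d, d⟫ := by
    rw [hd, ← ix2a_pr_symm (a := gmtSimH u x (ix2Pr x (gradient u x) y)),
      ix2a_pr_of_tan (ix2t_H_tan hT hx _).1 (ix2t_H_tan hT hx _).2, real_inner_comm]
  obtain ⟨β, hβ⟩ : ∃ β : ℝ, β = ⟪ix2B u φ s x d, d⟫ := ⟨_, rfl⟩
  have hβ' : β = φ x * ‖d‖ ^ 2 + s * ⟪gmtSimH u x d, d⟫ := by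
    rw [hβ, ix2p_B_inner, real_inner_self_eq_norm_sq]
  have fo := ix2t_dp_fo_x hT hW hSW hφ hZ hx hy h0 hdt
  rw [← hσd, real_inner_comm y d, d1, real_inner_comm y (gmtSimH u x d), d2] at fo
  have fo' : ⟪gradient φ x, d⟫ * σ = β := by rw [hβ']; linarith
  -- `σ P ∇φ = B d`
  have hPg : σ • ix2Pr x (gradient u x) (gradient φ x) = ix2B u φ s x d := by
    refine ext_inner_right ℝ fun w => ?_
    have f1 := ix2t_dp_fo_x hT hW hSW hφ hZ hx hy h0 (ix2t_pr_tan hT hx w)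
    rw [← hσd, ix2t_H_pr hT hx, ix2a_pr_symm, ← hd] at f1
    rw [inner_smul_left, ix2a_pr_symm, ix2p_B_inner, hhd, ix2k_H_symm hT hxU y w,
      real_inner_comm (gmtSimH u x w) y, real_inner_comm w d]
    simp only [RCLike.conj_to_real]
    linarith
  have hGT : σ ^ 2 * ix2GT u φ x = ‖ix2B u φ s x d‖ ^ 2 := by
    rw [← hPg, norm_smul, mul_pow, ix2a_pr_norm_sq onx, Real.norm_eq_abs, sq_abs]
    rfl
  have hcs := ix2a_sq_le (B := ix2B u φ s x) (ix2p_B_symm hT hx s)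
    (ix2p_B_nonneg hT hx hφx.le (hZ x hx)) (κ := 2 * φ x) (ix2p_B_le hT hx hφx.le (hZ' x hx)) d
  rw [← hβ, ← hGT] at hcs
  -- conclusion
  rw [d1, d2] at hsum
  have hNy : s * ⟪gradient u x, y⟫ = φ x * σ := by linarith
  have hxy' : ⟪x, y⟫ = 1 - σ := by rw [hσd]; ring
  have key : 0 ≤ σ * (ix2LS u φ x + (gmtSimA u x - ((n : ℝ) - 2)) * φ x) - 2 * β / σ := by
    have e1 : ⟪gradient φ x, d⟫ = β / σ := by rw [eq_div_iff hσ.ne']; exact fo'
    have e2 : σ⁻¹ * ‖d‖ ^ 2 * φ x + σ⁻¹ * ⟪gmtSimH u x d, d⟫ * s = β / σ := by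
      rw [hβ']; field_simp
    rw [e1, hxy'] at hsum
    unfold ix2LS
    have e3 : s * (-gmtSimA u x * ⟪gradient u x, y⟫) = - gmtSimA u x * (φ x * σ) := by
      rw [← hNy]; ring
    refine hsum.trans (le_of_eq ?_)
    linear_combination 2 * e2 - e3
  have k2 : 2 * β / σ ^ 2 ≤ ix2LS u φ x + (gmtSimA u x - ((n : ℝ) - 2)) * φ x := by
    rw [div_le_iff₀ (by positivity)]
    have : 2 * β / σ * σ = 2 * β := by field_simp
    nlinarith [mul_le_mul_of_nonneg_right (sub_nonneg.1 key) hσ.le]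
  refine le_trans ?_ k2
  rw [div_le_div_iff₀ hφx (by positivity)]
  nlinarith

end Claimed.Agent.R323
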