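import Claimed.Agent.Lib.Gmt.SimId

/-!
# Row 323, block F1 (two-point maximum principle, paper Lemma 3.1 + Theorem 3.2), file 0: DEFINITIONS.   (architect: helper201; prefix `ix2`)

Written proof: `origin/helper201:notes/r323/F1F2_h201.md`.     LANGUAGE: ambient calculus of `Lib/Gmt/Sim*`.   `n = m + 2`.
`u` = signed distance to the cone, smooth on the open conic set `U`;  `N = gradient u`,  `h = gmtSimH u = D N`,  `T = ix2T u = D h`,  `Q = ix2Q u = D T`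
(so `D³u(a,b,c) = ⟪T a b, c⟫`, `D⁴u(a,b,c,d) = ⟪Q a b c, d⟫`),  `P = |h|² = gmtSimA u`.
`Sg` = the link `{u = 0} ∩ sphere`, compact.   Tangent space of the link at `x`: `{x, N x}^⊥` (`Ix2Tan`), projection `ix2Pr x (N x)`.
`ix2LS u f` = Laplace-Beltrami operator of the link applied to an AMBIENT function `f` (for `0`-homogeneous `f` it is `gmtSimL u f` on the link), `ix2GT u f = |∇^T f|²`.

EXIT of the block (file `Two.lean`):  `ix2_main : ∃ Λ, ∀ f smooth near Sg, ∃ x₀ ∈ Sg, (n - 2) - P x₀ ≤ LS f x₀ ∧ ∀ x ∈ Sg, f x₀ - Λ ≤ f x`.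
-/

set_option autoImplicit false
open scoped ContDiff ENNReal RealInnerProductSpace Topology
open MeasureTheory Metric Set Filter

namespace Claimed.Agent.R323

open Claimed.Agent.Gmt

variable {n : ℕ}

/-- `D³u` as the derivative of the Hessian field. -/
noncomputable def ix2T (u : E n → ℝ) (z : E n) : E n →L[ℝ] E n →L[ℝ] E n := fderiv ℝ (gmtSimH u) z

/-- `D⁴u`. -/
noncomputable def ix2Q (u : E n → ℝ) (z : E n) : E n →L[ℝ] E n →L[ℝ] E n →L[ℝ] E n := fderiv ℝ (ix2T u) z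

/-- the orthogonal projection onto `{x, ν}^⊥` (`x, ν` orthonormal). -/
noncomputable def ix2Pr (x ν w : E n) : E n := w - ⟪w, ν⟫ • ν - ⟪w, x⟫ • x

/-- `e` is tangent to the link at `x`. -/
def Ix2Tan (u : E n → ℝ) (x e : E n) : Prop := ⟪e, x⟫ = 0 ∧ ⟪e, gradient u x⟫ = 0

/-- the Laplace-Beltrami operator of the link on an ambient function: `Δf - D²f(N,N) - D²f(x,x) - (n-2) Df[x]`. -/
noncomputable def ix2LS (u f : E n → ℝ) (x : E n) : ℝ :=
  gmtSimTr (gmtSimH f x) - ⟪gmtSimH f x (gradient u x), gradient u x⟫ - ⟪gmtSimH f x x, x⟫ - ((n : ℝ) - 2) * ⟪gradient f x, x⟫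

/-- `|∇^T f|²` on the link. -/
noncomputable def ix2GT (u f : E n → ℝ) (x : E n) : ℝ :=
  ‖gradient f x‖ ^ 2 - ⟪gradient f x, gradient u x⟫ ^ 2 - ⟪gradient f x, x⟫ ^ 2

/-- the two-point function `Z_s(x,y) = φ(x) (1 - ⟪x,y⟫) - s ⟪N x, y⟫`. -/
noncomputable def ix2Z (u φ : E n → ℝ) (s : ℝ) (x y : E n) : ℝ := φ x * (1 - ⟪x, y⟫) - s * ⟪gradient u x, y⟫

/-- the geometric data of the block: tube of a minimal cone and its (compact, full) link. -/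
structure Ix2Tube (n : ℕ) (Sg U : Set (E n)) (u : E n → ℝ) : Prop where
  opn : IsOpen U
  conic : ∀ x ∈ U, ∀ t : ℝ, 0 < t → t • x ∈ U
  smooth : ContDiffOn ℝ ∞ u U
  eik : ∀ x ∈ U, ‖gradient u x‖ = 1
  homog : ∀ x ∈ U, ∀ t : ℝ, 0 < t → u (t • x) = t * u x
  hom : ∀ x ∈ U, ⟪x, gradient u x⟫ = u x
  harm : ∀ x ∈ U, u x = 0 → gmtDiv (gradient u) x = 0
  proj : ∀ x ∈ U, gmtSimPi u x ∈ U ∧ u (gmtSimPi u x) = 0
  cpt : IsCompact Sg
  mem_iff : ∀ x, x ∈ Sg ↔ (x ∈ U ∧ u x = 0 ∧ ‖x‖ = 1)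
  full : ∀ e : E n, ‖e‖ = 1 → ∃ y ∈ Sg, ⟪e, y⟫ ≠ 0

theorem ix2_defs_eqns_cite : True := by
  have := @ix2T.eq_1
  have := @ix2Q.eq_1
  have := @ix2Pr.eq_1
  have := @Ix2Tan.eq_1
  have := @ix2LS.eq_1
  have := @ix2GT.eq_1
  have := @ix2Z.eq_1
  trivial

end Claimed.Agent.R323
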