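import Claimed.Agent.R323.Ix.Calc
import Claimed.Agent.R323.Ix.TwoBridge
import Claimed.Agent.R323.Ix.Two

/-!
# Row 323, block F, package TWO: EXIT of the two-point maximum principle (paper Lemma 3.1) in the language of `Ix/Defs.lean`.
Architect of the package: helper201 (files `Ix/Two*.lean`, prefix `ix2`; his exit `ix2_main`).  This file = the bridge `Ix2Tube`/`ix2LS` → `IxTube`/`ixLap`
(for `0`-homogeneous `f`: `D f[x] = 0`, `D²f(x,x) = 0`, so `ix2LS u f = gmtSimL u f = ixLap u f` on the link).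
-/

set_option autoImplicit false
open scoped ContDiff ENNReal RealInnerProductSpace Topology
open MeasureTheory Metric Set Filter

namespace Claimed.Agent.R323

open Claimed.Agent.Gmt

/-- Euler's relation for a `0`-homogeneous function. -/
theorem ix2x_euler1 {k : ℕ} {U : Set (E k)} {f : E k → ℝ} (hU : IsOpen U) (hf : IxFun U f) {x : E k} (hx : x ∈ U) :
    ⟪gradient f x, x⟫ = 0 := by
  have hd : DifferentiableAt ℝ f x := (hf.smooth.contDiffAt (hU.mem_nhds hx)).differentiableAt (by simp)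
  have h1 : HasDerivAt (fun t : ℝ => f (t • x)) (fderiv ℝ f x x) 1 := by
    have hf' : HasFDerivAt f (fderiv ℝ f x) ((1 : ℝ) • x) := by rw [one_smul]; exact hd.hasFDerivAt
    have hl : HasDerivAt (fun t : ℝ => t • x) x 1 := by simpa using (hasDerivAt_id (1 : ℝ)).smul_const x
    exact hf'.comp_hasDerivAt 1 hl
  have h2 : (fun _ : ℝ => f x) =ᶠ[𝓝 1] fun t : ℝ => f (t • x) := by
    filter_upwards [lt_mem_nhds (one_pos : (0 : ℝ) < 1)] with t ht using (hf.hom x hx t ht).symm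
  have h3 := h1.congr_of_eventuallyEq h2
  have h4 := (hasDerivAt_const (1 : ℝ) (f x)).unique h3
  rw [gmtSim_inner_gradient]
  exact h4.symm

/-- `D²f(x,x) = 0` for a `0`-homogeneous function. -/
theorem ix2x_euler2 {k : ℕ} {U : Set (E k)} {f : E k → ℝ} (hU : IsOpen U) (hf : IxFun U f) {x : E k} (hx : x ∈ U) :
    ⟪gmtSimH f x x, x⟫ = 0 := by
  have hd : HasFDerivAt (gradient f) (gmtSimH f x) x :=
    (((gmtSim_contDiffOn_gradient hU hf.smooth).contDiffAt (hU.mem_nhds hx)).differentiableAt (by simp)).hasFDerivAt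
  have h1 := hd.inner ℝ (hasFDerivAt_id x)
  have h2 : (fun _ : E k => (0 : ℝ)) =ᶠ[𝓝 x] fun z => ⟪gradient f z, id z⟫ := by
    filter_upwards [hU.mem_nhds hx] with z hz using (ix2x_euler1 hU hf hz).symm
  have h3 := (hasFDerivAt_const (0 : ℝ) x).unique (h1.congr_of_eventuallyEq h2)
  have h4 := congrArg (fun L : E k →L[ℝ] ℝ => L x) h3
  simp only [zero_apply, ContinuousLinearMap.comp_apply, fderivInnerCLM_apply,
    ContinuousLinearMap.prod_apply, ContinuousLinearMap.id_apply, id] at h4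
  rw [ix2x_euler1 hU hf hx] at h4
  linarith

/-- there is `Λ` such that every smooth `f` has a point `x₀ ∈ Σ` with `Δ_Σ f(x₀) ≥ m - |A|²(x₀)` and `f ≥ f(x₀) - Λ` on `Σ`. -/
theorem ix_two {m : ℕ} {U : Set (E (m + 2))} {u : E (m + 2) → ℝ} (hT : IxTube U u)
    (hfull : ∀ e : E (m + 2), (∀ x ∈ ixLink U u, ⟪e, x⟫ = 0) → e = 0) :
    ∃ Λ : ℝ, ∀ f : E (m + 2) → ℝ, IxFun U f → ∃ x₀ ∈ ixLink U u,
      (m : ℝ) - ixP u x₀ ≤ ixLap u f x₀ ∧ ∀ x ∈ ixLink U u, f x₀ - Λ ≤ f x := by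
  have hT2 := ixb_tube2 hT hfull
  have hne : (ixLink U u).Nonempty := by
    obtain ⟨y, hy, -⟩ := hT2.full (eb 0) (by simp [eb])
    exact ⟨y, hy⟩
  obtain ⟨Λ, hΛ⟩ := ix2_main hT2 hne
  refine ⟨Λ, fun f hf => ?_⟩
  obtain ⟨x₀, hx₀, h1, h2⟩ := hΛ U f hT.opn (fun x hx => hx.1) hf.smooth
  refine ⟨x₀, hx₀, ?_, h2⟩
  have hxU : x₀ ∈ U := hx₀.1
  have hn : ‖x₀‖ = 1 := hx₀.2.2
  unfold ixP ixLap gmtSimL
  unfold ix2LS at h1
  rw [ix2x_euler1 hT.opn hf hxU, ix2x_euler2 hT.opn hf hxU] at h1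
  rw [hn, gmtSim_div_eq_tr]
  push_cast at h1
  have e : gmtSimTr (fderiv ℝ (gradient f) x₀) = gmtSimTr (gmtSimH f x₀) := rfl
  rw [e]
  linarith

end Claimed.Agent.R323
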