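import Claimed.Agent.R323.Ix.TwoDP

/-!
# Row 323, block F1, file 8: THE GLOBAL ARGUMENT (contact point).   (helper34; prefix `ix2l_`)
Notes `F1F2_h201.md`, section GL.   `a(x,y) = ⟪N x, y⟫`, `σ(x,y) = 1 - ⟪x,y⟫ = |x-y|²/2`.
1. `ix2l_rolle2`, `ix2l_seg`: `a(x,y) = - ⟪h(p)(y-x), y-x⟫/2` for a point `p` of the segment (two applications of Rolle: no remainder estimates);
   `ix2l_local`: `|a(x',y') + ⟪h(x)(y'-x'),y'-x'⟫/2| ≤ ε |y'-x'|²/2` for `x', y'` in the link near `x`.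
2. `ix2l_B1`: `|a| ≤ C σ`;   `ix2l_B2`: `∀ x ∃ y, c ≤ |a(x,y)|` (fullness).
3. `ix2l_contact0`: for `F > 0` continuous there is `Θ > 0` with `|a| ≤ Θ F(x) σ` and a contact: at two distinct points, or on the diagonal.
4. the statements of helper201's cut (files `TwoGlA` ... `TwoGlD` cite this file).
-/

set_option autoImplicit false
open scoped ContDiff ENNReal RealInnerProductSpace Topology
open MeasureTheory Metric Set Filter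

namespace Claimed.Agent.R323

open Claimed.Agent.Gmt

variable {n : ℕ} {Sg U W : Set (E n)} {u φ f : E n → ℝ}

/-! ## 1. Taylor -/

theorem ix2l_rolle2 {g g' g'' : ℝ → ℝ} (h1 : ∀ t ∈ Icc (0 : ℝ) 1, HasDerivAt g (g' t) t)
    (h2 : ∀ t ∈ Icc (0 : ℝ) 1, HasDerivAt g' (g'' t) t) :
    ∃ ξ ∈ Ioo (0 : ℝ) 1, g 1 = g 0 + g' 0 + g'' ξ / 2 := by
  set K : ℝ := g 1 - g 0 - g' 0 with hK
  have hG : ∀ t ∈ Icc (0 : ℝ) 1, HasDerivAt (fun t => g t - g 0 - g' 0 * t - K * t ^ 2)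
      (g' t - g' 0 - K * (2 * t)) t := by
    intro t ht
    have a1 := ((h1 t ht).sub_const (g 0)).sub ((hasDerivAt_id t).const_mul (g' 0))
    have a2 := (hasDerivAt_pow 2 t).const_mul K
    exact (a1.sub a2).congr_deriv (by simp)
  have hG' : ∀ t ∈ Icc (0 : ℝ) 1, HasDerivAt (fun t => g' t - g' 0 - K * (2 * t)) (g'' t - K * 2) t := by
    intro t ht
    have a1 := (h2 t ht).sub_const (g' 0)
    have a2 := ((hasDerivAt_id t).const_mul 2).const_mul K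
    exact (a1.sub a2).congr_deriv (by simp)
  obtain ⟨τ, hτ, hτ0⟩ := exists_hasDerivAt_eq_zero (f := fun t => g t - g 0 - g' 0 * t - K * t ^ 2)
    (f' := fun t => g' t - g' 0 - K * (2 * t)) (zero_lt_one' ℝ)
    (fun t ht => (hG t ht).continuousAt.continuousWithinAt) (by simp [hK])
    (fun t ht => hG t (Ioo_subset_Icc_self ht))
  have hsub : Icc (0 : ℝ) τ ⊆ Icc 0 1 := Icc_subset_Icc le_rfl hτ.2.le
  obtain ⟨ξ, hξ, hξ0⟩ := exists_hasDerivAt_eq_zero (f := fun t => g' t - g' 0 - K * (2 * t))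
    (f' := fun t => g'' t - K * 2) hτ.1
    (fun t ht => (hG' t (hsub ht)).continuousAt.continuousWithinAt) (by simp only [hτ0]; simp)
    (fun t ht => hG' t (hsub (Ioo_subset_Icc_self ht)))
  refine ⟨ξ, ⟨hξ.1, hξ.2.trans hτ.2⟩, ?_⟩
  have : g'' ξ = K * 2 := by linarith
  rw [this, hK]
  ring

theorem ix2l_line {Y : Type*} [NormedAddCommGroup Y] [NormedSpace ℝ Y] {F : E n → Y} (x a : E n) (t : ℝ)
    {F' : E n →L[ℝ] Y} (hF : HasFDerivAt F F' (x + t • a)) :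
    HasDerivAt (fun t : ℝ => F (x + t • a)) (F' a) t := by
  have h1 : HasDerivAt (fun t : ℝ => x + t • a) a t := by
    simpa using ((hasDerivAt_id t).smul_const a).const_add x
  exact hF.comp_hasDerivAt t h1

/-- Lagrange form of the Taylor formula of `u` along a segment. -/
theorem ix2l_lagrange0 (hT : Ix2Tube n Sg U u) {x y : E n}
    (hseg : ∀ t ∈ Icc (0 : ℝ) 1, x + t • (y - x) ∈ U) :
    ∃ ξ ∈ Ioo (0 : ℝ) 1, u y - u x - ⟪gradient u x, y - x⟫ =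
      ⟪gmtSimH u (x + ξ • (y - x)) (y - x), y - x⟫ / 2 := by
  have h1 : ∀ t ∈ Icc (0 : ℝ) 1, HasDerivAt (fun t : ℝ => u (x + t • (y - x)))
      ⟪gradient u (x + t • (y - x)), y - x⟫ t := by
    intro t ht
    have h := ((hT.smooth.contDiffAt (hT.opn.mem_nhds (hseg t ht))).differentiableAt
      (by simp)).hasFDerivAt
    have h2 := ix2l_line x (y - x) t h
    rwa [← gmtSim_inner_gradient] at h2
  have h2 : ∀ t ∈ Icc (0 : ℝ) 1, HasDerivAt (fun t : ℝ => ⟪gradient u (x + t • (y - x)), y - x⟫)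
      ⟪gmtSimH u (x + t • (y - x)) (y - x), y - x⟫ t := by
    intro t ht
    have h := (((ix2k_N_smooth hT).contDiffAt (hT.opn.mem_nhds (hseg t ht))).differentiableAt
      (by simp)).hasFDerivAt
    have h3 := (ix2l_line x (y - x) t h).inner ℝ (hasDerivAt_const t (y - x))
    simpa [gmtSimH] using h3
  obtain ⟨ξ, hξ, he⟩ := ix2l_rolle2 h1 h2
  refine ⟨ξ, hξ, ?_⟩
  simp only [one_smul, zero_smul, add_zero, add_sub_cancel] at he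
  linarith

/-- `a(x,y) = - ⟪h(p)(y-x), y-x⟫/2` for a point `p` of the segment. -/
theorem ix2l_seg (hT : Ix2Tube n Sg U u) {x y : E n} (hx : x ∈ Sg) (hy : y ∈ Sg)
    (hseg : ∀ t ∈ Icc (0 : ℝ) 1, x + t • (y - x) ∈ U) :
    ∃ ξ ∈ Ioo (0 : ℝ) 1, ⟪gradient u x, y⟫ =
      - (⟪gmtSimH u (x + ξ • (y - x)) (y - x), y - x⟫ / 2) := by
  obtain ⟨ξ, hξ, he⟩ := ix2l_lagrange0 hT hseg
  refine ⟨ξ, hξ, ?_⟩
  have hx' := (hT.mem_iff x).1 hx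
  have hy' := (hT.mem_iff y).1 hy
  rw [hx'.2.1, hy'.2.1, inner_sub_right, real_inner_comm x (gradient u x), hT.hom x hx'.1, hx'.2.1] at he
  linarith

theorem ix2l_sig {x y : E n} (hx : ‖x‖ = 1) (hy : ‖y‖ = 1) : 1 - ⟪x, y⟫ = ‖y - x‖ ^ 2 / 2 := by
  rw [norm_sub_sq_real, hx, hy, real_inner_comm]
  ring

/-- local form of the expansion on the diagonal. -/
theorem ix2l_local (hT : Ix2Tube n Sg U u) {x : E n} (hx : x ∈ Sg) {ε : ℝ} (hε : 0 < ε) :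
    ∃ δ > 0, ∀ x' ∈ Sg, ∀ y' ∈ Sg, x' ∈ ball x δ → y' ∈ ball x δ →
      |⟪gradient u x', y'⟫ + ⟪gmtSimH u x (y' - x'), y' - x'⟫ / 2| ≤ ε * (‖y' - x'‖ ^ 2 / 2) := by
  have hxU := ix2t_memU hT hx
  have hc : ContinuousAt (gmtSimH u) x := ((ix2k_H_smooth hT).contDiffAt (hT.opn.mem_nhds hxU)).continuousAt
  obtain ⟨δ₁, hδ₁, h1⟩ := Metric.continuousAt_iff.1 hc ε hε
  obtain ⟨δ₂, hδ₂, h2⟩ := Metric.isOpen_iff.1 hT.opn x hxU
  refine ⟨min δ₁ δ₂, lt_min hδ₁ hδ₂, fun x' hx' y' hy' hxb hyb => ?_⟩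
  have hseg : ∀ t ∈ Icc (0 : ℝ) 1, x' + t • (y' - x') ∈ ball x (min δ₁ δ₂) := by
    intro t ht
    have := (convex_ball x (min δ₁ δ₂)).add_smul_sub_mem hxb hyb ht
    exact this
  obtain ⟨ξ, hξ, he⟩ := ix2l_seg hT hx' hy' fun t ht =>
    h2 (ball_subset_ball (min_le_right _ _) (hseg t ht))
  have hp := h1 (ball_subset_ball (min_le_left _ _) (hseg ξ (Ioo_subset_Icc_self hξ)))
  rw [dist_eq_norm] at hp
  rw [he]
  have e1 : -(⟪gmtSimH u (x' + ξ • (y' - x')) (y' - x'), y' - x'⟫ / 2) +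
      ⟪gmtSimH u x (y' - x'), y' - x'⟫ / 2 =
      - (⟪(gmtSimH u (x' + ξ • (y' - x')) - gmtSimH u x) (y' - x'), y' - x'⟫ / 2) := by
    rw [sub_apply, inner_sub_left]
    ring
  rw [e1, abs_neg, abs_div, abs_two]
  have e2 : |⟪(gmtSimH u (x' + ξ • (y' - x')) - gmtSimH u x) (y' - x'), y' - x'⟫| ≤
      ε * ‖y' - x'‖ ^ 2 := by
    refine (abs_real_inner_le_norm _ _).trans ?_
    have := (gmtSimH u (x' + ξ • (y' - x')) - gmtSimH u x).le_opNorm (y' - x')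
    have h3 : ‖(gmtSimH u (x' + ξ • (y' - x')) - gmtSimH u x) (y' - x')‖ ≤ ε * ‖y' - x'‖ :=
      this.trans (mul_le_mul_of_nonneg_right hp.le (norm_nonneg _))
    calc _ ≤ ε * ‖y' - x'‖ * ‖y' - x'‖ := mul_le_mul_of_nonneg_right h3 (norm_nonneg _)
      _ = _ := by ring
  linarith

/-- uniform form. -/
theorem ix2l_taylor0 (hT : Ix2Tube n Sg U u) {ε : ℝ} (hε : 0 < ε) :
    ∃ δ > 0, ∀ x ∈ Sg, ∀ y ∈ Sg, ‖y - x‖ < δ →
      |⟪gradient u x, y⟫ + ⟪gmtSimH u x (y - x), y - x⟫ / 2| ≤ ε * ‖y - x‖ ^ 2 := by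
  have hloc : ∀ x₀ : E n, ∃ δ > 0, x₀ ∈ Sg → ∀ x' ∈ Sg, ∀ y' ∈ Sg, x' ∈ ball x₀ δ → y' ∈ ball x₀ δ →
      |⟪gradient u x', y'⟫ + ⟪gmtSimH u x' (y' - x'), y' - x'⟫ / 2| ≤ ε * ‖y' - x'‖ ^ 2 := by
    intro x₀
    by_cases hx₀ : x₀ ∈ Sg
    · obtain ⟨δ₁, hδ₁, h1⟩ := ix2l_local hT hx₀ hε
      have hc : ContinuousAt (gmtSimH u) x₀ :=
        ((ix2k_H_smooth hT).contDiffAt (hT.opn.mem_nhds (ix2t_memU hT hx₀))).continuousAt
      obtain ⟨δ₂, hδ₂, h2⟩ := Metric.continuousAt_iff.1 hc ε hε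
      refine ⟨min δ₁ δ₂, lt_min hδ₁ hδ₂, fun _ x' hx' y' hy' hxb hyb => ?_⟩
      have h3 := h1 x' hx' y' hy' (ball_subset_ball (min_le_left _ _) hxb)
        (ball_subset_ball (min_le_left _ _) hyb)
      have h4 := h2 (ball_subset_ball (min_le_right _ _) hxb)
      rw [dist_eq_norm] at h4
      have h5 : |⟪(gmtSimH u x' - gmtSimH u x₀) (y' - x'), y' - x'⟫| ≤ ε * ‖y' - x'‖ ^ 2 := by
        refine (abs_real_inner_le_norm _ _).trans ?_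
        have h6 : ‖(gmtSimH u x' - gmtSimH u x₀) (y' - x')‖ ≤ ε * ‖y' - x'‖ :=
          ((gmtSimH u x' - gmtSimH u x₀).le_opNorm (y' - x')).trans
            (mul_le_mul_of_nonneg_right h4.le (norm_nonneg _))
        calc _ ≤ ε * ‖y' - x'‖ * ‖y' - x'‖ := mul_le_mul_of_nonneg_right h6 (norm_nonneg _)
          _ = _ := by ring
      rw [sub_apply, inner_sub_left] at h5
      have h7 := abs_le.1 h3
      have h8 := abs_le.1 h5
      rw [abs_le]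
      constructor <;> linarith [h7.1, h7.2, h8.1, h8.2]
    · exact ⟨1, one_pos, fun h => absurd h hx₀⟩
  choose δ hδ hδ' using hloc
  obtain ⟨r, hr, hleb⟩ := lebesgue_number_lemma_of_metric hT.cpt (c := fun x₀ : Sg => ball (x₀ : E n) (δ x₀))
    (fun _ => isOpen_ball) (fun x hx => mem_iUnion.2 ⟨⟨x, hx⟩, mem_ball_self (hδ x)⟩)
  refine ⟨r, hr, fun x hx y hy hxy => ?_⟩
  obtain ⟨x₀, hx₀⟩ := hleb x hx
  exact hδ' x₀ x₀.2 x hx y hy (hx₀ (mem_ball_self hr)) (hx₀ (by rwa [mem_ball, dist_eq_norm]))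

/-! ## 2. the two bounds -/

theorem ix2l_subseq (hT : Ix2Tube n Sg U u) {xs ys : ℕ → E n} (hxs : ∀ k, xs k ∈ Sg) (hys : ∀ k, ys k ∈ Sg) :
    ∃ x ∈ Sg, ∃ y ∈ Sg, ∃ ψ : ℕ → ℕ, StrictMono ψ ∧ Tendsto (xs ∘ ψ) atTop (𝓝 x) ∧
      Tendsto (ys ∘ ψ) atTop (𝓝 y) := by
  obtain ⟨⟨x, y⟩, ⟨hx, hy⟩, ψ, hψ, hlim⟩ := (hT.cpt.prod hT.cpt).tendsto_subseq
    (x := fun k => (xs k, ys k)) (fun k => ⟨hxs k, hys k⟩)
  exact ⟨x, hx, y, hy, ψ, hψ, (continuous_fst.tendsto _).comp hlim, (continuous_snd.tendsto _).comp hlim⟩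

theorem ix2l_N_tendsto (hT : Ix2Tube n Sg U u) {x : E n} (hx : x ∈ Sg) {xs : ℕ → E n}
    (h : Tendsto xs atTop (𝓝 x)) : Tendsto (fun k => gradient u (xs k)) atTop (𝓝 (gradient u x)) :=
  (((ix2k_N_smooth hT).contDiffAt (hT.opn.mem_nhds (ix2t_memU hT hx))).continuousAt.tendsto).comp h

theorem ix2l_a_le (hT : Ix2Tube n Sg U u) {x y : E n} (hx : x ∈ Sg) (hy : y ∈ Sg) :
    |⟪gradient u x, y⟫| ≤ 1 := by
  have := abs_real_inner_le_norm (gradient u x) y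
  rwa [(ix2t_on hT hx).n1, (ix2t_on hT hy).x1, mul_one] at this

theorem ix2l_sig_nonneg (hT : Ix2Tube n Sg U u) {x y : E n} (hx : x ∈ Sg) (hy : y ∈ Sg) :
    0 ≤ 1 - ⟪x, y⟫ := by
  rw [ix2l_sig (ix2t_on hT hx).x1 (ix2t_on hT hy).x1]
  positivity

/-- **(B1)** -/
theorem ix2l_B1 (hT : Ix2Tube n Sg U u) :
    ∃ C : ℝ, 0 < C ∧ ∀ x ∈ Sg, ∀ y ∈ Sg, |⟪gradient u x, y⟫| ≤ C * (1 - ⟪x, y⟫) := by
  by_contra hcon
  push Not at hcon
  have hk : ∀ k : ℕ, ∃ x ∈ Sg, ∃ y ∈ Sg, ((k : ℝ) + 1) * (1 - ⟪x, y⟫) < |⟪gradient u x, y⟫| :=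
    fun k => hcon _ (by positivity)
  choose xs hxs ys hys hbad using hk
  obtain ⟨x, hx, y, hy, ψ, hψ, hlx, hly⟩ := ix2l_subseq hT hxs hys
  have hσ : Tendsto (fun k => 1 - ⟪xs (ψ k), ys (ψ k)⟫) atTop (𝓝 (1 - ⟪x, y⟫)) :=
    tendsto_const_nhds.sub (hlx.inner hly)
  have hψk : Tendsto (fun k => ((ψ k : ℕ) : ℝ) + 1) atTop atTop :=
    tendsto_atTop_add_const_right _ _ (tendsto_natCast_atTop_atTop.comp hψ.tendsto_atTop)
  by_cases hxy : x = y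
  · subst hxy
    obtain ⟨δ, hδ, hloc⟩ := ix2l_local hT hx one_pos
    have hev : ∀ᶠ k in atTop, xs (ψ k) ∈ ball x δ ∧ ys (ψ k) ∈ ball x δ ∧
        ‖gmtSimH u x‖ + 1 ≤ ((ψ k : ℕ) : ℝ) + 1 :=
      (hlx.eventually (ball_mem_nhds x hδ)).and ((hly.eventually (ball_mem_nhds x hδ)).and
        (hψk.eventually_ge_atTop _))
    obtain ⟨k, hk1, hk2, hk3⟩ := hev.exists
    have h1 := hloc _ (hxs (ψ k)) _ (hys (ψ k)) hk1 hk2
    have h2 := hbad (ψ k)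
    rw [ix2l_sig (ix2t_on hT (hxs (ψ k))).x1 (ix2t_on hT (hys (ψ k))).x1] at h2
    set w := ys (ψ k) - xs (ψ k) with hw
    have h3 : |⟪gmtSimH u x w, w⟫| ≤ ‖gmtSimH u x‖ * ‖w‖ ^ 2 := by
      refine (abs_real_inner_le_norm _ _).trans ?_
      calc _ ≤ ‖gmtSimH u x‖ * ‖w‖ * ‖w‖ :=
            mul_le_mul_of_nonneg_right ((gmtSimH u x).le_opNorm w) (norm_nonneg _)
        _ = _ := by ring
    have h4 : |⟪gradient u (xs (ψ k)), ys (ψ k)⟫| ≤ (‖gmtSimH u x‖ + 1) * (‖w‖ ^ 2 / 2) := by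
      have e := abs_sub_abs_le_abs_sub (⟪gradient u (xs (ψ k)), ys (ψ k)⟫) (-(⟪gmtSimH u x w, w⟫ / 2))
      rw [sub_neg_eq_add, abs_neg, abs_div, abs_two] at e
      linarith
    have h5 : (‖gmtSimH u x‖ + 1) * (‖w‖ ^ 2 / 2) ≤ (((ψ k : ℕ) : ℝ) + 1) * (‖w‖ ^ 2 / 2) :=
      mul_le_mul_of_nonneg_right hk3 (by positivity)
    linarith
  · have hpos : 0 < 1 - ⟪x, y⟫ := ix2a_sig_pos (ix2t_on hT hx).x1 (ix2t_on hT hy).x1 hxy
    have h1 : Tendsto (fun k => (((ψ k : ℕ) : ℝ) + 1) * (1 - ⟪xs (ψ k), ys (ψ k)⟫)) atTop atTop :=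
      hψk.atTop_mul_pos hpos hσ
    obtain ⟨k, hk⟩ := (h1.eventually_gt_atTop 1).exists
    have h2 := hbad (ψ k)
    have h3 := ix2l_a_le hT (hxs (ψ k)) (hys (ψ k))
    linarith

/-- **(B2)** -/
theorem ix2l_B2 (hT : Ix2Tube n Sg U u) :
    ∃ c : ℝ, 0 < c ∧ ∀ x ∈ Sg, ∃ y ∈ Sg, c ≤ |⟪gradient u x, y⟫| := by
  by_contra hcon
  push Not at hcon
  have hk : ∀ k : ℕ, ∃ x ∈ Sg, ∀ y ∈ Sg, |⟪gradient u x, y⟫| < 1 / ((k : ℝ) + 1) :=
    fun k => hcon _ (by positivity)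
  choose xs hxs hbad using hk
  obtain ⟨x, hx, ψ, hψ, hlx⟩ := hT.cpt.tendsto_subseq hxs
  obtain ⟨y, hy, hne⟩ := hT.full (gradient u x) (ix2t_on hT hx).n1
  have h1 : Tendsto (fun k => |⟪gradient u (xs (ψ k)), y⟫|) atTop (𝓝 |⟪gradient u x, y⟫|) :=
    ((ix2l_N_tendsto hT hx hlx).inner tendsto_const_nhds).abs
  have h2 : Tendsto (fun k => 1 / (((ψ k : ℕ) : ℝ) + 1)) atTop (𝓝 0) :=
    tendsto_one_div_add_atTop_nhds_zero_nat.comp hψ.tendsto_atTop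
  have h3 : |⟪gradient u x, y⟫| ≤ 0 := le_of_tendsto_of_tendsto' h1 h2 fun k => (hbad (ψ k) y hy).le
  exact hne (abs_eq_zero.1 (le_antisymm h3 (abs_nonneg _)))

/-! ## 3. the contact -/

/-- the diagonal case: limits of secant directions. -/
theorem ix2l_diag (hT : Ix2Tube n Sg U u) {x v : E n} (hx : x ∈ Sg) {X Y : ℕ → E n} {κ : ℕ → ℝ} {κ₀ : ℝ}
    (hX : ∀ k, X k ∈ Sg) (hY : ∀ k, Y k ∈ Sg) (hne : ∀ k, X k ≠ Y k)
    (hlX : Tendsto X atTop (𝓝 x)) (hlY : Tendsto Y atTop (𝓝 x))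
    (hlV : Tendsto (fun k => ‖Y k - X k‖⁻¹ • (Y k - X k)) atTop (𝓝 v)) (hlκ : Tendsto κ atTop (𝓝 κ₀))
    (hbad : ∀ k, κ k * (1 - ⟪X k, Y k⟫) < |⟪gradient u (X k), Y k⟫|) :
    Ix2Tan u x v ∧ ‖v‖ = 1 ∧ κ₀ ≤ |⟪gmtSimH u x v, v⟫| := by
  set t : ℕ → ℝ := fun k => ‖Y k - X k‖ with ht
  set V : ℕ → E n := fun k => ‖Y k - X k‖⁻¹ • (Y k - X k) with hV
  have ht0 : ∀ k, 0 < t k := fun k => norm_pos_iff.2 (sub_ne_zero.2 (hne k).symm)
  have hw : ∀ k, Y k - X k = t k • V k := fun k => by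
    rw [hV, ht]
    simp only
    rw [smul_smul, mul_inv_cancel₀ (ht0 k).ne', one_smul]
  have hV1 : ∀ k, ‖V k‖ = 1 := fun k => by
    rw [hV]
    simp only
    rw [norm_smul, norm_inv, norm_norm, inv_mul_cancel₀ (ht0 k).ne']
  have hlt : Tendsto t atTop (𝓝 0) := by
    have := (hlY.sub hlX).norm
    simpa using this
  have hσ : ∀ k, 1 - ⟪X k, Y k⟫ = t k ^ 2 / 2 := fun k =>
    ix2l_sig (ix2t_on hT (hX k)).x1 (ix2t_on hT (hY k)).x1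
  obtain ⟨C, hC, hB1⟩ := ix2l_B1 hT
  have hv1 : ‖v‖ = 1 := by
    have := hlV.norm
    simp only [hV1] at this
    exact (tendsto_nhds_unique this tendsto_const_nhds)
  -- tangency
  have e1 : ∀ k, ⟪V k, X k⟫ = - (t k / 2) := fun k => by
    have h1 : ⟪Y k - X k, X k⟫ = - (t k ^ 2 / 2) := by
      rw [inner_sub_left, real_inner_self_eq_norm_sq, (ix2t_on hT (hX k)).x1, real_inner_comm, ← hσ k]
      ring
    rw [hw k, inner_smul_left] at h1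
    simp only [RCLike.conj_to_real] at h1
    have := ht0 k
    field_simp at h1 ⊢
    nlinarith
  have hvx : ⟪v, x⟫ = 0 := by
    have h1 : Tendsto (fun k => ⟪V k, X k⟫) atTop (𝓝 ⟪v, x⟫) := hlV.inner hlX
    have h2 : Tendsto (fun k => - (t k / 2)) atTop (𝓝 0) := by
      simpa using (hlt.div_const 2).neg
    simp only [e1] at h1
    exact tendsto_nhds_unique h1 h2
  have e2 : ∀ k, |⟪V k, gradient u (X k)⟫| ≤ C * (t k / 2) := fun k => by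
    have h1 : ⟪Y k - X k, gradient u (X k)⟫ = ⟪gradient u (X k), Y k⟫ := by
      rw [inner_sub_left, (ix2t_on hT (hX k)).xn, sub_zero, real_inner_comm]
    rw [hw k, inner_smul_left] at h1
    simp only [RCLike.conj_to_real] at h1
    have h2 := hB1 _ (hX k) _ (hY k)
    rw [← h1, hσ k, abs_mul, abs_of_pos (ht0 k)] at h2
    have := ht0 k
    have h3 : t k * |⟪V k, gradient u (X k)⟫| ≤ t k * (C * (t k / 2)) := by
      calc _ ≤ C * (t k ^ 2 / 2) := h2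
        _ = _ := by ring
    exact le_of_mul_le_mul_left h3 this
  have hvN : ⟪v, gradient u x⟫ = 0 := by
    have h1 : Tendsto (fun k => |⟪V k, gradient u (X k)⟫|) atTop (𝓝 |⟪v, gradient u x⟫|) :=
      (hlV.inner (ix2l_N_tendsto hT hx hlX)).abs
    have h2 : Tendsto (fun k => C * (t k / 2)) atTop (𝓝 0) := by
      simpa using (hlt.div_const 2).const_mul C
    have h3 := le_of_tendsto_of_tendsto' h1 h2 e2
    exact abs_eq_zero.1 (le_antisymm h3 (abs_nonneg _))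
  refine ⟨⟨hvx, hvN⟩, hv1, le_of_forall_pos_le_add fun ε hε => ?_⟩
  obtain ⟨δ, hδ, hloc⟩ := ix2l_local hT hx hε
  have hev : ∀ᶠ k in atTop, κ k ≤ |⟪gmtSimH u x (V k), V k⟫| + ε := by
    filter_upwards [hlX.eventually (ball_mem_nhds x hδ), hlY.eventually (ball_mem_nhds x hδ)] with k h1 h2
    have h3 := hloc _ (hX k) _ (hY k) h1 h2
    have h4 := hbad k
    rw [hσ k] at h4
    have h5 : ⟪gmtSimH u x (Y k - X k), Y k - X k⟫ = t k ^ 2 * ⟪gmtSimH u x (V k), V k⟫ := by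
      rw [hw k, map_smul, inner_smul_left, inner_smul_right]
      simp only [RCLike.conj_to_real]
      ring
    rw [h5] at h3
    have h6 : |⟪gradient u (X k), Y k⟫| ≤ t k ^ 2 / 2 * |⟪gmtSimH u x (V k), V k⟫| + ε * (t k ^ 2 / 2) := by
      have e := abs_sub_abs_le_abs_sub (⟪gradient u (X k), Y k⟫) (-(t k ^ 2 * ⟪gmtSimH u x (V k), V k⟫ / 2))
      rw [sub_neg_eq_add, abs_neg, abs_div, abs_two, abs_mul, abs_of_pos (by have := ht0 k; positivity : 0 < t k ^ 2)] at e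
      have h3' : |⟪gradient u (X k), Y k⟫ + t k ^ 2 * ⟪gmtSimH u x (V k), V k⟫ / 2| ≤ ε * (t k ^ 2 / 2) := h3
      linarith
    have h7 : 0 < t k ^ 2 / 2 := by have := ht0 k; positivity
    have h8 : t k ^ 2 / 2 * κ k < t k ^ 2 / 2 * (|⟪gmtSimH u x (V k), V k⟫| + ε) := by
      calc _ = κ k * (t k ^ 2 / 2) := by ring
        _ < _ := h4
        _ ≤ _ := h6
        _ = _ := by ring
    exact (lt_of_mul_lt_mul_left h8 h7.le).le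
  have hlim : Tendsto (fun k => |⟪gmtSimH u x (V k), V k⟫| + ε) atTop (𝓝 (|⟪gmtSimH u x v, v⟫| + ε)) :=
    ((((gmtSimH u x).continuous.tendsto v).comp hlV).inner hlV).abs.add_const ε
  exact le_of_tendsto_of_tendsto hlκ hlim hev

/-- **the contact alternative.** -/
theorem ix2l_contact0 (hT : Ix2Tube n Sg U u) (hne : Sg.Nonempty) {F : E n → ℝ}
    (hFc : ContinuousOn F Sg) (hF0 : ∀ x ∈ Sg, 0 < F x) :
    ∃ Θ : ℝ, 0 < Θ ∧ (∀ x ∈ Sg, ∀ y ∈ Sg, |⟪gradient u x, y⟫| ≤ Θ * F x * (1 - ⟪x, y⟫)) ∧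
      ((∃ x ∈ Sg, ∃ y ∈ Sg, x ≠ y ∧ |⟪gradient u x, y⟫| = Θ * F x * (1 - ⟪x, y⟫)) ∨
       (∃ x ∈ Sg, ∃ v, Ix2Tan u x v ∧ ‖v‖ = 1 ∧ Θ * F x ≤ |⟪gmtSimH u x v, v⟫|)) := by
  obtain ⟨C, hC, hB1⟩ := ix2l_B1 hT
  obtain ⟨c, hc, hB2⟩ := ix2l_B2 hT
  set A : Set ℝ := {K | 0 ≤ K ∧ ∀ x ∈ Sg, ∀ y ∈ Sg, |⟪gradient u x, y⟫| ≤ K * F x * (1 - ⟪x, y⟫)} with hA
  have hbdd : BddBelow A := ⟨0, fun K hK => hK.1⟩
  obtain ⟨x₁, hx₁, hmin⟩ := hT.cpt.exists_isMinOn hne hFc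
  have hFt : ∀ x ∈ Sg, ∀ X : ℕ → E n, (∀ k, X k ∈ Sg) → Tendsto X atTop (𝓝 x) →
      Tendsto (fun k => F (X k)) atTop (𝓝 (F x)) := fun x hx X hX hl =>
    (hFc x hx).tendsto.comp (tendsto_nhdsWithin_iff.2 ⟨hl, Eventually.of_forall hX⟩)
  have hK0 : C / F x₁ ∈ A := by
    refine ⟨(div_pos hC (hF0 x₁ hx₁)).le, fun x hx y hy => (hB1 x hx y hy).trans ?_⟩
    have h1 : F x₁ ≤ F x := hmin hx
    have h2 : C ≤ C / F x₁ * F x := by
      rw [div_mul_eq_mul_div, le_div_iff₀ (hF0 x₁ hx₁)]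
      exact mul_le_mul_of_nonneg_left h1 hC.le
    exact mul_le_mul_of_nonneg_right h2 (ix2l_sig_nonneg hT hx hy)
  set Θ : ℝ := sInf A with hΘ
  have hΘ0 : 0 ≤ Θ := le_csInf ⟨_, hK0⟩ fun K hK => hK.1
  have hΘA : ∀ x ∈ Sg, ∀ y ∈ Sg, |⟪gradient u x, y⟫| ≤ Θ * F x * (1 - ⟪x, y⟫) := by
    intro x hx y hy
    rcases (ix2l_sig_nonneg hT hx hy).eq_or_lt with h0 | h0
    · have := hK0.2 x hx y hy
      rw [← h0, mul_zero] at this ⊢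
      exact this
    · have hp : 0 < F x * (1 - ⟪x, y⟫) := mul_pos (hF0 x hx) h0
      have : |⟪gradient u x, y⟫| / (F x * (1 - ⟪x, y⟫)) ≤ Θ := le_csInf ⟨_, hK0⟩ fun K hK => by
        rw [div_le_iff₀ hp, ← mul_assoc]
        exact hK.2 x hx y hy
      rw [div_le_iff₀ hp, ← mul_assoc] at this
      exact this
  have hΘpos : 0 < Θ := by
    obtain ⟨x, hx⟩ := hne
    obtain ⟨y, hy, hcy⟩ := hB2 x hx
    rcases hΘ0.eq_or_lt with h0 | h0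
    · have := hΘA x hx y hy
      rw [← h0, zero_mul, zero_mul] at this
      linarith
    · exact h0
  refine ⟨Θ, hΘpos, hΘA, ?_⟩
  -- violating pairs
  have hviol : ∀ k : ℕ, ∃ x ∈ Sg, ∃ y ∈ Sg,
      (Θ - Θ / ((k : ℝ) + 1)) * F x * (1 - ⟪x, y⟫) < |⟪gradient u x, y⟫| := by
    intro k
    have hk : (0 : ℝ) < (k : ℝ) + 1 := by positivity
    have h1 : Θ - Θ / ((k : ℝ) + 1) < Θ := by
      have : 0 < Θ / ((k : ℝ) + 1) := div_pos hΘpos hk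
      linarith
    have h2 : Θ - Θ / ((k : ℝ) + 1) ∉ A := notMem_of_lt_csInf h1 hbdd
    have h3 : 0 ≤ Θ - Θ / ((k : ℝ) + 1) := by
      rw [sub_nonneg, div_le_iff₀ hk]
      nlinarith [(Nat.cast_nonneg k : (0 : ℝ) ≤ k)]
    by_contra hcon
    push Not at hcon
    exact h2 ⟨h3, hcon⟩
  choose xs hxs ys hys hbad using hviol
  have hneq : ∀ k, xs k ≠ ys k := by
    intro k he
    have h1 := hbad k
    rw [← he, real_inner_self_eq_norm_sq, (ix2t_on hT (hxs k)).x1, real_inner_comm,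
      (ix2t_on hT (hxs k)).xn] at h1
    simp at h1
  obtain ⟨x, hx, y, hy, ψ, hψ, hlx, hly⟩ := ix2l_subseq hT hxs hys
  have hκ : Tendsto (fun k : ℕ => Θ - Θ / ((k : ℝ) + 1)) atTop (𝓝 Θ) := by
    have h1 : Tendsto (fun k : ℕ => Θ * (1 / ((k : ℝ) + 1))) atTop (𝓝 (Θ * 0)) :=
      tendsto_one_div_add_atTop_nhds_zero_nat.const_mul Θ
    have h2 := (tendsto_const_nhds (x := Θ)).sub h1
    simp only [mul_zero, sub_zero, mul_one_div] at h2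
    exact h2
  by_cases hxy : x = y
  · right
    subst hxy
    have hsph : ∀ k, ‖ys (ψ k) - xs (ψ k)‖⁻¹ • (ys (ψ k) - xs (ψ k)) ∈ sphere (0 : E n) 1 := by
      intro k
      have h0 : 0 < ‖ys (ψ k) - xs (ψ k)‖ := norm_pos_iff.2 (sub_ne_zero.2 (hneq (ψ k)).symm)
      rw [mem_sphere_zero_iff_norm, norm_smul, norm_inv, norm_norm, inv_mul_cancel₀ h0.ne']
    obtain ⟨v, -, ψ', hψ', hlv⟩ := (isCompact_sphere (0 : E n) 1).tendsto_subseq hsph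
    have hlx' : Tendsto (fun k => xs (ψ (ψ' k))) atTop (𝓝 x) := hlx.comp hψ'.tendsto_atTop
    have hly' : Tendsto (fun k => ys (ψ (ψ' k))) atTop (𝓝 x) := hly.comp hψ'.tendsto_atTop
    have hκ' : Tendsto (fun k => (Θ - Θ / (((ψ (ψ' k) : ℕ) : ℝ) + 1)) * F (xs (ψ (ψ' k)))) atTop
        (𝓝 (Θ * F x)) :=
      (hκ.comp (hψ.tendsto_atTop.comp hψ'.tendsto_atTop)).mul (hFt x hx _ (fun k => hxs _) hlx')
    obtain ⟨h1, h2, h3⟩ := ix2l_diag hT hx (X := fun k => xs (ψ (ψ' k))) (Y := fun k => ys (ψ (ψ' k)))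
      (fun k => hxs _) (fun k => hys _) (fun k => hneq _) hlx' hly' hlv hκ' (fun k => hbad _)
    exact ⟨x, hx, v, h1, h2, h3⟩
  · left
    refine ⟨x, hx, y, hy, hxy, le_antisymm (hΘA x hx y hy) ?_⟩
    have h1 : Tendsto (fun k => (Θ - Θ / (((ψ k : ℕ) : ℝ) + 1)) * F (xs (ψ k)) * (1 - ⟪xs (ψ k), ys (ψ k)⟫))
        atTop (𝓝 (Θ * F x * (1 - ⟪x, y⟫))) :=
      ((hκ.comp hψ.tendsto_atTop).mul (hFt x hx _ (fun k => hxs _) hlx)).mul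
        (tendsto_const_nhds.sub (hlx.inner hly))
    have h2 : Tendsto (fun k => |⟪gradient u (xs (ψ k)), ys (ψ k)⟫|) atTop (𝓝 |⟪gradient u x, y⟫|) :=
      ((ix2l_N_tendsto hT hx hlx).inner hly).abs
    exact le_of_tendsto_of_tendsto' h1 h2 fun k => (hbad (ψ k)).le

/-! ## 4. the statements of helper201's cut (`TwoGlA` ... `TwoGlD`) -/

/-- the eigenvalue bound from a two-point bound at `x`. -/
theorem ix2l_hub (hT : Ix2Tube n Sg U u) {x : E n} (hx : x ∈ Sg) {ρ : ℝ} (hρ0 : 0 ≤ ρ)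
    (hρ : ∀ y ∈ Sg, |⟪gradient u x, y⟫| ≤ ρ * (1 - ⟪x, y⟫)) (v : E n) :
    |⟪gmtSimH u x v, v⟫| ≤ ρ * ‖v‖ ^ 2 := by
  have h1 := ix2t_eb' hT (φ := fun _ => ρ) (s := 1) hx hρ0 (fun y hy => by
    unfold ix2Z
    have := hρ y hy
    have := le_abs_self ⟪gradient u x, y⟫
    linarith) v
  have h2 := ix2t_eb' hT (φ := fun _ => ρ) (s := -1) hx hρ0 (fun y hy => by
    unfold ix2Z
    have := hρ y hy
    have := neg_le_abs ⟪gradient u x, y⟫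
    linarith) v
  rw [abs_le]
  constructor <;> linarith

theorem ix2l_max0 (hT : Ix2Tube n Sg U u) :
    ∃ C > 0, (∀ x ∈ Sg, ∀ y ∈ Sg, |⟪gradient u x, y⟫| ≤ C * (1 - ⟪x, y⟫)) ∧
      ∀ x ∈ Sg, ∀ v : E n, |⟪gmtSimH u x v, v⟫| ≤ C * ‖v‖ ^ 2 := by
  obtain ⟨C, hC, hB1⟩ := ix2l_B1 hT
  exact ⟨C, hC, hB1, fun x hx v => ix2l_hub hT hx hC.le (hB1 x hx) v⟩

theorem ix2l_contact1 (hT : Ix2Tube n Sg U u) (hne : Sg.Nonempty) {ψ : E n → ℝ} (hψc : ContinuousOn ψ Sg)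
    (hψ : ∀ x ∈ Sg, 0 < ψ x) :
    ∃ Θ > 0, (∀ x ∈ Sg, ∀ y ∈ Sg, |⟪gradient u x, y⟫| ≤ Θ * ψ x * (1 - ⟪x, y⟫)) ∧
      ((∃ x ∈ Sg, ∃ y ∈ Sg, x ≠ y ∧ |⟪gradient u x, y⟫| = Θ * ψ x * (1 - ⟪x, y⟫)) ∨
       (∃ x ∈ Sg, ∃ v : E n, ‖v‖ = 1 ∧ |⟪gmtSimH u x v, v⟫| = Θ * ψ x)) := by
  obtain ⟨Θ, hΘ, hle, hc⟩ := ix2l_contact0 hT hne hψc hψ
  refine ⟨Θ, hΘ, hle, ?_⟩
  rcases hc with h | ⟨x, hx, v, -, hv1, hge⟩
  · exact Or.inl h
  · refine Or.inr ⟨x, hx, v, hv1, le_antisymm ?_ hge⟩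
    have := ix2l_hub hT hx (mul_pos hΘ (hψ x hx)).le (hle x hx) v
    rwa [hv1, one_pow, mul_one] at this

end Claimed.Agent.R323
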