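import Claimed.Agent.R323.Ix.TwoGl

/-!
# Row 323, block F1, file 8a: Lagrange form of the Taylor formula of `u`.   (helper201; prefix `ix2l_`)
PLAN.  `w = y - x`, `g t = u (x + t • w)`, `g' t = ⟪N (x + t • w), w⟫`, `g'' t = ⟪h (x + t • w) w, w⟫` for `t ∈ [0,1]` (points of the segment, `U` open: `HasDerivAt`,
`N = gradient u` has `fderiv = gmtSimH u` by definition, `u` has gradient `N`: `(hT.smooth.differentiableOn ..).differentiableAt.hasGradientAt`).
Rolle (`exists_hasDerivAt_eq_zero`) for `G t = g t + (1 - t) * g' t + K * (1 - t)^2`, `K = g 1 - g 0 - g' 0`: `G 0 = G 1`, `G' t = (1 - t) (g'' t - 2 K)`.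
-/

set_option autoImplicit false
open scoped ContDiff ENNReal RealInnerProductSpace Topology
open MeasureTheory Metric Set Filter

namespace Claimed.Agent.R323

open Claimed.Agent.Gmt

variable {n : ℕ} {Sg U : Set (E n)} {u : E n → ℝ}

theorem ix2l_lagrange (hT : Ix2Tube n Sg U u) {x y : E n} (hseg : segment ℝ x y ⊆ U) :
    ∃ z ∈ segment ℝ x y, u y - u x - ⟪gradient u x, y - x⟫ = ⟪gmtSimH u z (y - x), y - x⟫ / 2 := by
  have hmem : ∀ t ∈ Icc (0 : ℝ) 1, x + t • (y - x) ∈ segment ℝ x y := fun t ht => by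
    rw [segment_eq_image']
    exact ⟨t, ht, rfl⟩
  obtain ⟨ξ, hξ, he⟩ := ix2l_lagrange0 hT fun t ht => hseg (hmem t ht)
  exact ⟨_, hmem ξ (Ioo_subset_Icc_self hξ), he⟩

end Claimed.Agent.R323
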