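import Claimed.Agent.R323.Ix.TwoGlA

/-!
# Row 323, block F1, file 8b: uniform second order Taylor formula on the link; the bound `muMax`.   (helper201; prefix `ix2l_`)
PLAN `ix2l_taylor`.  `hT.cpt.exists_cthickening_subset_open hT.opn` gives `δ₀ > 0` with `K = cthickening δ₀ Sg ⊆ U`, `K` compact (`IsCompact.cthickening`);
`gmtSimH u` is continuous on `U` (`ix2k_H_smooth`), so uniformly continuous on `K` (`IsCompact.uniformContinuousOn_of_continuous`): `δ₁` for `ε`.  `δ = min δ₀ δ₁`.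
For `x y ∈ Sg`, `‖y - x‖ < δ`: the segment is in `closedBall x δ₀ ⊆ K ⊆ U`; `ix2l_lagrange` gives `z`; `u x = u y = 0`, `⟪N x, x⟫ = 0` (`ix2t_on`);
`|⟪(h z - h x) w, w⟫| ≤ ‖h z - h x‖ ‖w‖²`.
PLAN `ix2l_max`.  `‖h‖ ≤ C₁` on `Sg` (compact, continuous).  `ix2l_taylor` with `ε = 1`: `|⟪N x,y⟫| ≤ (C₁/2 + 1) ‖y-x‖²` if `‖y - x‖ < δ`, else `|⟪N x, y⟫| ≤ 1 ≤ ‖y-x‖²/δ²`;
`‖y - x‖² = 2 (1 - ⟪x,y⟫)`.
-/

set_option autoImplicit false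
open scoped ContDiff ENNReal RealInnerProductSpace Topology
open MeasureTheory Metric Set Filter

namespace Claimed.Agent.R323

open Claimed.Agent.Gmt

variable {n : ℕ} {Sg U : Set (E n)} {u : E n → ℝ}

theorem ix2l_taylor (hT : Ix2Tube n Sg U u) {ε : ℝ} (hε : 0 < ε) :
    ∃ δ > 0, ∀ x ∈ Sg, ∀ y ∈ Sg, ‖y - x‖ < δ →
      |⟪gradient u x, y⟫ + ⟪gmtSimH u x (y - x), y - x⟫ / 2| ≤ ε * ‖y - x‖ ^ 2 :=
  ix2l_taylor0 hT hε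

theorem ix2l_max (hT : Ix2Tube n Sg U u) :
    ∃ C > 0, (∀ x ∈ Sg, ∀ y ∈ Sg, |⟪gradient u x, y⟫| ≤ C * (1 - ⟪x, y⟫)) ∧
      ∀ x ∈ Sg, ∀ v : E n, |⟪gmtSimH u x v, v⟫| ≤ C * ‖v‖ ^ 2 :=
  ix2l_max0 hT

end Claimed.Agent.R323
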