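import Claimed.Agent.R323.Ix.TwoDefs
import Claimed.Agent.R323.Ix.TwoCalc

/-!
# Row 323, block F1, file 2: THE KIT consumed by the two-point lemma (exact shapes).   (statements: helper201; prefix `ix2k_`)

Section TEN: jets of `u` up to order 4 in operator form (`h = gmtSimH u`, `T = ix2T u = D h`, `Q = ix2Q u = D T`).
  Everything follows by differentiating on the OPEN set `U` the identities `h N = 0` (`gmtSim_H_gradient`), `h z z = 0` (from `hom`), the symmetry of `h`,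
  with `HasFDerivAt.clm_apply`, and from `second_derivative_symmetric` for the vector valued maps `gradient u`, `gmtSimH u`.   (Index versions: `SimIdA`: E1-E3, C1, C2, H1.)
Section TR: traces over the tangent space of the link, written as sums over `ix2Pr x (N x) (eb i)`.
Section CURVE: globally smooth curves in the link and their jets.
-/

set_option autoImplicit false
open scoped ContDiff ENNReal RealInnerProductSpace Topology
open MeasureTheory Metric Set Filter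

namespace Claimed.Agent.R323

open Claimed.Agent.Gmt

variable {n : ℕ} {Sg U : Set (E n)} {u : E n → ℝ}

/-! ## TEN -/

theorem ix2k_N_smooth (hT : Ix2Tube n Sg U u) : ContDiffOn ℝ ∞ (gradient u) U :=
  gmtSim_contDiffOn_gradient hT.opn hT.smooth

theorem ix2k_H_smooth (hT : Ix2Tube n Sg U u) : ContDiffOn ℝ ∞ (gmtSimH u) U :=
  gmtSim_contDiffOn_H hT.opn hT.smooth

theorem ix2k_T_smooth (hT : Ix2Tube n Sg U u) : ContDiffOn ℝ ∞ (ix2T u) U :=
  (ix2k_H_smooth hT).fderiv_of_isOpen hT.opn (by simp)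

theorem ix2k_H_symm (hT : Ix2Tube n Sg U u) {x : E n} (hx : x ∈ U) (a b : E n) :
    ⟪gmtSimH u x a, b⟫ = ⟪a, gmtSimH u x b⟫ := gmtSim_H_symm hT.opn hT.smooth hx a b

theorem ix2k_H_N (hT : Ix2Tube n Sg U u) {x : E n} (hx : x ∈ U) : gmtSimH u x (gradient u x) = 0 :=
  gmtSim_H_gradient hT.opn hT.smooth hT.eik hx

/-- derivative along the line `t ↦ x + t a`. -/
theorem ix2k_line {Y : Type*} [NormedAddCommGroup Y] [NormedSpace ℝ Y] {F : E n → Y} {x : E n} {F' : E n →L[ℝ] Y}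
    (hF : HasFDerivAt F F' x) (a : E n) : HasDerivAt (fun t : ℝ => F (x + t • a)) (F' a) 0 := by
  have h1 : HasDerivAt (fun t : ℝ => x + t • a) a 0 := by
    simpa using ((hasDerivAt_id (0 : ℝ)).smul_const a).const_add x
  have h2 : HasFDerivAt F F' (x + (0 : ℝ) • a) := by simpa using hF
  exact h2.comp_hasDerivAt 0 h1

theorem ix2k_line_id (x a : E n) : HasDerivAt (fun t : ℝ => x + t • a) a 0 := by
  simpa using ((hasDerivAt_id (0 : ℝ)).smul_const a).const_add x

theorem ix2k_line_mem (hT : Ix2Tube n Sg U u) {x : E n} (hx : x ∈ U) (a : E n) :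
    ∀ᶠ t : ℝ in 𝓝 0, x + t • a ∈ U := by
  have hc : ContinuousAt (fun t : ℝ => x + t • a) 0 := (ix2k_line_id x a).continuousAt
  refine hc.eventually_mem (hT.opn.mem_nhds ?_)
  simpa using hx

theorem ix2k_line_u (hT : Ix2Tube n Sg U u) {x : E n} (hx : x ∈ U) (a : E n) :
    HasDerivAt (fun t : ℝ => u (x + t • a)) ⟪gradient u x, a⟫ 0 := by
  have h := ((hT.smooth.contDiffAt (hT.opn.mem_nhds hx)).differentiableAt (by simp)).hasFDerivAt
  have h2 := ix2k_line h a
  rwa [← gmtSim_inner_gradient] at h2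

theorem ix2k_line_N (hT : Ix2Tube n Sg U u) {x : E n} (hx : x ∈ U) (a : E n) :
    HasDerivAt (fun t : ℝ => gradient u (x + t • a)) (gmtSimH u x a) 0 :=
  ix2k_line (((ix2k_N_smooth hT).contDiffAt (hT.opn.mem_nhds hx)).differentiableAt (by simp)).hasFDerivAt a

theorem ix2k_line_H (hT : Ix2Tube n Sg U u) {x : E n} (hx : x ∈ U) (a : E n) :
    HasDerivAt (fun t : ℝ => gmtSimH u (x + t • a)) (ix2T u x a) 0 :=
  ix2k_line (((ix2k_H_smooth hT).contDiffAt (hT.opn.mem_nhds hx)).differentiableAt (by simp)).hasFDerivAt a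

theorem ix2k_line_T (hT : Ix2Tube n Sg U u) {x : E n} (hx : x ∈ U) (a : E n) :
    HasDerivAt (fun t : ℝ => ix2T u (x + t • a)) (ix2Q u x a) 0 :=
  ix2k_line (((ix2k_T_smooth hT).contDiffAt (hT.opn.mem_nhds hx)).differentiableAt (by simp)).hasFDerivAt a

/-- two functions which agree along the line inside `U` have the same derivative. -/
theorem ix2k_line_unique {Y : Type*} [NormedAddCommGroup Y] [NormedSpace ℝ Y] (hT : Ix2Tube n Sg U u) {x : E n} (hx : x ∈ U) (a : E n)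
    {f g : E n → Y} {f' g' : Y} (hf : HasDerivAt (fun t : ℝ => f (x + t • a)) f' 0)
    (hg : HasDerivAt (fun t : ℝ => g (x + t • a)) g' 0) (h : ∀ z ∈ U, f z = g z) : f' = g' := by
  refine HasDerivAt.unique hf (hg.congr_of_eventuallyEq ?_)
  filter_upwards [ix2k_line_mem hT hx a] with t ht using h _ ht

/-- (C1) differentiate `⟪z, N z⟫ = u z`. -/
theorem ix2k_H_x (hT : Ix2Tube n Sg U u) {x : E n} (hx : x ∈ U) : gmtSimH u x x = 0 := by
  have key : ∀ a : E n, ⟪gmtSimH u x x, a⟫ = 0 := by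
    intro a
    have h1 := (ix2k_line_id x a).inner ℝ (ix2k_line_N hT hx a)
    have h2 := ix2k_line_unique hT hx a (f := fun z => ⟪z, gradient u z⟫) (g := u) h1 (ix2k_line_u hT hx a) hT.hom
    simp only [zero_smul, add_zero] at h2
    rw [ix2k_H_symm hT hx, ]
    rw [real_inner_comm a] at h2
    linarith
  have := key (gmtSimH u x x)
  exact inner_self_eq_zero.1 this

theorem ix2k_T_symm12 (hT : Ix2Tube n Sg U u) {x : E n} (hx : x ∈ U) (a b : E n) :
    ix2T u x a b = ix2T u x b a := by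
  have h : ContDiffAt ℝ ∞ (gradient u) x := (ix2k_N_smooth hT).contDiffAt (hT.opn.mem_nhds hx)
  exact (h.isSymmSndFDerivAt (by rw [minSmoothness_of_isRCLikeNormedField]; exact ENat.LEInfty.out)).eq a b

theorem ix2k_T_symm23 (hT : Ix2Tube n Sg U u) {x : E n} (hx : x ∈ U) (a b c : E n) :
    ⟪ix2T u x a b, c⟫ = ⟪ix2T u x a c, b⟫ := by
  have h1 := ((ix2k_line_H hT hx a).clm_apply (hasDerivAt_const (0 : ℝ) b)).inner ℝ (hasDerivAt_const (0 : ℝ) c)
  have h2 := ((ix2k_line_H hT hx a).clm_apply (hasDerivAt_const (0 : ℝ) c)).inner ℝ (hasDerivAt_const (0 : ℝ) b)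
  have h3 := ix2k_line_unique hT hx a (f := fun z => ⟪gmtSimH u z b, c⟫) (g := fun z => ⟪gmtSimH u z c, b⟫) h1 h2
    (fun z hz => by rw [ix2k_H_symm hT hz, real_inner_comm])
  simpa using h3

/-- (E2) differentiate `h z (N z) = 0`. -/
theorem ix2k_T_N (hT : Ix2Tube n Sg U u) {x : E n} (hx : x ∈ U) (a : E n) :
    ix2T u x a (gradient u x) = - gmtSimH u x (gmtSimH u x a) := by
  have h1 := (ix2k_line_H hT hx a).clm_apply (ix2k_line_N hT hx a)
  have h3 := ix2k_line_unique hT hx a (f := fun z => gmtSimH u z (gradient u z)) (g := fun _ => (0 : E n)) h1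
    (hasDerivAt_const (0 : ℝ) (0 : E n)) (fun z hz => ix2k_H_N hT hz)
  simp only [zero_smul, add_zero] at h3
  exact eq_neg_of_add_eq_zero_left h3

/-- (C2) differentiate `h z z = 0`. -/
theorem ix2k_T_x (hT : Ix2Tube n Sg U u) {x : E n} (hx : x ∈ U) (a : E n) :
    ix2T u x a x = - gmtSimH u x a := by
  have h1 := (ix2k_line_H hT hx a).clm_apply (ix2k_line_id x a)
  have h3 := ix2k_line_unique hT hx a (f := fun z => gmtSimH u z z) (g := fun _ => (0 : E n)) h1
    (hasDerivAt_const (0 : ℝ) (0 : E n)) (fun z hz => ix2k_H_x hT hz)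
  simp only [zero_smul, add_zero] at h3
  exact eq_neg_of_add_eq_zero_left h3

theorem ix2k_Q_symm12 (hT : Ix2Tube n Sg U u) {x : E n} (hx : x ∈ U) (a b c : E n) :
    ix2Q u x a b c = ix2Q u x b a c := by
  have h : ContDiffAt ℝ ∞ (gmtSimH u) x := (ix2k_H_smooth hT).contDiffAt (hT.opn.mem_nhds hx)
  have h2 : ix2Q u x a b = ix2Q u x b a :=
    (h.isSymmSndFDerivAt (by rw [minSmoothness_of_isRCLikeNormedField]; exact ENat.LEInfty.out)).eq a b
  rw [h2]

theorem ix2k_Q_symm23 (hT : Ix2Tube n Sg U u) {x : E n} (hx : x ∈ U) (a b c : E n) :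
    ix2Q u x a b c = ix2Q u x a c b := by
  have h1 := ((ix2k_line_T hT hx a).clm_apply (hasDerivAt_const (0 : ℝ) b)).clm_apply (hasDerivAt_const (0 : ℝ) c)
  have h2 := ((ix2k_line_T hT hx a).clm_apply (hasDerivAt_const (0 : ℝ) c)).clm_apply (hasDerivAt_const (0 : ℝ) b)
  have h3 := ix2k_line_unique hT hx a (f := fun z => ix2T u z b c) (g := fun z => ix2T u z c b) h1 h2
    (fun z hz => ix2k_T_symm12 hT hz b c)
  simpa using h3

theorem ix2k_Q_symm34 (hT : Ix2Tube n Sg U u) {x : E n} (hx : x ∈ U) (a b c d : E n) :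
    ⟪ix2Q u x a b c, d⟫ = ⟪ix2Q u x a b d, c⟫ := by
  have h1 := (((ix2k_line_T hT hx a).clm_apply (hasDerivAt_const (0 : ℝ) b)).clm_apply (hasDerivAt_const (0 : ℝ) c)).inner ℝ
    (hasDerivAt_const (0 : ℝ) d)
  have h2 := (((ix2k_line_T hT hx a).clm_apply (hasDerivAt_const (0 : ℝ) b)).clm_apply (hasDerivAt_const (0 : ℝ) d)).inner ℝ
    (hasDerivAt_const (0 : ℝ) c)
  have h3 := ix2k_line_unique hT hx a (f := fun z => ⟪ix2T u z b c, d⟫) (g := fun z => ⟪ix2T u z b d, c⟫) h1 h2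
    (fun z hz => ix2k_T_symm23 hT hz b c d)
  simpa using h3

/-- (E3) differentiate (E2): `Q b a N + T a (h b) = - T b (h a) - h (T b a)`; put `a = b = v`, pair with `N`, use the symmetries, (E2), `h N = 0`. -/
theorem ix2k_Q_NN (hT : Ix2Tube n Sg U u) {x : E n} (hx : x ∈ U) (v : E n) :
    ⟪ix2Q u x (gradient u x) (gradient u x) v, v⟫ = 2 * ⟪gmtSimH u x (gmtSimH u x v), gmtSimH u x v⟫ := by
  -- differentiate (E2) in the direction `v`
  have h1 := ((ix2k_line_T hT hx v).clm_apply (hasDerivAt_const (0 : ℝ) v)).clm_apply (ix2k_line_N hT hx v)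
  have h2 := ((ix2k_line_H hT hx v).clm_apply ((ix2k_line_H hT hx v).clm_apply (hasDerivAt_const (0 : ℝ) v))).neg
  have h3 := ix2k_line_unique hT hx v (f := fun z => ix2T u z v (gradient u z))
    (g := fun z => - gmtSimH u z (gmtSimH u z v)) h1 h2 (fun z hz => ix2k_T_N hT hz v)
  simp only [zero_smul, add_zero, map_zero] at h3
  have h4 : ⟪ix2Q u x v v (gradient u x), gradient u x⟫ = 2 * ⟪gmtSimH u x (gmtSimH u x v), gmtSimH u x v⟫ := by
    have e1 : ix2Q u x v v (gradient u x) = - (ix2T u x v (gmtSimH u x v) + gmtSimH u x (ix2T u x v v)) - ix2T u x v (gmtSimH u x v) :=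
      eq_sub_of_add_eq h3
    have e2 : ⟪ix2T u x v (gmtSimH u x v), gradient u x⟫ = - ⟪gmtSimH u x (gmtSimH u x v), gmtSimH u x v⟫ := by
      rw [ix2k_T_symm23 hT hx, ix2k_T_N hT hx, inner_neg_left]
    have e3 : ⟪gmtSimH u x (ix2T u x v v), gradient u x⟫ = 0 := by
      rw [ix2k_H_symm hT hx, ix2k_H_N hT hx, inner_zero_right]
    rw [e1, inner_sub_left, inner_neg_left, inner_add_left, e2, e3]
    ring
  rw [← h4, ix2k_Q_symm23 hT hx, ix2k_Q_symm12 hT hx, ix2k_Q_symm34 hT hx, ix2k_Q_symm23 hT hx]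

/-- (C3) differentiate (C2): `Q b a z + T a b = - T b a`; put `b = x`, use (C2). -/
theorem ix2k_Q_xx (hT : Ix2Tube n Sg U u) {x : E n} (hx : x ∈ U) (v : E n) :
    ⟪ix2Q u x x x v, v⟫ = 2 * ⟪gmtSimH u x v, v⟫ := by
  have h1 := ((ix2k_line_T hT hx x).clm_apply (hasDerivAt_const (0 : ℝ) v)).clm_apply (ix2k_line_id x x)
  have h2 := ((ix2k_line_H hT hx x).clm_apply (hasDerivAt_const (0 : ℝ) v)).neg
  have h3 := ix2k_line_unique hT hx x (f := fun z => ix2T u z v z)
    (g := fun z => - gmtSimH u z v) h1 h2 (fun z hz => ix2k_T_x hT hz v)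
  simp only [zero_smul, add_zero, map_zero] at h3
  have e1 : ix2Q u x x v x = - ix2T u x x v - ix2T u x v x := eq_sub_of_add_eq h3
  rw [ix2k_Q_symm23 hT hx, e1, ix2k_T_symm12 hT hx x v, ix2k_T_x hT hx]
  rw [inner_sub_left, inner_neg_left, inner_neg_left]
  ring

/-! ## CURVE -/

/-- **L0**  `c t = ‖π(x + τ t • e)‖⁻¹ • π(x + τ t • e)`, `π = gmtSimPi u`, `τ t = δ sin (t/δ)` with `ball x (δ (‖e‖+1)) ⊆ U ∩ {π ≠ 0}`. -/
theorem ix2k_curve (hT : Ix2Tube n Sg U u) {x : E n} (hx : x ∈ Sg) {e : E n} (he : Ix2Tan u x e) :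
    ∃ c : ℝ → E n, ContDiff ℝ ∞ c ∧ c 0 = x ∧ deriv c 0 = e ∧ ∀ t, c t ∈ Sg := by
  obtain ⟨hxU, hux, hnx⟩ := (hT.mem_iff x).1 hx
  have hπs : ContDiffOn ℝ ∞ (gmtSimPi u) U :=
    contDiffOn_id.sub (hT.smooth.smul (gmtSim_contDiffOn_gradient hT.opn hT.smooth))
  have hπx : gmtSimPi u x = x := by unfold gmtSimPi; rw [hux]; simp
  -- a neighbourhood on which `π ≠ 0`
  have hcont : ContinuousAt (gmtSimPi u) x := (hπs.continuousOn).continuousAt (hT.opn.mem_nhds hxU)
  have hne : ∀ᶠ y in 𝓝 x, gmtSimPi u y ≠ 0 := by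
    have h0 : gmtSimPi u x ≠ 0 := by
      rw [hπx]; intro h; rw [h, norm_zero] at hnx; exact zero_ne_one hnx
    exact hcont.eventually_ne h0
  obtain ⟨ρ, hρ, hball⟩ := Metric.eventually_nhds_iff.1 (hne.and (hT.opn.eventually_mem hxU))
  set δ : ℝ := ρ / (2 * (‖e‖ + 1)) with hδ
  have hδpos : 0 < δ := by positivity
  set y : ℝ → E n := fun t => x + (δ * Real.sin (t / δ)) • e with hy
  have hyball : ∀ t, gmtSimPi u (y t) ≠ 0 ∧ y t ∈ U := by
    intro t
    apply hball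
    rw [hy, dist_eq_norm]
    simp only [add_sub_cancel_left]
    rw [norm_smul, Real.norm_eq_abs, abs_mul, abs_of_pos hδpos]
    have h1 : |Real.sin (t / δ)| ≤ 1 := Real.abs_sin_le_one _
    calc δ * |Real.sin (t / δ)| * ‖e‖ ≤ δ * 1 * (‖e‖ + 1) := by
          gcongr
          linarith
      _ = ρ / 2 := by rw [hδ]; field_simp
      _ < ρ := by linarith
  have hys : ContDiff ℝ ∞ y := by
    rw [hy]
    exact contDiff_const.add (((contDiff_const.mul (Real.contDiff_sin.comp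
      (contDiff_id.div_const δ)))).smul contDiff_const)
  set w : ℝ → E n := fun t => gmtSimPi u (y t) with hw
  have hws : ContDiff ℝ ∞ w := ix2c_comp_smooth hπs hys (fun t => (hyball t).2)
  have hw0 : ∀ t, w t ≠ 0 := fun t => (hyball t).1
  set r : ℝ → ℝ := fun t => ‖w t‖⁻¹ with hr
  have hrs : ContDiff ℝ ∞ r := by
    rw [hr]
    exact (hws.norm ℝ hw0).inv (fun t => norm_ne_zero_iff.2 (hw0 t))
  have hrpos : ∀ t, 0 < r t := fun t => inv_pos.2 (norm_pos_iff.2 (hw0 t))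
  have hy0 : y 0 = x := by simp [hy]
  have hw00 : w 0 = x := by rw [hw]; simp only; rw [hy0, hπx]
  have hr0 : r 0 = 1 := by rw [hr]; simp only; rw [hw00, hnx, inv_one]
  refine ⟨fun t => r t • w t, hrs.smul hws, by simp only [hr0, hw00, one_smul], ?_, ?_⟩
  · -- the derivative
    have hdy : HasDerivAt y e 0 := by
      have h1 : HasDerivAt (fun t : ℝ => t / δ) (1 / δ) 0 := (hasDerivAt_id (0 : ℝ)).div_const δ
      have h2 : HasDerivAt (fun t : ℝ => Real.sin (t / δ)) (Real.cos (0 / δ) * (1 / δ)) 0 := h1.sin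
      have h3 : HasDerivAt (fun t : ℝ => δ * Real.sin (t / δ)) 1 0 := by
        have := h2.const_mul δ
        simp only [zero_div, Real.cos_zero, one_mul] at this
        rwa [mul_one_div_cancel hδpos.ne'] at this
      have h4 := (h3.smul_const e).const_add x
      rw [one_smul] at h4
      exact h4
    have hdu : HasFDerivAt u (fderiv ℝ u x) x :=
      ((hT.smooth.contDiffAt (hT.opn.mem_nhds hxU)).differentiableAt (by simp)).hasFDerivAt
    have hdN : HasFDerivAt (gradient u) (gmtSimH u x) x :=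
      (((gmtSim_contDiffOn_gradient hT.opn hT.smooth).contDiffAt
        (hT.opn.mem_nhds hxU)).differentiableAt (by simp)).hasFDerivAt
    have hdπ : HasFDerivAt (gmtSimPi u) (ContinuousLinearMap.id ℝ (E n) -
        (u x • gmtSimH u x + (fderiv ℝ u x).smulRight (gradient u x))) x :=
      (hasFDerivAt_id (𝕜 := ℝ) x).sub (hdu.smul hdN)
    have hdw : HasDerivAt w e 0 := by
      have h1 : HasFDerivAt (gmtSimPi u) (ContinuousLinearMap.id ℝ (E n) -
        (u x • gmtSimH u x + (fderiv ℝ u x).smulRight (gradient u x))) (y 0) := by rw [hy0]; exact hdπ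
      have h2 := h1.comp_hasDerivAt 0 hdy
      refine h2.congr_deriv ?_
      have h3 : fderiv ℝ u x e = 0 := by
        rw [← gmtSim_inner_gradient, real_inner_comm]; exact he.2
      simp [hux, h3]
    have hdr : HasDerivAt r (deriv r 0) 0 := ix2c_hasDerivAt hrs 0
    have hdc : HasDerivAt (fun t => r t • w t) (r 0 • e + deriv r 0 • w 0) 0 := hdr.fun_smul hdw
    rw [hr0, hw00, one_smul] at hdc
    -- `⟪c, c⟫ = 1`
    have hone : ∀ t, ⟪r t • w t, r t • w t⟫ = 1 := by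
      intro t
      rw [real_inner_self_eq_norm_sq, norm_smul, Real.norm_eq_abs, abs_of_pos (hrpos t)]
      simp only [hr]
      rw [inv_mul_cancel₀ (norm_ne_zero_iff.2 (hw0 t)), one_pow]
    have hin := hdc.inner ℝ hdc
    have hconst : HasDerivAt (fun t => ⟪r t • w t, r t • w t⟫) 0 0 := by
      simp only [hone]; exact hasDerivAt_const _ _
    have h4 := hin.unique hconst
    simp only [hr0, hw00, one_smul] at h4
    have h5 : ⟪x, e + deriv r 0 • x⟫ = deriv r 0 := by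
      rw [inner_add_right, inner_smul_right, real_inner_self_eq_norm_sq, hnx, real_inner_comm, he.1]
      ring
    rw [real_inner_comm (x) (e + deriv r 0 • x), h5] at h4
    have h6 : deriv r 0 = 0 := by linarith
    rw [h6, zero_smul, add_zero] at hdc
    exact hdc.deriv
  · intro t
    rw [hT.mem_iff]
    have hp := hT.proj (y t) (hyball t).2
    refine ⟨hT.conic _ hp.1 _ (hrpos t), ?_, ?_⟩
    · rw [hT.homog _ hp.1 _ (hrpos t), hp.2, mul_zero]
    · rw [norm_smul, Real.norm_eq_abs, abs_of_pos (hrpos t)]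
      simp only [hr]
      exact inv_mul_cancel₀ (norm_ne_zero_iff.2 (hw0 t))

/-- jets of a curve in the link: differentiate `u (c t) = 0` (`deriv (u ∘ c) = ⟪N ∘ c, c'⟫`, then `ix2c_inner1/2`, `ix2c_comp1/2` for `F = gradient u`) and `⟪c t, c t⟫ = 1` (`ix2c_inner1/2/3`). -/
theorem ix2k_jets (hT : Ix2Tube n Sg U u) {c : ℝ → E n} (hc : ContDiff ℝ ∞ c) (hcS : ∀ t, c t ∈ Sg) :
    Ix2Tan u (c 0) (deriv c 0) ∧
    ⟪gradient u (c 0), deriv (deriv c) 0⟫ = - ⟪gmtSimH u (c 0) (deriv c 0), deriv c 0⟫ ∧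
    ⟪c 0, deriv (deriv c) 0⟫ = - ‖deriv c 0‖ ^ 2 ∧
    ⟪gradient u (c 0), deriv (deriv (deriv c)) 0⟫ = - ⟪ix2T u (c 0) (deriv c 0) (deriv c 0), deriv c 0⟫
        - 3 * ⟪gmtSimH u (c 0) (deriv c 0), deriv (deriv c) 0⟫ ∧
    ⟪c 0, deriv (deriv (deriv c)) 0⟫ = - 3 * ⟪deriv c 0, deriv (deriv c) 0⟫ := by
  have hcU : ∀ t, c t ∈ U := fun t => ((hT.mem_iff _).1 (hcS t)).1
  have hc' := ix2c_deriv_smooth hc
  have hc'' := ix2c_deriv_smooth hc'
  -- the sphere
  have hg : (fun t => ⟪c t, c t⟫) = fun _ => (1 : ℝ) := by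
    funext t
    rw [real_inner_self_eq_norm_sq, ((hT.mem_iff _).1 (hcS t)).2.2, one_pow]
  have g1 := ix2c_inner1 hc hc
  have g2 := ix2c_inner2 hc hc
  have g3 := ix2c_inner3 hc hc
  rw [hg] at g1 g2 g3
  simp only [deriv_const'] at g1 g2 g3
  have g1' := congrFun g1 0
  have g2' := congrFun g2 0
  have g3' := congrFun g3 0
  -- the cone
  have hNs : ContDiffOn ℝ ∞ (gradient u) U := gmtSim_contDiffOn_gradient hT.opn hT.smooth
  have hNc : ContDiff ℝ ∞ (fun t => gradient u (c t)) := ix2c_comp_smooth hNs hc hcU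
  have hf : (fun t => u (c t)) = fun _ => (0 : ℝ) := by
    funext t
    exact ((hT.mem_iff _).1 (hcS t)).2.1
  have f1 := ix2c_comp1 hT.opn hT.smooth hc hcU
  rw [hf] at f1
  simp only [deriv_const'] at f1
  have hk : (fun t => ⟪gradient u (c t), deriv c t⟫) = fun _ => (0 : ℝ) := by
    funext t
    rw [gmtSim_inner_gradient]
    exact (congrFun f1 t).symm
  have k1 := ix2c_inner1 hNc hc'
  have k2 := ix2c_inner2 hNc hc'
  rw [hk] at k1 k2
  simp only [deriv_const'] at k1 k2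
  have N1 : deriv (fun t => gradient u (c t)) = fun t => gmtSimH u (c t) (deriv c t) :=
    ix2c_comp1 hT.opn hNs hc hcU
  have N2 : deriv (deriv (fun t => gradient u (c t))) = fun t =>
      ix2T u (c t) (deriv c t) (deriv c t) + gmtSimH u (c t) (deriv (deriv c) t) :=
    ix2c_comp2 hT.opn hNs hc hcU
  rw [N1] at k1
  rw [N2, N1] at k2
  have k0' := congrFun hk 0
  have k1' := congrFun k1 0
  have k2' := congrFun k2 0
  beta_reduce at k1' k2'
  have e1 : ⟪deriv c 0, c 0⟫ = ⟪c 0, deriv c 0⟫ := real_inner_comm _ _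
  have e2 : ⟪deriv (deriv c) 0, c 0⟫ = ⟪c 0, deriv (deriv c) 0⟫ := real_inner_comm _ _
  have e3 : ⟪deriv (deriv (deriv c)) 0, c 0⟫ = ⟪c 0, deriv (deriv (deriv c)) 0⟫ := real_inner_comm _ _
  have e4 : ⟪deriv (deriv c) 0, deriv c 0⟫ = ⟪deriv c 0, deriv (deriv c) 0⟫ := real_inner_comm _ _
  have e5 : ⟪deriv c 0, deriv c 0⟫ = ‖deriv c 0‖ ^ 2 := real_inner_self_eq_norm_sq _
  have e6 : ⟪gmtSimH u (c 0) (deriv (deriv c) 0), deriv c 0⟫ =
      ⟪gmtSimH u (c 0) (deriv c 0), deriv (deriv c) 0⟫ := by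
    rw [ix2k_H_symm hT (hcU 0), real_inner_comm]
  have e7 : ⟪deriv c 0, gradient u (c 0)⟫ = ⟪gradient u (c 0), deriv c 0⟫ := real_inner_comm _ _
  rw [inner_add_left] at k2'
  refine ⟨⟨?_, ?_⟩, ?_, ?_, ?_, ?_⟩ <;> linarith

/-! ## TR -/

/-- the trace as a continuous linear functional. -/
noncomputable def ix2kTr (n : ℕ) : (E n →L[ℝ] E n) →L[ℝ] ℝ :=
  ∑ i, (innerSL ℝ (eb i)).comp (ContinuousLinearMap.apply ℝ (E n) (eb i))

theorem ix2kTr_apply (B : E n →L[ℝ] E n) : ix2kTr n B = ∑ i, ⟪B (eb i), eb i⟫ := by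
  simp [ix2kTr, real_inner_comm]

theorem ix2kTr_deriv {B : ℝ → E n →L[ℝ] E n} (hB : ContDiff ℝ ∞ B) :
    deriv (fun t => ix2kTr n (B t)) = fun t => ix2kTr n (deriv B t) := by
  funext t
  exact ((ix2kTr n).hasFDerivAt.comp_hasDerivAt t (ix2c_hasDerivAt hB t)).deriv

theorem ix2kTr_H (hT : Ix2Tube n Sg U u) {z : E n} (hz : z ∈ U) (h0 : u z = 0) : ix2kTr n (gmtSimH u z) = 0 := by
  have h := hT.harm z hz h0
  rw [gmtSim_div_eq_tr] at h
  rw [ix2kTr_apply]
  exact h

theorem ix2k_Sg_U (hT : Ix2Tube n Sg U u) {z : E n} (hz : z ∈ Sg) : z ∈ U := ((hT.mem_iff z).1 hz).1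

/-- (H0)+(H1): on the cone `D(Δu)[w] = - P ⟪N, w⟫`.   `w = N`: (E2) and the symmetries: `T N = - h²`.   `w = x`: (C2): `T x = - h`, `tr h = 0`.
`w` tangent: `t ↦ tr h (c t) = 0` along a curve of the link (`harm`), first derivative. -/
theorem ix2k_trT (hT : Ix2Tube n Sg U u) {x : E n} (hx : x ∈ Sg) (w : E n) :
    ∑ i, ⟪ix2T u x w (eb i), eb i⟫ = - gmtSimA u x * ⟪gradient u x, w⟫ := by
  obtain ⟨hxU, hu0, hx1⟩ := (hT.mem_iff x).1 hx
  have hN1 : ⟪gradient u x, gradient u x⟫ = 1 := by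
    rw [real_inner_self_eq_norm_sq, hT.eik x hxU]; norm_num
  have hxx : ⟪x, x⟫ = 1 := by
    rw [real_inner_self_eq_norm_sq, hx1]; norm_num
  have hxN : ⟪x, gradient u x⟫ = 0 := by rw [hT.hom x hxU, hu0]
  -- the three directions
  have c1 : ix2kTr n (ix2T u x (gradient u x)) = - gmtSimA u x := by
    rw [ix2kTr_apply]
    unfold gmtSimA
    rw [← Finset.sum_neg_distrib]
    refine Finset.sum_congr rfl fun i _ => ?_
    rw [ix2k_T_symm12 hT hxU, ix2k_T_N hT hxU, inner_neg_left, ix2k_H_symm hT hxU, real_inner_self_eq_norm_sq]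
  have c2 : ix2kTr n (ix2T u x x) = 0 := by
    have h := ix2kTr_H hT hxU hu0
    rw [ix2kTr_apply] at h ⊢
    rw [← neg_eq_zero, ← Finset.sum_neg_distrib, ← h]
    refine Finset.sum_congr rfl fun i _ => ?_
    rw [ix2k_T_symm12 hT hxU, ix2k_T_x hT hxU, inner_neg_left, neg_neg]
  have c3 : ∀ e : E n, Ix2Tan u x e → ix2kTr n (ix2T u x e) = 0 := by
    intro e he
    obtain ⟨c, hc, hc0, hc1, hcS⟩ := ix2k_curve hT hx he
    have hcU : ∀ t, c t ∈ U := fun t => ix2k_Sg_U hT (hcS t)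
    have hB := ix2c_comp_smooth (ix2k_H_smooth hT) hc hcU
    have hz : (fun t => ix2kTr n (gmtSimH u (c t))) = fun _ => (0 : ℝ) := by
      funext t
      exact ix2kTr_H hT (hcU t) ((hT.mem_iff _).1 (hcS t)).2.1
    have h1 := congrFun (ix2kTr_deriv hB) 0
    rw [hz, ix2c_comp1 hT.opn (ix2k_H_smooth hT) hc hcU] at h1
    simp only [deriv_const, hc0, hc1] at h1
    exact h1.symm
  have hw : w = ix2Pr x (gradient u x) w + ⟪w, gradient u x⟫ • gradient u x + ⟪w, x⟫ • x := by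
    unfold ix2Pr
    abel
  have htan : Ix2Tan u x (ix2Pr x (gradient u x) w) := by
    unfold ix2Pr
    constructor
    · rw [inner_sub_left, inner_sub_left, inner_smul_left, inner_smul_left, real_inner_comm x (gradient u x), hxN, hxx]
      simp
    · rw [inner_sub_left, inner_sub_left, inner_smul_left, inner_smul_left, hxN, hN1]
      simp
  rw [← ix2kTr_apply]
  conv_lhs => rw [hw]
  rw [map_add, map_add, map_add, map_add, map_smul, map_smul, map_smul, map_smul, c1, c2, c3 _ htan,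
    real_inner_comm w (gradient u x)]
  simp only [smul_eq_mul]
  ring

/-- (H3): second derivative of `t ↦ tr h (c t) = 0`, `c' 0 = v`: `∑ ⟪Q v v e_i, e_i⟫ + ∑ ⟪T c'' e_i, e_i⟫ = 0`, `ix2k_trT`, `ix2k_jets`. -/
theorem ix2k_trQ (hT : Ix2Tube n Sg U u) {x : E n} (hx : x ∈ Sg) {v : E n} (hv : Ix2Tan u x v) :
    ∑ i, ⟪ix2Q u x v v (eb i), eb i⟫ = - gmtSimA u x * ⟪gmtSimH u x v, v⟫ := by
  obtain ⟨c, hc, hc0, hc1, hcS⟩ := ix2k_curve hT hx hv
  have hcU : ∀ t, c t ∈ U := fun t => ix2k_Sg_U hT (hcS t)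
  have hB := ix2c_comp_smooth (ix2k_H_smooth hT) hc hcU
  have hz : (fun t => ix2kTr n (gmtSimH u (c t))) = fun _ => (0 : ℝ) := by
    funext t
    exact ix2kTr_H hT (hcU t) ((hT.mem_iff _).1 (hcS t)).2.1
  have h1 : deriv (deriv (fun t => ix2kTr n (gmtSimH u (c t)))) 0
      = ix2kTr n (deriv (deriv (fun t => gmtSimH u (c t))) 0) := by
    rw [ix2kTr_deriv hB, ix2kTr_deriv (ix2c_deriv_smooth hB)]
  rw [hz, ix2c_comp2 hT.opn (ix2k_H_smooth hT) hc hcU] at h1
  simp only [deriv_const, deriv_const', hc0, hc1] at h1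
  have h2 : ix2kTr n (fderiv ℝ (fderiv ℝ (gmtSimH u)) x v v + fderiv ℝ (gmtSimH u) x (deriv (deriv c) 0))
      = ix2kTr n (ix2Q u x v v) + ix2kTr n (ix2T u x (deriv (deriv c) 0)) := by
    rw [map_add]
    rfl
  rw [h2, ix2kTr_apply, ix2kTr_apply, ix2k_trT hT hx] at h1
  have h3 := (ix2k_jets hT hc hcS).2.1
  rw [hc0, hc1] at h3
  rw [h3] at h1
  linarith

end Claimed.Agent.R323
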