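import Claimed.Agent.R323.Ix.TwoKit
import Claimed.Agent.R323.Ix.TwoAlg

/-!
# Row 323, block F1, file 4: THE TESTS (first, second and third order conditions along curves of the link).   (helper201; prefix `ix2t_`)

`Z_s(x,y) = φ x (1 - ⟪x,y⟫) - s ⟪N x, y⟫ ≥ 0` on `Sg × Sg`.
* `ix2t_eb`, `ix2t_eb'` : **(EB)**  `φ x |V|² + s h_x(V,V) ≥ 0`.
* `ix2t_to`   : **(TO)**  at a diagonal contact `s D³u(e,e,e) = 0`.
* `ix2t_dp_fo_x`, `ix2t_dp_fo_y`, `ix2t_dp_so` : conditions at a contact `x ≠ y` (the accelerations of the curves are eliminated by the multiplier lemma).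
* `ix2t_dg_fo`, `ix2t_dg_so` : conditions at a diagonal contact for `G(x,V) = φ x |V|² + s h_x(V,V)`.
-/

set_option autoImplicit false
open scoped ContDiff ENNReal RealInnerProductSpace Topology
open MeasureTheory Metric Set Filter

namespace Claimed.Agent.R323

open Claimed.Agent.Gmt

variable {n : ℕ} {Sg U : Set (E n)} {u : E n → ℝ}

theorem ix2t_memU (hT : Ix2Tube n Sg U u) {x : E n} (hx : x ∈ Sg) : x ∈ U := ((hT.mem_iff x).1 hx).1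

theorem ix2t_on (hT : Ix2Tube n Sg U u) {x : E n} (hx : x ∈ Sg) : Ix2ON x (gradient u x) := by
  obtain ⟨h1, h2, h3⟩ := (hT.mem_iff x).1 hx
  exact ⟨h3, hT.eik x h1, by rw [hT.hom x h1, h2]⟩

theorem ix2t_pr_tan (hT : Ix2Tube n Sg U u) {x : E n} (hx : x ∈ Sg) (w : E n) :
    Ix2Tan u x (ix2Pr x (gradient u x) w) :=
  ⟨ix2a_pr_x (ix2t_on hT hx) w, ix2a_pr_n (ix2t_on hT hx) w⟩

/-- the acceleration of a curve of the link, paired with a functional vanishing on the tangent space. -/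
theorem ix2t_mult (hT : Ix2Tube n Sg U u) {c : ℝ → E n} (hc : ContDiff ℝ ∞ c) (hcS : ∀ t, c t ∈ Sg)
    (ℓ : E n →L[ℝ] ℝ) (hℓ : ∀ e, Ix2Tan u (c 0) e → ℓ e = 0) :
    ℓ (deriv (deriv c) 0) = - ⟪gmtSimH u (c 0) (deriv c 0), deriv c 0⟫ * ℓ (gradient u (c 0))
      - ‖deriv c 0‖ ^ 2 * ℓ (c 0) := by
  obtain ⟨-, j2, j3, -, -⟩ := ix2k_jets hT hc hcS
  rw [ix2a_multiplier (c 0) (gradient u (c 0)) ℓ (fun w => hℓ _ (ix2t_pr_tan hT (hcS 0) w)),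
    real_inner_comm (gradient u (c 0)), j2, real_inner_comm (c 0), j3]
  ring

/-- `h(V,V) = h(PV,PV)`. -/
theorem ix2t_H_pr (hT : Ix2Tube n Sg U u) {x : E n} (hx : x ∈ Sg) (V : E n) :
    gmtSimH u x (ix2Pr x (gradient u x) V) = gmtSimH u x V := by
  have hxU := ix2t_memU hT hx
  simp only [ix2Pr, map_sub, map_smul, ix2k_H_N hT hxU, ix2k_H_x hT hxU]
  simp

theorem ix2t_H_tan (hT : Ix2Tube n Sg U u) {x : E n} (hx : x ∈ Sg) (V : E n) :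
    Ix2Tan u x (gmtSimH u x V) := by
  have hxU := ix2t_memU hT hx
  constructor
  · rw [ix2k_H_symm hT hxU, ix2k_H_x hT hxU, inner_zero_right]
  · rw [ix2k_H_symm hT hxU, ix2k_H_N hT hxU, inner_zero_right]

/-! ## one point fixed -/

/-- the function `k t = Z_s(x, c t)` and its derivatives. -/
theorem ix2t_k (φ : E n → ℝ) (s : ℝ) (x : E n) {c : ℝ → E n} (hc : ContDiff ℝ ∞ c) :
    ContDiff ℝ ∞ (fun t => ix2Z u φ s x (c t)) ∧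
    deriv (deriv (fun t => ix2Z u φ s x (c t))) = (fun t => - ⟪φ x • x + s • gradient u x, deriv (deriv c) t⟫) ∧
    deriv (deriv (deriv (fun t => ix2Z u φ s x (c t)))) =
      (fun t => - ⟪φ x • x + s • gradient u x, deriv (deriv (deriv c)) t⟫) := by
  have e0 : (fun t => ix2Z u φ s x (c t)) = fun t => φ x - ⟪φ x • x + s • gradient u x, c t⟫ := by
    funext t
    simp only [ix2Z, inner_add_left, inner_smul_left, RCLike.conj_to_real]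
    ring
  have hc1 := ix2c_deriv_smooth hc
  have hc2 := ix2c_deriv_smooth hc1
  rw [e0]
  refine ⟨contDiff_const.sub (ix2c_inner_const_smooth _ hc), ?_, ?_⟩
  · rw [ix2c_const_sub1 _ (ix2c_inner_const_smooth _ hc), ix2c_inner_const1 _ hc,
      ix2c_neg_fun1 (ix2c_inner_const_smooth _ hc1), ix2c_inner_const1 _ hc1]
  · rw [ix2c_const_sub1 _ (ix2c_inner_const_smooth _ hc), ix2c_inner_const1 _ hc,
      ix2c_neg_fun1 (ix2c_inner_const_smooth _ hc1), ix2c_inner_const1 _ hc1,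
      ix2c_neg_fun1 (ix2c_inner_const_smooth _ hc2), ix2c_inner_const1 _ hc2]

theorem ix2t_Z_self (hT : Ix2Tube n Sg U u) (φ : E n → ℝ) (s : ℝ) {x : E n} (hx : x ∈ Sg) :
    ix2Z u φ s x x = 0 := by
  have h := ix2t_on hT hx
  simp [ix2Z, h.x1, h.nx]

/-- **(EB)** for tangent vectors. -/
theorem ix2t_eb (hT : Ix2Tube n Sg U u) {φ : E n → ℝ} {s : ℝ} {x : E n} (hx : x ∈ Sg)
    (hZ : ∀ y ∈ Sg, 0 ≤ ix2Z u φ s x y) {e : E n} (he : Ix2Tan u x e) :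
    0 ≤ φ x * ‖e‖ ^ 2 + s * ⟪gmtSimH u x e, e⟫ := by
  obtain ⟨c, hc, c0, c1, hcS⟩ := ix2k_curve hT hx he
  obtain ⟨k0, k2, -⟩ := ix2t_k (u := u) φ s x hc
  have hmin := (ix2c_min2 k0 (fun t => by
    show ix2Z u φ s x (c 0) ≤ ix2Z u φ s x (c t)
    rw [c0, ix2t_Z_self hT φ s hx]; exact hZ _ (hcS t))).2
  obtain ⟨-, j2, j3, -, -⟩ := ix2k_jets hT hc hcS
  rw [c0, c1] at j2 j3
  rw [k2] at hmin
  simp only [inner_add_left, inner_smul_left, RCLike.conj_to_real, j2, j3] at hmin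
  linarith

/-- **(EB)** for all vectors. -/
theorem ix2t_eb' (hT : Ix2Tube n Sg U u) {φ : E n → ℝ} {s : ℝ} {x : E n} (hx : x ∈ Sg) (hφ : 0 ≤ φ x)
    (hZ : ∀ y ∈ Sg, 0 ≤ ix2Z u φ s x y) (V : E n) :
    0 ≤ φ x * ‖V‖ ^ 2 + s * ⟪gmtSimH u x V, V⟫ := by
  have h1 := ix2t_eb hT hx hZ (ix2t_pr_tan hT hx V)
  have h2 := ix2a_pr_norm_le (ix2t_on hT hx) V
  rw [ix2t_H_pr hT hx, ← ix2a_pr_symm,
    ix2a_pr_of_tan (ix2t_H_tan hT hx V).1 (ix2t_H_tan hT hx V).2] at h1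
  nlinarith

/-- **(TO)** the third order condition at a diagonal contact. -/
theorem ix2t_to (hT : Ix2Tube n Sg U u) {φ : E n → ℝ} {s : ℝ} {x : E n} (hx : x ∈ Sg)
    (hZ : ∀ y ∈ Sg, 0 ≤ ix2Z u φ s x y) {e : E n} (he : Ix2Tan u x e)
    (hB : φ x • e + s • gmtSimH u x e = 0) : s * ⟪ix2T u x e e, e⟫ = 0 := by
  obtain ⟨c, hc, c0, c1, hcS⟩ := ix2k_curve hT hx he
  obtain ⟨k0, k2, k3⟩ := ix2t_k (u := u) φ s x hc
  obtain ⟨-, j2, j3, j4, j5⟩ := ix2k_jets hT hc hcS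
  rw [c0, c1] at j2 j3 j4 j5
  have hBe : ∀ w, φ x * ⟪e, w⟫ + s * ⟪gmtSimH u x e, w⟫ = 0 := by
    intro w
    have := congrArg (fun z => ⟪z, w⟫) hB
    simpa [inner_add_left, inner_smul_left] using this
  have h3 := ix2c_min3 k0 (fun t => hZ _ (hcS t)) (by
    show ix2Z u φ s x (c 0) = 0
    rw [c0, ix2t_Z_self hT φ s hx]) (by
    rw [k2]
    simp only [inner_add_left, inner_smul_left, RCLike.conj_to_real, j2, j3]
    have := hBe e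
    rw [real_inner_self_eq_norm_sq] at this
    linarith)
  rw [k3] at h3
  simp only [inner_add_left, inner_smul_left, RCLike.conj_to_real, j4, j5] at h3
  have := hBe (deriv (deriv c) 0)
  linarith

/-! ## two moving points -/

section dp

variable {W : Set (E n)} {φ : E n → ℝ}

/-- jets of `φ ∘ c`. -/
theorem ix2t_phi (hW : IsOpen W) (hφ : ContDiffOn ℝ ∞ φ W) {c : ℝ → E n} (hc : ContDiff ℝ ∞ c)
    (hcW : ∀ t, c t ∈ W) :
    ContDiff ℝ ∞ (fun t => φ (c t)) ∧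
    deriv (fun t => φ (c t)) = (fun t => ⟪gradient φ (c t), deriv c t⟫) ∧
    deriv (deriv (fun t => φ (c t))) = (fun t => ⟪gmtSimH φ (c t) (deriv c t), deriv c t⟫
      + ⟪gradient φ (c t), deriv (deriv c) t⟫) := by
  refine ⟨ix2c_comp_smooth hφ hc hcW, ?_, ?_⟩
  · rw [ix2c_comp1 hW hφ hc hcW]
    funext t
    rw [gmtSim_inner_gradient]
  · rw [ix2c_comp2 hW hφ hc hcW]
    funext t
    rw [gmtSim_inner_gradient, gmtSim_H_inner hW hφ (hcW t)]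

/-- jets of `N ∘ c`. -/
theorem ix2t_N (hT : Ix2Tube n Sg U u) {c : ℝ → E n} (hc : ContDiff ℝ ∞ c) (hcU : ∀ t, c t ∈ U) :
    ContDiff ℝ ∞ (fun t => gradient u (c t)) ∧
    deriv (fun t => gradient u (c t)) = (fun t => gmtSimH u (c t) (deriv c t)) ∧
    deriv (deriv (fun t => gradient u (c t))) = (fun t => ix2T u (c t) (deriv c t) (deriv c t)
      + gmtSimH u (c t) (deriv (deriv c) t)) := by
  refine ⟨ix2c_comp_smooth (ix2k_N_smooth hT) hc hcU, ?_, ?_⟩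
  · rw [ix2c_comp1 hT.opn (ix2k_N_smooth hT) hc hcU]
    rfl
  · rw [ix2c_comp2 hT.opn (ix2k_N_smooth hT) hc hcU]
    rfl

/-- raw first and second order conditions along a pair of curves. -/
theorem ix2t_dp_raw (hT : Ix2Tube n Sg U u) (hW : IsOpen W) (hSW : Sg ⊆ W) (hφ : ContDiffOn ℝ ∞ φ W) {s : ℝ}
    (hZ : ∀ x ∈ Sg, ∀ y ∈ Sg, 0 ≤ ix2Z u φ s x y)
    {c η : ℝ → E n} (hc : ContDiff ℝ ∞ c) (hcS : ∀ t, c t ∈ Sg) (hη : ContDiff ℝ ∞ η) (hηS : ∀ t, η t ∈ Sg)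
    (h0 : ix2Z u φ s (c 0) (η 0) = 0) :
    (⟪gradient φ (c 0), deriv c 0⟫ * (1 - ⟪c 0, η 0⟫) - φ (c 0) * (⟪deriv c 0, η 0⟫ + ⟪c 0, deriv η 0⟫)
      - s * (⟪gmtSimH u (c 0) (deriv c 0), η 0⟫ + ⟪gradient u (c 0), deriv η 0⟫) = 0) ∧
    0 ≤ (⟪gmtSimH φ (c 0) (deriv c 0), deriv c 0⟫ + ⟪gradient φ (c 0), deriv (deriv c) 0⟫) * (1 - ⟪c 0, η 0⟫)
      - 2 * ⟪gradient φ (c 0), deriv c 0⟫ * (⟪deriv c 0, η 0⟫ + ⟪c 0, deriv η 0⟫)
      - φ (c 0) * (⟪deriv (deriv c) 0, η 0⟫ + 2 * ⟪deriv c 0, deriv η 0⟫ + ⟪c 0, deriv (deriv η) 0⟫)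
      - s * (⟪ix2T u (c 0) (deriv c 0) (deriv c 0) + gmtSimH u (c 0) (deriv (deriv c) 0), η 0⟫
          + 2 * ⟪gmtSimH u (c 0) (deriv c 0), deriv η 0⟫ + ⟪gradient u (c 0), deriv (deriv η) 0⟫) := by
  obtain ⟨a0, a1, a2⟩ := ix2t_phi hW hφ hc (fun t => hSW (hcS t))
  obtain ⟨n0, n1, n2⟩ := ix2t_N hT hc (fun t => ix2t_memU hT (hcS t))
  have b0 : ContDiff ℝ ∞ (fun t => ⟪c t, η t⟫) := ix2c_inner_smooth hc hη
  have p0 : ContDiff ℝ ∞ (fun t => 1 - ⟪c t, η t⟫) := contDiff_const.sub b0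
  have p0' : ContDiff ℝ ∞ (fun t => - deriv (fun t => ⟪c t, η t⟫) t) := (ix2c_deriv_smooth b0).neg
  have d0 : ContDiff ℝ ∞ (fun t => ⟪gradient u (c t), η t⟫) := ix2c_inner_smooth n0 hη
  have g0 : ContDiff ℝ ∞ (fun t => ix2Z u φ s (c t) (η t)) := (a0.mul p0).sub (contDiff_const.mul d0)
  have p1 : deriv (fun t => 1 - ⟪c t, η t⟫) = fun t => - (⟪deriv c t, η t⟫ + ⟪c t, deriv η t⟫) := by
    rw [ix2c_const_sub1 _ b0, ix2c_inner1 hc hη]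
  have p2 : deriv (deriv (fun t => 1 - ⟪c t, η t⟫)) = fun t =>
      - (⟪deriv (deriv c) t, η t⟫ + 2 * ⟪deriv c t, deriv η t⟫ + ⟪c t, deriv (deriv η) t⟫) := by
    rw [ix2c_const_sub1 _ b0, ix2c_neg_fun1 (ix2c_deriv_smooth b0), ix2c_inner2 hc hη]
  have g1 : deriv (fun t => ix2Z u φ s (c t) (η t)) = fun t =>
      (deriv (fun t => φ (c t)) t * (1 - ⟪c t, η t⟫) + φ (c t) * deriv (fun t => 1 - ⟪c t, η t⟫) t)
        - s * deriv (fun t => ⟪gradient u (c t), η t⟫) t := by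
    show deriv (fun t => φ (c t) * (1 - ⟪c t, η t⟫) - s * ⟪gradient u (c t), η t⟫) = _
    rw [ix2c_sub1 (a0.mul p0) (contDiff_const.mul d0), ix2c_mul1 a0 p0, ix2c_const_mul1 s d0]
  have g2 : deriv (deriv (fun t => ix2Z u φ s (c t) (η t))) = fun t =>
      (deriv (deriv (fun t => φ (c t))) t * (1 - ⟪c t, η t⟫)
        + 2 * (deriv (fun t => φ (c t)) t * deriv (fun t => 1 - ⟪c t, η t⟫) t)
        + φ (c t) * deriv (deriv (fun t => 1 - ⟪c t, η t⟫)) t)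
        - s * deriv (deriv (fun t => ⟪gradient u (c t), η t⟫)) t := by
    show deriv (deriv (fun t => φ (c t) * (1 - ⟪c t, η t⟫) - s * ⟪gradient u (c t), η t⟫)) = _
    rw [ix2c_sub1 (a0.mul p0) (contDiff_const.mul d0), ix2c_const_mul1 s d0,
      ix2c_sub1 (ix2c_deriv_smooth (a0.mul p0)) (contDiff_const.mul (ix2c_deriv_smooth d0)),
      ix2c_mul2 a0 p0, ix2c_const_mul1 s (ix2c_deriv_smooth d0)]
  obtain ⟨m1, m2⟩ := ix2c_min2 g0 (fun t => by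
    show ix2Z u φ s (c 0) (η 0) ≤ ix2Z u φ s (c t) (η t)
    rw [h0]; exact hZ _ (hcS t) _ (hηS t))
  rw [g1, a1, p1, ix2c_inner1 n0 hη, n1] at m1
  rw [g2, a2, a1, p2, p1, ix2c_inner2 n0 hη, n2, n1] at m2
  constructor
  · simp only at m1
    linarith
  · simp only at m2
    linarith

theorem ix2t_const (y : E n) : ContDiff ℝ ∞ (fun _ : ℝ => y) ∧ deriv (fun _ : ℝ => y) = (fun _ => 0) ∧
    deriv (deriv (fun _ : ℝ => y)) = fun _ => 0 := by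
  have h1 : deriv (fun _ : ℝ => y) = (fun _ => 0) := by funext t; simp
  refine ⟨contDiff_const, h1, ?_⟩
  rw [h1]; funext t; simp

/-- first order condition in `x`. -/
theorem ix2t_dp_fo_x (hT : Ix2Tube n Sg U u) (hW : IsOpen W) (hSW : Sg ⊆ W) (hφ : ContDiffOn ℝ ∞ φ W) {s : ℝ}
    (hZ : ∀ x ∈ Sg, ∀ y ∈ Sg, 0 ≤ ix2Z u φ s x y) {x y : E n} (hx : x ∈ Sg) (hy : y ∈ Sg)
    (h0 : ix2Z u φ s x y = 0) {e : E n} (he : Ix2Tan u x e) :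
    ⟪gradient φ x, e⟫ * (1 - ⟪x, y⟫) - φ x * ⟪e, y⟫ - s * ⟪gmtSimH u x e, y⟫ = 0 := by
  obtain ⟨c, hc, c0, c1, hcS⟩ := ix2k_curve hT hx he
  obtain ⟨k0, k1, -⟩ := ix2t_const y
  have := (ix2t_dp_raw hT hW hSW hφ hZ hc hcS k0 (fun _ => hy) (by rw [c0]; exact h0)).1
  rw [k1, c0, c1] at this
  simp only [inner_zero_right, add_zero] at this
  exact this

/-- first order condition in `y`. -/
theorem ix2t_dp_fo_y (hT : Ix2Tube n Sg U u) (hW : IsOpen W) (hSW : Sg ⊆ W) (hφ : ContDiffOn ℝ ∞ φ W) {s : ℝ}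
    (hZ : ∀ x ∈ Sg, ∀ y ∈ Sg, 0 ≤ ix2Z u φ s x y) {x y : E n} (hx : x ∈ Sg) (hy : y ∈ Sg)
    (h0 : ix2Z u φ s x y = 0) {e' : E n} (he' : Ix2Tan u y e') :
    φ x * ⟪x, e'⟫ + s * ⟪gradient u x, e'⟫ = 0 := by
  obtain ⟨η, hη, η0, η1, hηS⟩ := ix2k_curve hT hy he'
  obtain ⟨k0, k1, -⟩ := ix2t_const x
  have := (ix2t_dp_raw hT hW hSW hφ hZ k0 (fun _ => hx) hη hηS (by rw [η0]; exact h0)).1
  rw [k1, η0, η1] at this
  simp only [inner_zero_right, inner_zero_left, map_zero, zero_mul, zero_add, zero_sub] at this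
  linarith

/-- **second order condition at a contact `(x,y)`** (accelerations eliminated). -/
theorem ix2t_dp_so (hT : Ix2Tube n Sg U u) (hW : IsOpen W) (hSW : Sg ⊆ W) (hφ : ContDiffOn ℝ ∞ φ W) {s : ℝ}
    (hZ : ∀ x ∈ Sg, ∀ y ∈ Sg, 0 ≤ ix2Z u φ s x y) {x y : E n} (hx : x ∈ Sg) (hy : y ∈ Sg)
    (h0 : ix2Z u φ s x y = 0) {e e' : E n} (he : Ix2Tan u x e) (he' : Ix2Tan u y e') :
    0 ≤ ⟪gmtSimH φ x e, e⟫ * (1 - ⟪x, y⟫)
      - ⟪gmtSimH u x e, e⟫ * (⟪gradient φ x, gradient u x⟫ * (1 - ⟪x, y⟫) - φ x * ⟪gradient u x, y⟫)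
      - ‖e‖ ^ 2 * (⟪gradient φ x, x⟫ * (1 - ⟪x, y⟫) - φ x * ⟪x, y⟫)
      - 2 * ⟪gradient φ x, e⟫ * (⟪e, y⟫ + ⟪x, e'⟫) - 2 * φ x * ⟪e, e'⟫
      - s * ⟪ix2T u x e e, y⟫ - 2 * s * ⟪gmtSimH u x e, e'⟫
      + ⟪gmtSimH u y e', e'⟫ * (φ x * ⟪x, gradient u y⟫ + s * ⟪gradient u x, gradient u y⟫)
      + ‖e'‖ ^ 2 * φ x := by
  obtain ⟨c, hc, c0, c1, hcS⟩ := ix2k_curve hT hx he
  obtain ⟨η, hη, η0, η1, hηS⟩ := ix2k_curve hT hy he'
  have hxU := ix2t_memU hT hx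
  have raw := (ix2t_dp_raw hT hW hSW hφ hZ hc hcS hη hηS (by rw [c0, η0]; exact h0)).2
  -- the two functionals
  obtain ⟨ℓx, hℓx⟩ : ∃ ℓ : E n →L[ℝ] ℝ, ∀ w, ℓ w = ⟪gradient φ x, w⟫ * (1 - ⟪x, y⟫) - φ x * ⟪w, y⟫
      - s * ⟪gmtSimH u x w, y⟫ :=
    ⟨(1 - ⟪x, y⟫) • innerSL ℝ (gradient φ x) - φ x • innerSL ℝ y - s • (innerSL ℝ y).comp (gmtSimH u x), fun w => by
      simp only [sub_apply, smul_apply, innerSL_apply_apply,
        ContinuousLinearMap.comp_apply, smul_eq_mul]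
      rw [real_inner_comm w y, real_inner_comm (gmtSimH u x w) y]
      ring⟩
  obtain ⟨ℓy, hℓy⟩ : ∃ ℓ : E n →L[ℝ] ℝ, ∀ w, ℓ w = - (φ x * ⟪x, w⟫) - s * ⟪gradient u x, w⟫ :=
    ⟨- (φ x • innerSL ℝ x) - s • innerSL ℝ (gradient u x), fun w => by
      simp only [sub_apply, neg_apply, smul_apply,
        innerSL_apply_apply, smul_eq_mul]⟩
  have mx := ix2t_mult hT hc hcS ℓx (fun w hw => by
    rw [c0] at hw
    rw [hℓx]; exact ix2t_dp_fo_x hT hW hSW hφ hZ hx hy h0 hw)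
  have my := ix2t_mult hT hη hηS ℓy (fun w hw => by
    rw [η0] at hw
    rw [hℓy]
    have := ix2t_dp_fo_y hT hW hSW hφ hZ hx hy h0 hw
    linarith)
  rw [c0, c1] at mx raw
  rw [η0, η1] at my raw
  simp only [hℓx, hℓy, ix2k_H_N hT hxU, ix2k_H_x hT hxU, inner_zero_left, mul_zero, sub_zero] at mx my
  have hz : φ x * (1 - ⟪x, y⟫) - s * ⟪gradient u x, y⟫ = 0 := h0
  simp only [inner_add_left] at raw
  have e1 : ‖e'‖ ^ 2 * (-(φ x * ⟪x, y⟫) - s * ⟪gradient u x, y⟫) = - (‖e'‖ ^ 2 * φ x) := by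
    have : -(φ x * ⟪x, y⟫) - s * ⟪gradient u x, y⟫ = - φ x := by linarith
    rw [this]; ring
  rw [e1] at my
  linarith

end dp

/-! ## the diagonal -/

section dg

variable {W : Set (E n)} {φ : E n → ℝ}

/-- jets of `h ∘ c`. -/
theorem ix2t_H (hT : Ix2Tube n Sg U u) {c : ℝ → E n} (hc : ContDiff ℝ ∞ c) (hcU : ∀ t, c t ∈ U) :
    ContDiff ℝ ∞ (fun t => gmtSimH u (c t)) ∧
    deriv (fun t => gmtSimH u (c t)) = (fun t => ix2T u (c t) (deriv c t)) ∧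
    deriv (deriv (fun t => gmtSimH u (c t))) = (fun t => ix2Q u (c t) (deriv c t) (deriv c t)
      + ix2T u (c t) (deriv (deriv c) t)) := by
  refine ⟨ix2c_comp_smooth (ix2k_H_smooth hT) hc hcU, ?_, ?_⟩
  · rw [ix2c_comp1 hT.opn (ix2k_H_smooth hT) hc hcU]
    rfl
  · rw [ix2c_comp2 hT.opn (ix2k_H_smooth hT) hc hcU]
    rfl

/-- raw first and second order conditions for `G(x,V) = φ x ⟪V,V⟫ + s ⟪h_x V, V⟫` along `(c t, v + t b)`. -/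
theorem ix2t_dg_raw (hT : Ix2Tube n Sg U u) (hW : IsOpen W) (hSW : Sg ⊆ W) (hφ : ContDiffOn ℝ ∞ φ W) {s : ℝ}
    (hG : ∀ x ∈ Sg, ∀ V : E n, 0 ≤ φ x * ⟪V, V⟫ + s * ⟪gmtSimH u x V, V⟫)
    {c : ℝ → E n} (hc : ContDiff ℝ ∞ c) (hcS : ∀ t, c t ∈ Sg) (v b : E n)
    (h0 : φ (c 0) * ⟪v, v⟫ + s * ⟪gmtSimH u (c 0) v, v⟫ = 0) :
    (⟪gradient φ (c 0), deriv c 0⟫ * ⟪v, v⟫ + φ (c 0) * (⟪b, v⟫ + ⟪v, b⟫)
      + s * (⟪ix2T u (c 0) (deriv c 0) v + gmtSimH u (c 0) b, v⟫ + ⟪gmtSimH u (c 0) v, b⟫) = 0) ∧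
    0 ≤ (⟪gmtSimH φ (c 0) (deriv c 0), deriv c 0⟫ + ⟪gradient φ (c 0), deriv (deriv c) 0⟫) * ⟪v, v⟫
      + 2 * (⟪gradient φ (c 0), deriv c 0⟫ * (⟪b, v⟫ + ⟪v, b⟫)) + φ (c 0) * (2 * ⟪b, b⟫)
      + s * (⟪(ix2Q u (c 0) (deriv c 0) (deriv c 0) + ix2T u (c 0) (deriv (deriv c) 0)) v
            + (2 : ℝ) • ix2T u (c 0) (deriv c 0) b, v⟫
          + 2 * ⟪ix2T u (c 0) (deriv c 0) v + gmtSimH u (c 0) b, b⟫) := by
  obtain ⟨a0, a1, a2⟩ := ix2t_phi hW hφ hc (fun t => hSW (hcS t))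
  obtain ⟨H0, H1, H2⟩ := ix2t_H hT hc (fun t => ix2t_memU hT (hcS t))
  obtain ⟨V0, V1, V2⟩ := ix2c_affine v b
  have w0 : ContDiff ℝ ∞ (fun t => gmtSimH u (c t) (v + t • b)) := ix2c_clm_smooth H0 V0
  have r0 : ContDiff ℝ ∞ (fun t : ℝ => ⟪v + t • b, v + t • b⟫) := ix2c_inner_smooth V0 V0
  have q0 : ContDiff ℝ ∞ (fun t => ⟪gmtSimH u (c t) (v + t • b), v + t • b⟫) := ix2c_inner_smooth w0 V0
  have g0 : ContDiff ℝ ∞ (fun t => φ (c t) * ⟪v + t • b, v + t • b⟫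
      + s * ⟪gmtSimH u (c t) (v + t • b), v + t • b⟫) := (a0.mul r0).add (contDiff_const.mul q0)
  have g1 : deriv (fun t => φ (c t) * ⟪v + t • b, v + t • b⟫ + s * ⟪gmtSimH u (c t) (v + t • b), v + t • b⟫)
      = fun t => (deriv (fun t => φ (c t)) t * ⟪v + t • b, v + t • b⟫
          + φ (c t) * deriv (fun t : ℝ => ⟪v + t • b, v + t • b⟫) t)
        + s * deriv (fun t => ⟪gmtSimH u (c t) (v + t • b), v + t • b⟫) t := by
    rw [ix2c_add1 (a0.mul r0) (contDiff_const.mul q0), ix2c_mul1 a0 r0, ix2c_const_mul1 s q0]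
  have g2 : deriv (deriv (fun t => φ (c t) * ⟪v + t • b, v + t • b⟫
        + s * ⟪gmtSimH u (c t) (v + t • b), v + t • b⟫))
      = fun t => (deriv (deriv (fun t => φ (c t))) t * ⟪v + t • b, v + t • b⟫
          + 2 * (deriv (fun t => φ (c t)) t * deriv (fun t : ℝ => ⟪v + t • b, v + t • b⟫) t)
          + φ (c t) * deriv (deriv (fun t : ℝ => ⟪v + t • b, v + t • b⟫)) t)
        + s * deriv (deriv (fun t => ⟪gmtSimH u (c t) (v + t • b), v + t • b⟫)) t := by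
    rw [ix2c_add1 (a0.mul r0) (contDiff_const.mul q0), ix2c_const_mul1 s q0,
      ix2c_add1 (ix2c_deriv_smooth (a0.mul r0)) (contDiff_const.mul (ix2c_deriv_smooth q0)),
      ix2c_mul2 a0 r0, ix2c_const_mul1 s (ix2c_deriv_smooth q0)]
  obtain ⟨m1, m2⟩ := ix2c_min2 g0 (fun t => by
    simp only [zero_smul, add_zero]
    rw [h0]; exact hG _ (hcS t) _)
  rw [g1, a1, ix2c_inner1 V0 V0, ix2c_inner1 w0 V0, ix2c_clm1 H0 V0, H1, V1] at m1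
  rw [g2, a2, a1, ix2c_inner2 V0 V0, ix2c_inner1 V0 V0, ix2c_inner2 w0 V0, ix2c_clm2 H0 V0,
    ix2c_clm1 H0 V0, H2, H1, V2, V1] at m2
  constructor
  · simp only [zero_smul, add_zero] at m1
    linarith
  · simp only [zero_smul, add_zero, inner_zero_left, inner_zero_right, map_zero, zero_add] at m2
    linarith

/-- first order condition at a diagonal contact. -/
theorem ix2t_dg_fo (hT : Ix2Tube n Sg U u) (hW : IsOpen W) (hSW : Sg ⊆ W) (hφ : ContDiffOn ℝ ∞ φ W) {s : ℝ}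
    (hG : ∀ x ∈ Sg, ∀ V : E n, 0 ≤ φ x * ⟪V, V⟫ + s * ⟪gmtSimH u x V, V⟫)
    {x : E n} (hx : x ∈ Sg) {v : E n} (h0 : φ x * ⟪v, v⟫ + s * ⟪gmtSimH u x v, v⟫ = 0)
    {e : E n} (he : Ix2Tan u x e) :
    ⟪gradient φ x, e⟫ * ⟪v, v⟫ + s * ⟪ix2T u x e v, v⟫ = 0 := by
  obtain ⟨c, hc, c0, c1, hcS⟩ := ix2k_curve hT hx he
  have := (ix2t_dg_raw hT hW hSW hφ hG hc hcS v 0 (by rw [c0]; exact h0)).1
  rw [c0, c1] at this
  simp only [inner_zero_left, inner_zero_right, map_zero, add_zero, mul_zero] at this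
  exact this

/-- **second order condition at a diagonal contact** (acceleration eliminated). -/
theorem ix2t_dg_so (hT : Ix2Tube n Sg U u) (hW : IsOpen W) (hSW : Sg ⊆ W) (hφ : ContDiffOn ℝ ∞ φ W) {s : ℝ}
    (hG : ∀ x ∈ Sg, ∀ V : E n, 0 ≤ φ x * ⟪V, V⟫ + s * ⟪gmtSimH u x V, V⟫)
    {x : E n} (hx : x ∈ Sg) {v : E n} (h0 : φ x * ⟪v, v⟫ + s * ⟪gmtSimH u x v, v⟫ = 0)
    {e : E n} (he : Ix2Tan u x e) (b : E n) :
    0 ≤ ⟪gmtSimH φ x e, e⟫ * ⟪v, v⟫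
      - ⟪gmtSimH u x e, e⟫ * (⟪gradient φ x, gradient u x⟫ * ⟪v, v⟫ + s * ⟪ix2T u x (gradient u x) v, v⟫)
      - ‖e‖ ^ 2 * (⟪gradient φ x, x⟫ * ⟪v, v⟫ - s * ⟪gmtSimH u x v, v⟫)
      + 4 * ⟪gradient φ x, e⟫ * ⟪b, v⟫ + 2 * φ x * ⟪b, b⟫
      + s * (⟪ix2Q u x e e v, v⟫ + 4 * ⟪ix2T u x e v, b⟫ + 2 * ⟪gmtSimH u x b, b⟫) := by
  obtain ⟨c, hc, c0, c1, hcS⟩ := ix2k_curve hT hx he
  have hxU := ix2t_memU hT hx
  have raw := (ix2t_dg_raw hT hW hSW hφ hG hc hcS v b (by rw [c0]; exact h0)).2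
  obtain ⟨ℓ, hℓ⟩ : ∃ ℓ : E n →L[ℝ] ℝ, ∀ w, ℓ w = ⟪gradient φ x, w⟫ * ⟪v, v⟫ + s * ⟪ix2T u x w v, v⟫ :=
    ⟨⟪v, v⟫ • innerSL ℝ (gradient φ x) + s • (innerSL ℝ v).comp ((ix2T u x).flip v), fun w => by
      simp only [add_apply, smul_apply, innerSL_apply_apply,
        ContinuousLinearMap.comp_apply, ContinuousLinearMap.flip_apply, smul_eq_mul]
      rw [real_inner_comm (ix2T u x w v) v]
      ring⟩
  have mx := ix2t_mult hT hc hcS ℓ (fun w hw => by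
    rw [c0] at hw
    rw [hℓ]; exact ix2t_dg_fo hT hW hSW hφ hG hx h0 hw)
  rw [c0, c1] at mx raw
  simp only [hℓ] at mx
  rw [ix2k_T_symm12 hT hxU x v, ix2k_T_x hT hxU v, inner_neg_left] at mx
  simp only [inner_add_left, add_apply, inner_smul_left, RCLike.conj_to_real] at raw
  rw [ix2k_T_symm23 hT hxU e b v, real_inner_comm b v] at raw
  linarith

end dg

end Claimed.Agent.R323
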