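import Claimed.Agent.R323.Ix.TwoTest

/-!
# Row 323, block F1, file 5: TRACES over the tangent space of the link.   (helper201; prefix `ix2r_`)
`e_i = ix2Pr x (N x) (eb i)`.   (trH) `∑ h(e_i,e_i) = 0`,  (T3) `∑ D³u(e_i,e_i,w) = - P ⟪N,w⟫`,  (T4) `∑ D⁴u(e_i,e_i,v,v) = - P h(v,v) - 2 h³(v,v) - 2 h(v,v)`.
-/

set_option autoImplicit false
open scoped ContDiff ENNReal RealInnerProductSpace Topology
open MeasureTheory Metric Set Filter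

namespace Claimed.Agent.R323

open Claimed.Agent.Gmt

variable {n : ℕ} {Sg U : Set (E n)} {u : E n → ℝ}

theorem ix2r_trH (hT : Ix2Tube n Sg U u) {x : E n} (hx : x ∈ Sg) :
    ∑ i, ⟪gmtSimH u x (ix2Pr x (gradient u x) (eb i)), ix2Pr x (gradient u x) (eb i)⟫ = 0 := by
  obtain ⟨hxU, hx0, -⟩ := (hT.mem_iff x).1 hx
  rw [ix2a_tr (ix2t_on hT hx), ix2k_H_N hT hxU, ix2k_H_x hT hxU]
  have : gmtSimTr (gmtSimH u x) = 0 := by
    have h := hT.harm x hxU hx0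
    rw [gmtSim_div_eq_tr] at h
    exact h
  simp [this]

theorem ix2r_T3 (hT : Ix2Tube n Sg U u) {x : E n} (hx : x ∈ Sg) (w : E n) :
    ∑ i, ⟪ix2T u x (ix2Pr x (gradient u x) (eb i)) (ix2Pr x (gradient u x) (eb i)), w⟫
      = - gmtSimA u x * ⟪gradient u x, w⟫ := by
  have hxU := ix2t_memU hT hx
  have e1 : ∀ e : E n, ⟪ix2T u x e e, w⟫ = ⟪(ix2T u x).flip w e, e⟫ := by
    intro e
    rw [ContinuousLinearMap.flip_apply, ix2k_T_symm23 hT hxU]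
  simp only [e1]
  rw [ix2a_tr (ix2t_on hT hx)]
  simp only [ContinuousLinearMap.flip_apply, gmtSimTr]
  have e2 : ∑ i, ⟪ix2T u x (eb i) w, eb i⟫ = - gmtSimA u x * ⟪gradient u x, w⟫ := by
    rw [← ix2k_trT hT hx w]
    exact Finset.sum_congr rfl fun i _ => by rw [ix2k_T_symm12 hT hxU]
  rw [e2, ix2k_T_symm23 hT hxU (gradient u x) w, ix2k_T_N hT hxU, ix2k_H_N hT hxU,
    ix2k_T_symm23 hT hxU x w, ix2k_T_x hT hxU, ix2k_H_x hT hxU]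
  simp

theorem ix2r_T4 (hT : Ix2Tube n Sg U u) {x : E n} (hx : x ∈ Sg) {v : E n} (hv : Ix2Tan u x v) :
    ∑ i, ⟪ix2Q u x (ix2Pr x (gradient u x) (eb i)) (ix2Pr x (gradient u x) (eb i)) v, v⟫
      = - gmtSimA u x * ⟪gmtSimH u x v, v⟫ - 2 * ⟪gmtSimH u x (gmtSimH u x v), gmtSimH u x v⟫
        - 2 * ⟪gmtSimH u x v, v⟫ := by
  have hxU := ix2t_memU hT hx
  have e0 : ∀ e : E n, ⟪ix2Q u x e e v, v⟫ = ⟪ix2Q u x e v v, e⟫ := by
    intro e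
    rw [ix2k_Q_symm23 hT hxU e e v, ix2k_Q_symm34 hT hxU]
  have e1 : ∀ e : E n, ⟪ix2Q u x e e v, v⟫ = ⟪((ix2Q u x).flip v).flip v e, e⟫ := by
    intro e
    rw [ContinuousLinearMap.flip_apply, ContinuousLinearMap.flip_apply, e0]
  simp only [e1]
  rw [ix2a_tr (ix2t_on hT hx)]
  simp only [ContinuousLinearMap.flip_apply, gmtSimTr]
  have e2 : ∑ i, ⟪ix2Q u x (eb i) v v, eb i⟫ = - gmtSimA u x * ⟪gmtSimH u x v, v⟫ := by
    rw [← ix2k_trQ hT hx hv]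
    exact Finset.sum_congr rfl fun i _ => by
      rw [ix2k_Q_symm12 hT hxU (eb i) v v, ix2k_Q_symm23 hT hxU v (eb i) v]
  rw [e2, ← e0, ← e0, ix2k_Q_NN hT hxU, ix2k_Q_xx hT hxU]

end Claimed.Agent.R323
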